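import Claimed.Agent.R322.Pack030

/-!
# R322 / Sx / Sep / GaussK : kernel toolbox for Gaussian averages `gav` (leaves `L-Sep-GaussA`, `L-Sep-GaussB`)

No geometry, no paper: finite measures `μ` on `E m`, `gav μ s x = ∫ G_s(y - x) dμ(y)`,
`G_s(z) = (2π s²)^{-m/2} exp(-|z|²/(2 s²))`.  All constants depend only on `m`.

Proofs: helper116 (helper lemmas prefix `gk_`).

Part A (pointwise kernel inequalities and their integrated forms), Part B (derivatives, continuity).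
-/

set_option autoImplicit false

namespace Claimed.Agent.R322.Sx.Sep

open MeasureTheory Set Metric
open scoped ENNReal NNReal InnerProductSpace

variable {m : ℕ}

/-! ## Part A -/

/-- the normalising constant -/
theorem gk_coef (m : ℕ) {s : ℝ} (hs : 0 < s) :
    (2 * Real.pi * s ^ 2) ^ (-(m : ℝ) / 2) = (2 * Real.pi) ^ (-(m : ℝ) / 2) * (s ^ m)⁻¹ := by
  rw [Real.mul_rpow (by positivity) (by positivity)]
  congr 1
  rw [← Real.rpow_natCast s 2, ← Real.rpow_mul hs.le, ← Real.rpow_natCast s m, ← Real.rpow_neg hs.le]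
  congr 1
  push_cast
  ring

theorem gk_coef_pos (m : ℕ) {s : ℝ} (hs : 0 < s) : 0 < (2 * Real.pi * s ^ 2) ^ (-(m : ℝ) / 2) :=
  Real.rpow_pos_of_pos (by positivity) _

theorem gk_twopi_le_one (m : ℕ) : (2 * Real.pi) ^ (-(m : ℝ) / 2) ≤ 1 := by
  apply Real.rpow_le_one_of_one_le_of_nonpos
  · nlinarith [Real.pi_gt_three]
  · have : (0 : ℝ) ≤ m := Nat.cast_nonneg m
    linarith

theorem gauss_pos (m : ℕ) {s : ℝ} (hs : 0 < s) (z : E m) : 0 < gauss m s z := by
  unfold gauss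
  exact mul_pos (gk_coef_pos m hs) (Real.exp_pos _)

theorem gauss_le (m : ℕ) {s : ℝ} (hs : 0 < s) (z : E m) :
    gauss m s z ≤ (2 * Real.pi * s ^ 2) ^ (-(m : ℝ) / 2) := by
  unfold gauss
  have h1 : Real.exp (-‖z‖ ^ 2 / (2 * s ^ 2)) ≤ 1 := by
    rw [Real.exp_le_one_iff]
    have : 0 ≤ ‖z‖ ^ 2 / (2 * s ^ 2) := by positivity
    rw [neg_div]
    linarith
  calc _ ≤ (2 * Real.pi * s ^ 2) ^ (-(m : ℝ) / 2) * 1 :=
        mul_le_mul_of_nonneg_left h1 (gk_coef_pos m hs).le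
    _ = _ := mul_one _

theorem gk_coef_le (m : ℕ) {s : ℝ} (hs : 0 < s) :
    (2 * Real.pi * s ^ 2) ^ (-(m : ℝ) / 2) ≤ s ^ (-(m : ℝ)) := by
  rw [gk_coef m hs, Real.rpow_neg hs.le, Real.rpow_natCast]
  have : 0 < (s ^ m)⁻¹ := by positivity
  calc _ ≤ 1 * (s ^ m)⁻¹ := mul_le_mul_of_nonneg_right (gk_twopi_le_one m) this.le
    _ = _ := one_mul _

/-- crude form: `G_s ≤ s^{-m}`. -/
theorem gauss_le' (m : ℕ) {s : ℝ} (hs : 0 < s) (z : E m) : gauss m s z ≤ s ^ (-(m : ℝ)) :=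
  (gauss_le m hs z).trans (gk_coef_le m hs)

theorem gauss_continuous (m : ℕ) (s : ℝ) : Continuous (gauss m s) := by
  unfold gauss
  fun_prop

theorem gauss_integrable (μ : Measure (E m)) [IsFiniteMeasure μ] {s : ℝ} (hs : 0 < s) (x : E m) :
    Integrable (fun y => gauss m s (y - x)) μ := by
  refine Integrable.of_bound (C := s ^ (-(m : ℝ))) ?_ ?_
  · exact ((gauss_continuous m s).comp (continuous_id.sub continuous_const)).aestronglyMeasurable
  · refine Filter.Eventually.of_forall fun y => ?_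
    rw [Real.norm_eq_abs, abs_of_pos (gauss_pos m hs _)]
    exact gauss_le' m hs _

theorem gk_integral_exp {s : ℝ} (hs : 0 < s) :
    ∫ v : E m, Real.exp (-‖v‖ ^ 2 / (2 * s ^ 2)) = (2 * Real.pi * s ^ 2) ^ ((m : ℝ) / 2) := by
  have h := GaussianFourier.integral_rexp_neg_mul_sq_norm (V := E m) (b := (2 * s ^ 2)⁻¹) (by positivity)
  rw [finrank_euclideanSpace, Fintype.card_fin] at h
  have e1 : Real.pi / (2 * s ^ 2)⁻¹ = 2 * Real.pi * s ^ 2 := by
    rw [div_inv_eq_mul]; ring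
  rw [e1] at h
  rw [← h]
  congr 1
  ext v
  congr 1
  rw [div_eq_mul_inv]
  ring

theorem gk_integral_gauss {s : ℝ} (hs : 0 < s) : ∫ v : E m, gauss m s v = 1 := by
  unfold gauss
  rw [integral_const_mul, gk_integral_exp hs, ← Real.rpow_add (by positivity)]
  have : -(m : ℝ) / 2 + (m : ℝ) / 2 = 0 := by ring
  rw [this, Real.rpow_zero]

/-- `∫ G_s = 1`. -/
theorem gav_volume {s : ℝ} (hs : 0 < s) (x : E m) : gav (volume : Measure (E m)) s x = 1 := by
  unfold gav
  rw [integral_sub_right_eq_self (fun y => gauss m s y) x]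
  exact gk_integral_gauss hs

theorem gauss_integrable_volume {s : ℝ} (hs : 0 < s) (x : E m) :
    Integrable (fun y => gauss m s (y - x)) (volume : Measure (E m)) := by
  by_contra h
  have := gav_volume (m := m) hs x
  unfold gav at this
  rw [integral_undef h] at this
  exact zero_ne_one this

theorem gav_nonneg (μ : Measure (E m)) {s : ℝ} (hs : 0 < s) (x : E m) : 0 ≤ gav μ s x :=
  integral_nonneg fun _ => (gauss_pos m hs _).le

theorem gav_add (μ μ' : Measure (E m)) [IsFiniteMeasure μ] [IsFiniteMeasure μ'] {s : ℝ}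
    (hs : 0 < s) (x : E m) : gav (μ + μ') s x = gav μ s x + gav μ' s x :=
  integral_add_measure (gauss_integrable μ hs x) (gauss_integrable μ' hs x)

theorem gav_smul (μ : Measure (E m)) (c : ℝ) (hc : 0 ≤ c) (s : ℝ) (x : E m) :
    gav (ENNReal.ofReal c • μ) s x = c * gav μ s x := by
  unfold gav
  rw [integral_smul_measure, ENNReal.toReal_ofReal hc, smul_eq_mul]

theorem gav_mono {μ μ' : Measure (E m)} [IsFiniteMeasure μ'] (h : μ ≤ μ') {s : ℝ} (hs : 0 < s)
    (x : E m) : gav μ s x ≤ gav μ' s x :=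
  integral_mono_measure h (Filter.Eventually.of_forall fun _ => (gauss_pos m hs _).le)
    (gauss_integrable μ' hs x)

/-- `ν = τ' + d dy`. -/
theorem gav_add_volume (μ : Measure (E m)) [IsFiniteMeasure μ] {d s : ℝ} (hd : 0 ≤ d) (hs : 0 < s)
    (x : E m) : gav (μ + ENNReal.ofReal d • (volume : Measure (E m))) s x = gav μ s x + d := by
  have h1 : gav (μ + ENNReal.ofReal d • (volume : Measure (E m))) s x =
      gav μ s x + gav (ENNReal.ofReal d • (volume : Measure (E m))) s x :=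
    integral_add_measure (gauss_integrable μ hs x)
      ((gauss_integrable_volume hs x).smul_measure ENNReal.ofReal_ne_top)
  rw [h1, gav_smul _ d hd, gav_volume hs, mul_one]

/-- `G_v ≤ (t/v)^m G_t` for `v ≤ t`. -/
theorem gauss_scale_le (m : ℕ) {v t : ℝ} (hv : 0 < v) (hvt : v ≤ t) (z : E m) :
    gauss m v z ≤ (t / v) ^ m * gauss m t z := by
  have ht : 0 < t := lt_of_lt_of_le hv hvt
  unfold gauss
  rw [gk_coef m hv, gk_coef m ht]
  have e1 : (t / v) ^ m * ((2 * Real.pi) ^ (-(m : ℝ) / 2) * (t ^ m)⁻¹ * Real.exp (-‖z‖ ^ 2 / (2 * t ^ 2)))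
      = (2 * Real.pi) ^ (-(m : ℝ) / 2) * (v ^ m)⁻¹ * Real.exp (-‖z‖ ^ 2 / (2 * t ^ 2)) := by
    rw [div_pow]
    field_simp
  rw [e1]
  refine mul_le_mul_of_nonneg_left ?_ (by positivity)
  rw [Real.exp_le_exp, neg_div, neg_div, neg_le_neg_iff]
  apply div_le_div_of_nonneg_left (by positivity) (by positivity)
  have : v ^ 2 ≤ t ^ 2 := by gcongr
  linarith

theorem gav_scale_le (μ : Measure (E m)) [IsFiniteMeasure μ] {v t : ℝ} (hv : 0 < v) (hvt : v ≤ t)
    (x : E m) : gav μ v x ≤ (t / v) ^ m * gav μ t x := by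
  have ht : 0 < t := lt_of_lt_of_le hv hvt
  unfold gav
  rw [← integral_const_mul]
  exact integral_mono (gauss_integrable μ hv x) ((gauss_integrable μ ht x).const_mul _)
    fun y => gauss_scale_le m hv hvt _

/-- `μ(B_{k a}(x)) ≤ (2π)^{m/2} e^{k²/2} a^m μ_a(x)`. -/
theorem measure_ball_le_gav' (μ : Measure (E m)) [IsFiniteMeasure μ] {a k : ℝ} (ha : 0 < a)
    (hk : 0 ≤ k) (x : E m) :
    (μ (closedBall x (k * a))).toReal
      ≤ (2 * Real.pi) ^ ((m : ℝ) / 2) * Real.exp (k ^ 2 / 2) * a ^ m * gav μ a x := by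
  set c : ℝ := (2 * Real.pi) ^ (-(m : ℝ) / 2) * (a ^ m)⁻¹ * Real.exp (-(k ^ 2 / 2)) with hc
  have hcpos : 0 < c := by positivity
  have h1 : c * (μ (closedBall x (k * a))).toReal ≤ gav μ a x := by
    calc c * (μ (closedBall x (k * a))).toReal = ∫ _y in closedBall x (k * a), c ∂μ := by
          rw [setIntegral_const, smul_eq_mul, mul_comm]; rfl
      _ ≤ ∫ y in closedBall x (k * a), gauss m a (y - x) ∂μ := by
          refine setIntegral_mono_on (integrable_const c).integrableOn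
            (gauss_integrable μ ha x).integrableOn measurableSet_closedBall ?_
          intro y hy
          rw [mem_closedBall, dist_eq_norm] at hy
          unfold gauss
          rw [gk_coef m ha, hc]
          refine mul_le_mul_of_nonneg_left ?_ (by positivity)
          rw [Real.exp_le_exp, neg_div, neg_le_neg_iff, div_le_div_iff₀ (by positivity) (by positivity)]
          have : ‖y - x‖ ^ 2 ≤ (k * a) ^ 2 := by gcongr
          nlinarith
      _ ≤ gav μ a x :=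
          setIntegral_le_integral (gauss_integrable μ ha x)
            (Filter.Eventually.of_forall fun y => (gauss_pos m ha _).le)
  have h2 : (2 * Real.pi) ^ ((m : ℝ) / 2) * Real.exp (k ^ 2 / 2) * a ^ m * c = 1 := by
    rw [hc, Real.exp_neg, neg_div, Real.rpow_neg (by positivity)]
    field_simp
  calc (μ (closedBall x (k * a))).toReal
      = (2 * Real.pi) ^ ((m : ℝ) / 2) * Real.exp (k ^ 2 / 2) * a ^ m * c * (μ (closedBall x (k * a))).toReal := by
        rw [h2, one_mul]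
    _ = (2 * Real.pi) ^ ((m : ℝ) / 2) * Real.exp (k ^ 2 / 2) * a ^ m * (c * (μ (closedBall x (k * a))).toReal) := by
        ring
    _ ≤ _ := mul_le_mul_of_nonneg_left h1 (by positivity)

/-- positivity of the kernel: `μ(B_a(x)) ≤ (2π)^{m/2} e^{1/2} a^m μ_a(x)`. -/
theorem measure_ball_le_gav (μ : Measure (E m)) [IsFiniteMeasure μ] {a : ℝ} (ha : 0 < a) (x : E m) :
    (μ (closedBall x a)).toReal ≤ (2 * Real.pi) ^ ((m : ℝ) / 2) * Real.exp (1 / 2) * a ^ m * gav μ a x := by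
  have := measure_ball_le_gav' μ ha zero_le_one x
  rwa [one_mul, one_pow] at this

theorem gav_le_total (μ : Measure (E m)) [IsFiniteMeasure μ] {v : ℝ} (hv : 0 < v) (x : E m) :
    gav μ v x ≤ v ^ (-(m : ℝ)) * (μ univ).toReal := by
  unfold gav
  calc ∫ y, gauss m v (y - x) ∂μ ≤ ∫ _y, v ^ (-(m : ℝ)) ∂μ :=
        integral_mono (gauss_integrable μ hv x) (integrable_const _) fun y => gauss_le' m hv _
    _ = _ := by rw [integral_const, smul_eq_mul, mul_comm]; rfl

/-- Gaussian tail beyond the radius `r`. -/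
theorem gav_tail_le (μ : Measure (E m)) [IsFiniteMeasure μ] {v r : ℝ} (hv : 0 < v) (hr : 0 ≤ r)
    (x : E m) :
    ∫ y in (closedBall x r)ᶜ, gauss m v (y - x) ∂μ
      ≤ v ^ (-(m : ℝ)) * Real.exp (-r ^ 2 / (2 * v ^ 2)) * (μ univ).toReal := by
  have hvm : 0 < v ^ (-(m : ℝ)) := Real.rpow_pos_of_pos hv _
  calc ∫ y in (closedBall x r)ᶜ, gauss m v (y - x) ∂μ
      ≤ ∫ _y in (closedBall x r)ᶜ, v ^ (-(m : ℝ)) * Real.exp (-r ^ 2 / (2 * v ^ 2)) ∂μ := by
        refine setIntegral_mono_on (gauss_integrable μ hv x).integrableOn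
          (integrable_const _).integrableOn measurableSet_closedBall.compl ?_
        intro y hy
        rw [mem_compl_iff, mem_closedBall, dist_eq_norm, not_le] at hy
        unfold gauss
        refine mul_le_mul (gk_coef_le m hv) ?_ (Real.exp_pos _).le hvm.le
        rw [Real.exp_le_exp, neg_div, neg_div, neg_le_neg_iff]
        have : r ^ 2 ≤ ‖y - x‖ ^ 2 := by gcongr
        gcongr
    _ = v ^ (-(m : ℝ)) * Real.exp (-r ^ 2 / (2 * v ^ 2)) * (μ (closedBall x r)ᶜ).toReal := by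
        rw [setIntegral_const, smul_eq_mul, mul_comm]; rfl
    _ ≤ _ := by
        refine mul_le_mul_of_nonneg_left ?_ (by positivity)
        exact ENNReal.toReal_mono (measure_ne_top μ _) (measure_mono (subset_univ _))

/-- polynomial factors cost a doubling of the scale (explicit constant). -/
theorem gk_gauss_poly_le (m : ℕ) {v : ℝ} (hv : 0 < v) (z : E m) :
    gauss m v z * (1 + ‖z‖ ^ 2 / v ^ 2) ≤ (2 ^ m * (8 / 3)) * gauss m (2 * v) z := by
  have h2v : 0 < 2 * v := by positivity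
  unfold gauss
  rw [gk_coef m hv, gk_coef m h2v]
  set u : ℝ := ‖z‖ ^ 2 / v ^ 2 with hu
  have hu0 : 0 ≤ u := by positivity
  have e1 : -‖z‖ ^ 2 / (2 * v ^ 2) = -(u / 2) := by rw [hu]; field_simp
  have e2 : -‖z‖ ^ 2 / (2 * (2 * v) ^ 2) = -(u / 8) := by rw [hu]; field_simp; ring
  rw [e1, e2]
  have h3 : (1 + u) * Real.exp (-(u / 2)) ≤ 8 / 3 * Real.exp (-(u / 8)) := by
    have h4 : -(u / 2) = -(u / 8) + -(3 * u / 8) := by ring
    rw [h4, Real.exp_add]
    have h5 : (1 + u) * Real.exp (-(3 * u / 8)) ≤ 8 / 3 := by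
      have h6 : 3 * u / 8 + 1 ≤ Real.exp (3 * u / 8) := Real.add_one_le_exp _
      rw [Real.exp_neg, ← div_eq_mul_inv, div_le_iff₀ (Real.exp_pos _)]
      nlinarith
    have h7 := Real.exp_pos (-(u / 8))
    nlinarith
  have h8 : (0 : ℝ) < (2 * Real.pi) ^ (-(m : ℝ) / 2) * (v ^ m)⁻¹ := by positivity
  calc (2 * Real.pi) ^ (-(m : ℝ) / 2) * (v ^ m)⁻¹ * Real.exp (-(u / 2)) * (1 + u)
      = (2 * Real.pi) ^ (-(m : ℝ) / 2) * (v ^ m)⁻¹ * ((1 + u) * Real.exp (-(u / 2))) := by ring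
    _ ≤ (2 * Real.pi) ^ (-(m : ℝ) / 2) * (v ^ m)⁻¹ * (8 / 3 * Real.exp (-(u / 8))) :=
        mul_le_mul_of_nonneg_left h3 h8.le
    _ = _ := by
        rw [mul_pow]
        field_simp

/-- polynomial factors cost a doubling of the scale. -/
theorem gauss_poly_le (m : ℕ) : ∃ C : ℝ, 0 < C ∧ ∀ (v : ℝ), 0 < v → ∀ z : E m,
    gauss m v z * (1 + ‖z‖ ^ 2 / v ^ 2) ≤ C * gauss m (2 * v) z :=
  ⟨2 ^ m * (8 / 3), by positivity, fun _ hv z => gk_gauss_poly_le m hv z⟩

theorem gk_poly_integrable (μ : Measure (E m)) [IsFiniteMeasure μ] {v : ℝ} (hv : 0 < v) (x : E m) :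
    Integrable (fun y => gauss m v (y - x) * (1 + ‖y - x‖ ^ 2 / v ^ 2)) μ := by
  have h2v : 0 < 2 * v := by positivity
  refine Integrable.mono' ((gauss_integrable μ h2v x).const_mul (2 ^ m * (8 / 3))) ?_ ?_
  · have : Continuous fun y : E m => gauss m v (y - x) * (1 + ‖y - x‖ ^ 2 / v ^ 2) := by
      have := gauss_continuous m v
      fun_prop
    exact this.aestronglyMeasurable
  · refine Filter.Eventually.of_forall fun y => ?_
    rw [Real.norm_eq_abs, abs_of_nonneg (mul_nonneg (gauss_pos m hv _).le (by positivity))]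
    exact gk_gauss_poly_le m hv _

theorem gk_gav_poly_le (μ : Measure (E m)) [IsFiniteMeasure μ] {v : ℝ} (hv : 0 < v) (x : E m) :
    ∫ y, gauss m v (y - x) * (1 + ‖y - x‖ ^ 2 / v ^ 2) ∂μ ≤ (2 ^ m * (8 / 3)) * gav μ (2 * v) x := by
  have h2v : 0 < 2 * v := by positivity
  unfold gav
  rw [← integral_const_mul]
  exact integral_mono (gk_poly_integrable μ hv x) ((gauss_integrable μ h2v x).const_mul _)
    fun y => gk_gauss_poly_le m hv _

theorem gav_poly_le (m : ℕ) : ∃ C : ℝ, 0 < C ∧ ∀ (μ : Measure (E m)) [IsFiniteMeasure μ] (v : ℝ),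
    0 < v → ∀ x : E m,
    ∫ y, gauss m v (y - x) * (1 + ‖y - x‖ ^ 2 / v ^ 2) ∂μ ≤ C * gav μ (2 * v) x :=
  ⟨2 ^ m * (8 / 3), by positivity, fun μ _ _ hv x => gk_gav_poly_le μ hv x⟩


/-! ## Part B -/

theorem gk_hasDerivAt_gauss (m : ℕ) {t : ℝ} (ht : 0 < t) (z : E m) :
    HasDerivAt (fun t => gauss m t z) (t⁻¹ * (gauss m t z * (‖z‖ ^ 2 / t ^ 2 - m))) t := by
  unfold gauss
  have h1 : HasDerivAt (fun t : ℝ => 2 * Real.pi * t ^ 2) (2 * Real.pi * (2 * t)) t := by
    have := (hasDerivAt_pow 2 t).const_mul (2 * Real.pi)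
    simpa using this
  have h2 := h1.rpow_const (p := -(m : ℝ) / 2) (Or.inl (by positivity))
  have h3 : HasDerivAt (fun t : ℝ => -‖z‖ ^ 2 / (2 * t ^ 2)) (‖z‖ ^ 2 / t ^ 3) t := by
    have h4 : HasDerivAt (fun t : ℝ => 2 * t ^ 2) (2 * (2 * t)) t := by
      have := (hasDerivAt_pow 2 t).const_mul 2
      simpa using this
    refine ((hasDerivAt_const t (-‖z‖ ^ 2)).fun_div h4 (by positivity)).congr_deriv ?_
    field_simp
    ring
  refine (h2.fun_mul h3.exp).congr_deriv ?_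
  rw [Real.rpow_sub_one (by positivity)]
  field_simp
  ring

theorem gk_abs_dot_le (m : ℕ) {t : ℝ} (ht : 0 < t) (z : E m) :
    |gauss m t z * (‖z‖ ^ 2 / t ^ 2 - m)| ≤ ((m : ℝ) + 1) * (gauss m t z * (1 + ‖z‖ ^ 2 / t ^ 2)) := by
  have hg := gauss_pos m ht z
  have hu : 0 ≤ ‖z‖ ^ 2 / t ^ 2 := by positivity
  have hm : (0 : ℝ) ≤ m := Nat.cast_nonneg m
  rw [abs_mul, abs_of_pos hg]
  have : |‖z‖ ^ 2 / t ^ 2 - m| ≤ ((m : ℝ) + 1) * (1 + ‖z‖ ^ 2 / t ^ 2) := by
    rw [abs_le]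
    constructor <;> nlinarith
  calc gauss m t z * |‖z‖ ^ 2 / t ^ 2 - m| ≤ gauss m t z * (((m : ℝ) + 1) * (1 + ‖z‖ ^ 2 / t ^ 2)) :=
        mul_le_mul_of_nonneg_left this hg.le
    _ = _ := by ring

theorem gk_dot_continuous (m : ℕ) (t : ℝ) (x : E m) :
    Continuous fun y : E m => gauss m t (y - x) * (‖y - x‖ ^ 2 / t ^ 2 - m) := by
  have := gauss_continuous m t
  fun_prop

/-- logarithmic scale derivative. -/
theorem hasDerivAt_gav (μ : Measure (E m)) [IsFiniteMeasure μ] {v : ℝ} (hv : 0 < v) (x : E m) :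
    HasDerivAt (fun t => gav μ t x)
      (v⁻¹ * ∫ y, gauss m v (y - x) * (‖y - x‖ ^ 2 / v ^ 2 - m) ∂μ) v := by
  have hs : Ioo (v / 2) (2 * v) ∈ nhds v := Ioo_mem_nhds (by linarith) (by linarith)
  have key := hasDerivAt_integral_of_dominated_loc_of_deriv_le (μ := μ) (x₀ := v)
    (F := fun t y => gauss m t (y - x))
    (F' := fun t y => t⁻¹ * (gauss m t (y - x) * (‖y - x‖ ^ 2 / t ^ 2 - m)))
    (bound := fun _ => (2 / v) * (((m : ℝ) + 1) * ((2 ^ m * (8 / 3)) * v ^ (-(m : ℝ)))))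
    hs
    (Filter.Eventually.of_forall fun t =>
      ((gauss_continuous m t).comp (continuous_id.sub continuous_const)).aestronglyMeasurable)
    (gauss_integrable μ hv x)
    ((gk_dot_continuous m v x).const_mul _).aestronglyMeasurable
    (Filter.Eventually.of_forall fun y t ht => by
      have ht0 : 0 < t := by have := ht.1; linarith
      have h2t : 0 < 2 * t := by positivity
      rw [norm_mul, Real.norm_eq_abs, Real.norm_eq_abs, abs_of_pos (inv_pos.2 ht0)]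
      have hm : (0 : ℝ) ≤ m := Nat.cast_nonneg m
      have e1 : t⁻¹ ≤ 2 / v := by
        rw [inv_le_comm₀ ht0 (by positivity), inv_div]
        exact ht.1.le
      have e2 : gauss m (2 * t) (y - x) ≤ v ^ (-(m : ℝ)) := by
        refine (gauss_le' m h2t _).trans ?_
        apply Real.rpow_le_rpow_of_nonpos hv (by have := ht.1; linarith) (by linarith)
      have e3 : |gauss m t (y - x) * (‖y - x‖ ^ 2 / t ^ 2 - m)| ≤
          ((m : ℝ) + 1) * ((2 ^ m * (8 / 3)) * v ^ (-(m : ℝ))) := by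
        refine (gk_abs_dot_le m ht0 _).trans ?_
        refine mul_le_mul_of_nonneg_left ?_ (by positivity)
        refine (gk_gauss_poly_le m ht0 _).trans ?_
        exact mul_le_mul_of_nonneg_left e2 (by positivity)
      exact mul_le_mul e1 e3 (abs_nonneg _) (by positivity))
    (integrable_const _)
    (Filter.Eventually.of_forall fun y t ht => by
      have ht0 : 0 < t := by have := ht.1; linarith
      exact gk_hasDerivAt_gauss m ht0 (y - x))
  have h2 := key.2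
  rw [integral_const_mul] at h2
  exact h2

/-- `|d μ_v / d log v| ≤ C μ_{2v}`. -/
theorem abs_gavDot_le (m : ℕ) : ∃ C : ℝ, 0 < C ∧ ∀ (μ : Measure (E m)) [IsFiniteMeasure μ] (v : ℝ),
    0 < v → ∀ x : E m,
    |∫ y, gauss m v (y - x) * (‖y - x‖ ^ 2 / v ^ 2 - m) ∂μ| ≤ C * gav μ (2 * v) x := by
  refine ⟨((m : ℝ) + 1) * (2 ^ m * (8 / 3)), by positivity, fun μ _ v hv x => ?_⟩
  have h1 := norm_integral_le_of_norm_le (μ := μ)
    (f := fun y => gauss m v (y - x) * (‖y - x‖ ^ 2 / v ^ 2 - m))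
    ((gk_poly_integrable μ hv x).const_mul ((m : ℝ) + 1))
    (Filter.Eventually.of_forall fun y => gk_abs_dot_le m hv (y - x))
  rw [Real.norm_eq_abs, integral_const_mul] at h1
  refine h1.trans ?_
  rw [mul_assoc]
  exact mul_le_mul_of_nonneg_left (gk_gav_poly_le μ hv x) (by positivity)

theorem gav_continuousOn_scale (μ : Measure (E m)) [IsFiniteMeasure μ] (x : E m) :
    ContinuousOn (fun v => gav μ v x) (Ioi 0) :=
  fun _ hv => (hasDerivAt_gav μ hv x).continuousAt.continuousWithinAt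

theorem gav_continuous (μ : Measure (E m)) [IsFiniteMeasure μ] {v : ℝ} (hv : 0 < v) :
    Continuous fun x => gav μ v x := by
  unfold gav
  refine continuous_of_dominated (bound := fun _ => v ^ (-(m : ℝ))) ?_ ?_ (integrable_const _) ?_
  · intro x
    exact ((gauss_continuous m v).comp (continuous_id.sub continuous_const)).aestronglyMeasurable
  · intro x
    refine Filter.Eventually.of_forall fun y => ?_
    rw [Real.norm_eq_abs, abs_of_pos (gauss_pos m hv _)]
    exact gauss_le' m hv _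
  · refine Filter.Eventually.of_forall fun y => ?_
    exact (gauss_continuous m v).comp (continuous_const.sub continuous_id)

theorem gk_abs_exp_sub_le {a b c : ℝ} (ha : c ≤ a) (hb : c ≤ b) :
    |Real.exp (-a) - Real.exp (-b)| ≤ |a - b| * Real.exp (-c) := by
  wlog hab : a ≤ b generalizing a b
  · have := this hb ha (le_of_not_ge hab)
    rwa [abs_sub_comm, abs_sub_comm b a] at this
  have h1 : Real.exp (-b) ≤ Real.exp (-a) := Real.exp_le_exp.2 (by linarith)
  rw [abs_of_nonneg (by linarith), abs_of_nonpos (by linarith)]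
  have h2 : Real.exp (-b) = Real.exp (-a) * Real.exp (-(b - a)) := by
    rw [← Real.exp_add]; congr 1; ring
  have h3 : -(b - a) + 1 ≤ Real.exp (-(b - a)) := Real.add_one_le_exp _
  have h4 : Real.exp (-a) ≤ Real.exp (-c) := Real.exp_le_exp.2 (by linarith)
  have h5 := Real.exp_pos (-a)
  rw [h2]
  calc Real.exp (-a) - Real.exp (-a) * Real.exp (-(b - a)) = Real.exp (-a) * (1 - Real.exp (-(b - a))) := by ring
    _ ≤ Real.exp (-a) * (b - a) := mul_le_mul_of_nonneg_left (by linarith) h5.le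
    _ ≤ Real.exp (-c) * (b - a) := mul_le_mul_of_nonneg_right h4 (by linarith)
    _ = _ := by ring

/-- pointwise form of the spatial Lipschitz bound -/
theorem gk_gauss_lip (m : ℕ) {v : ℝ} (hv : 0 < v) (z h : E m) (hh : ‖h‖ ≤ v) :
    |gauss m v (z - h) - gauss m v z| ≤
      (2 ^ m * (5 / 2) * Real.exp (1 / 2)) * (‖h‖ / v) * gauss m (2 * v) z := by
  have h2v : 0 < 2 * v := by positivity
  unfold gauss
  rw [gk_coef m hv, gk_coef m h2v]
  set p : ℝ := ‖z - h‖ with hp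
  set q : ℝ := ‖z‖ with hq
  set η : ℝ := ‖h‖ with hη
  have hp0 : 0 ≤ p := norm_nonneg _
  have hq0 : 0 ≤ q := norm_nonneg _
  have hη0 : 0 ≤ η := norm_nonneg _
  have hpq : p ≤ q + η := norm_sub_le z h
  have hqp : q ≤ p + η := by
    have : ‖z‖ ≤ ‖z - h‖ + ‖h‖ := by
      calc ‖z‖ = ‖(z - h) + h‖ := by rw [sub_add_cancel]
        _ ≤ _ := norm_add_le _ _
    exact this
  set t : ℝ := q / v with ht
  have ht0 : 0 ≤ t := by positivity
  have hqt : q = t * v := by rw [ht]; field_simp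
  have e1 : -p ^ 2 / (2 * v ^ 2) = -(p ^ 2 / (2 * v ^ 2)) := by ring
  have e2 : -q ^ 2 / (2 * v ^ 2) = -(t ^ 2 / 2) := by rw [ht]; field_simp
  have e3 : -q ^ 2 / (2 * (2 * v) ^ 2) = -(t ^ 2 / 8) := by rw [ht]; field_simp; ring
  rw [e1, e2, e3]
  have hv2 : 0 < 2 * v ^ 2 := by positivity
  have c1 : t ^ 2 / 4 - 1 / 2 ≤ p ^ 2 / (2 * v ^ 2) := by
    rw [le_div_iff₀ hv2]
    have : q ^ 2 ≤ 2 * p ^ 2 + 2 * η ^ 2 := by nlinarith [sq_nonneg (p - η)]
    have h3 : η ^ 2 ≤ v ^ 2 := by gcongr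
    have h4 : t ^ 2 * v ^ 2 = q ^ 2 := by rw [hqt]; ring
    nlinarith
  have c2 : t ^ 2 / 4 - 1 / 2 ≤ t ^ 2 / 2 := by nlinarith [sq_nonneg t]
  have k1 := gk_abs_exp_sub_le c1 c2
  have k2 : |p ^ 2 / (2 * v ^ 2) - t ^ 2 / 2| ≤ (η / v) * (t + 1 / 2) := by
    have h5 : p ^ 2 / (2 * v ^ 2) - t ^ 2 / 2 = (p ^ 2 - q ^ 2) / (2 * v ^ 2) := by
      rw [ht]; field_simp
    have h6 : |p ^ 2 - q ^ 2| ≤ η * (2 * q + v) := by
      rw [abs_le]
      constructor <;> nlinarith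
    rw [h5, abs_div, abs_of_pos hv2, div_le_iff₀ hv2]
    calc |p ^ 2 - q ^ 2| ≤ η * (2 * q + v) := h6
      _ = η / v * (t + 1 / 2) * (2 * v ^ 2) := by rw [hqt]; field_simp
  have k3 : (t + 1 / 2) * Real.exp (-(t ^ 2 / 4 - 1 / 2)) ≤ 5 / 2 * Real.exp (1 / 2) * Real.exp (-(t ^ 2 / 8)) := by
    have h7 : -(t ^ 2 / 4 - 1 / 2) = 1 / 2 + (-(t ^ 2 / 8) + -(t ^ 2 / 8)) := by ring
    rw [h7, Real.exp_add, Real.exp_add]
    have h8 : (t + 1 / 2) * Real.exp (-(t ^ 2 / 8)) ≤ 5 / 2 := by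
      have h9 : t ^ 2 / 8 + 1 ≤ Real.exp (t ^ 2 / 8) := Real.add_one_le_exp _
      rw [Real.exp_neg, ← div_eq_mul_inv, div_le_iff₀ (Real.exp_pos _)]
      nlinarith [sq_nonneg (t - 4)]
    have h10 : 0 < Real.exp (1 / 2) * Real.exp (-(t ^ 2 / 8)) := by positivity
    calc (t + 1 / 2) * (Real.exp (1 / 2) * (Real.exp (-(t ^ 2 / 8)) * Real.exp (-(t ^ 2 / 8))))
        = ((t + 1 / 2) * Real.exp (-(t ^ 2 / 8))) * (Real.exp (1 / 2) * Real.exp (-(t ^ 2 / 8))) := by ring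
      _ ≤ 5 / 2 * (Real.exp (1 / 2) * Real.exp (-(t ^ 2 / 8))) := mul_le_mul_of_nonneg_right h8 h10.le
      _ = _ := by ring
  have hc : (0 : ℝ) < (2 * Real.pi) ^ (-(m : ℝ) / 2) * (v ^ m)⁻¹ := by positivity
  have hηv : 0 ≤ η / v := by positivity
  calc |(2 * Real.pi) ^ (-(m : ℝ) / 2) * (v ^ m)⁻¹ * Real.exp (-(p ^ 2 / (2 * v ^ 2))) -
        (2 * Real.pi) ^ (-(m : ℝ) / 2) * (v ^ m)⁻¹ * Real.exp (-(t ^ 2 / 2))|
      = (2 * Real.pi) ^ (-(m : ℝ) / 2) * (v ^ m)⁻¹ *
          |Real.exp (-(p ^ 2 / (2 * v ^ 2))) - Real.exp (-(t ^ 2 / 2))| := by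
        rw [← mul_sub, abs_mul, abs_of_pos hc]
    _ ≤ (2 * Real.pi) ^ (-(m : ℝ) / 2) * (v ^ m)⁻¹ *
          ((η / v) * (t + 1 / 2) * Real.exp (-(t ^ 2 / 4 - 1 / 2))) := by
        refine mul_le_mul_of_nonneg_left (k1.trans ?_) hc.le
        exact mul_le_mul_of_nonneg_right k2 (Real.exp_pos _).le
    _ = (2 * Real.pi) ^ (-(m : ℝ) / 2) * (v ^ m)⁻¹ * (η / v) *
          ((t + 1 / 2) * Real.exp (-(t ^ 2 / 4 - 1 / 2))) := by ring
    _ ≤ (2 * Real.pi) ^ (-(m : ℝ) / 2) * (v ^ m)⁻¹ * (η / v) *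
          (5 / 2 * Real.exp (1 / 2) * Real.exp (-(t ^ 2 / 8))) :=
        mul_le_mul_of_nonneg_left k3 (by positivity)
    _ = _ := by
        rw [mul_pow]
        field_simp

/-- spatial Lipschitz bound AE (4.38): `|μ_v(y) - μ_v(x)| ≤ C (|y - x|/v) μ_{2v}(x)` for `|y - x| ≤ v`. -/
theorem gav_space_lip (m : ℕ) : ∃ C : ℝ, 0 < C ∧ ∀ (μ : Measure (E m)) [IsFiniteMeasure μ] (v : ℝ),
    0 < v → ∀ x y : E m, ‖y - x‖ ≤ v →
    |gav μ v y - gav μ v x| ≤ C * (‖y - x‖ / v) * gav μ (2 * v) x := by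
  refine ⟨2 ^ m * (5 / 2) * Real.exp (1 / 2), by positivity, fun μ _ v hv x y hxy => ?_⟩
  have h2v : 0 < 2 * v := by positivity
  unfold gav
  rw [← integral_sub (gauss_integrable μ hv y) (gauss_integrable μ hv x), ← integral_const_mul]
  have h1 := norm_integral_le_of_norm_le (μ := μ)
    (f := fun w => gauss m v (w - y) - gauss m v (w - x))
    ((gauss_integrable μ h2v x).const_mul (2 ^ m * (5 / 2) * Real.exp (1 / 2) * (‖y - x‖ / v)))
    (Filter.Eventually.of_forall fun w => by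
      have := gk_gauss_lip m hv (w - x) (y - x) hxy
      rw [sub_sub_sub_cancel_right] at this
      exact this)
  exact h1

end Claimed.Agent.R322.Sx.Sep
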