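import Claimed.Agent.R322.Sx.Sep.Envelope
import Claimed.Agent.R322.Pack034
import Claimed.Agent.R322.Pack036
import Claimed.Agent.R322.Pack035

/-!
# R322 / Sx / Sep / Child : Gaussian children, AE (4.31)-(4.33)
(leaves `L-Sep-Quiet` = `node_quiet`, `vert_quiet`;  `L-Sep-ChildNode` = `child_node`;  `L-Sep-ChildBound` = `child_bound`)

Cells at a contact `(x, s0)`: centres `|y - x| ≤ T s0`, `U = 1 + |y - x|/s0 ≤ T + 1`, radius `r = cellR (1/16) x s0 y = s0/(16 U)`.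
Quantum of all comparison chains: `q0c = e^b √d / T³`.

**`node_quiet`**: `τ(B_{ct}(z)) ≤ τ(B_{4R}(xs)) ≤ R^m E_{2i}(R) = δ t^m`, `δ = (R/t)^m E_{2i}(R) ≤ (2c)^m E_{2i}(R)`; `Big.env_small`, `Big.motion`.
**`vert_quiet`**: `vert_cell`: `δ = Cb (a/t)^m E_{2i+1}(a) ≤ Cb T^{3m} E_{2i+1}(a)`, `t √δ ≤ √Cb T^{3m/2} a √(E_{2i+1}(a))`.

**`child_node`**, the five stages of the chain from the node configuration `A_R` (a `QMaj` on `B_{4R/c}(xs)`) to the child configuration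
(`F.cfg` on `B_{4r/c}(y)`, `d' = rmaj^{-m} E_{2i+2}(r)`):
1. `shrink` at `xs` from `4R/c` to `R/c` (`node_quiet`);   2. `slide` from `xs` to `x` at the radius `R/c` (`node_quiet`);
3. `shrink` at `x` from `R/c` to `U s0` (`vert_quiet`, `a = c t`);   4. `slide` from `x` to `y` at the radius `U s0` (`vert_quiet`, `a = |y-x| + c U s0`);
5. `shrink` at `y` from `U s0` to `4r/c = s0/(4 c U)` (`vert_quiet`, same `a`, `a/t ≤ 4c(1+c)U² ≤ T³`).
Number of steps `≤ log₂(1/r_b) + C log T + C ≤ 2T`, so the motion is `≤ 2 C_maj q0c 2T ≤ e^b √d`.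
Density: `vert_cell` with `a = U s0`: `τ(B_{4r}(y)) ≤ Cb (16 U²)^m r^m E_{2i+1}(U s0) ≤ T^{J0} r^m E_{2i+1}(r) = r^m E_{2i+2}(r)`.

**`child_bound`**: `gauss_cells m (1/16)` with `Rc = T`; `L'_{s0}(x) = ∑_y (∫ φ_y G dL') + ∫ (1 - ∑ φ) G dL'`; `Trunc.Lfun_local`, `Lfun_smul`, `cell_weight`,
the hypothesis on the children, `cell_sum` (`τ' = τ` on `B_{4r}(y) ⊆ B_{2R}(xs)`); tail by `Trunc.abs_source_le`, `gav_tail_le`, `node_total`, `Big.env_total`, `Big.tail_kill`.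
-/

set_option autoImplicit false

namespace Claimed.Agent.R322.Sx.Sep

open MeasureTheory Set Metric
open scoped ENNReal NNReal InnerProductSpace

/-- quantum of the comparison chains. -/
noncomputable def q0c (Q : ℕ) (T : ℝ) : ℝ := mot Q T / T ^ 3

/-- common part of `node_quiet`, `vert_quiet`. -/
theorem quiet_of_env {m n Q : ℕ} {Cg : ℝ} {F : Fix m n Q Cg} {S : Sys m n} {p : Prm} {T : ℝ} {k : ℕ}
    (hbig : Big p Q ((k + 4 : ℕ) : ℝ) T) {z : E m} {t a K : ℝ} {j : ℕ} (hj : j ≤ 2 * n0 p T + 4)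
    (ha : rb Q T / T ^ 4 ≤ a) (ht0 : 0 < t) (ht1 : t ≤ 1) (hta : t ≤ a)
    (hsub : ball z (F.c * t) ⊆ S.Ω) (hK0 : 0 ≤ K) (hK1 : K ≤ T ^ (k + 1))
    (hK2 : K ≤ F.d0 * T ^ (k + 1))
    (hτ : S.tau Q (ball z (F.c * t)) ≤ ENNReal.ofReal (K * Env p T j a * t ^ m)) :
    Quiet F S (q0c Q T) z t := by
  have hT0 := hbig.pos
  have hT1 := hbig.one_le
  have ha0 : 0 < a := lt_of_lt_of_le ht0 hta
  have hE0 : 0 < Env p T j a := Env_pos hT0 ha0 j
  have h1 := hbig.env_small j hj a ha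
  have h2 := hbig.motion j hj a ha
  rw [Real.rpow_natCast] at h1 h2
  have hb0 : 0 ≤ bQ Q T := by
    have := hbig.b_ge
    have h3 : 0 ≤ Real.log T ^ 201 := pow_nonneg (by linarith [hbig.log_ge]) _
    linarith
  have hexp1 : Real.exp (-2 * bQ Q T) ≤ 1 := Real.exp_le_one_iff.2 (by linarith)
  have hpow : T ^ (k + 4) = T ^ 3 * T ^ (k + 1) := by ring
  have hT3 : 1 ≤ T ^ 3 := one_le_pow₀ hT1
  have hTk : 1 ≤ T ^ (k + 1) := one_le_pow₀ hT1
  refine ⟨ht0, ht1, hsub, K * Env p T j a, by positivity, ?_, hτ, ?_⟩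
  · have h3 : T ^ (k + 1) * Env p T j a ≤ 1 := by
      refine le_trans ?_ (h1.trans hexp1)
      rw [hpow]
      have : 0 ≤ T ^ (k + 1) * Env p T j a := by positivity
      nlinarith
    calc K * Env p T j a ≤ F.d0 * T ^ (k + 1) * Env p T j a :=
          mul_le_mul_of_nonneg_right hK2 hE0.le
      _ = F.d0 * (T ^ (k + 1) * Env p T j a) := by ring
      _ ≤ F.d0 * 1 := mul_le_mul_of_nonneg_left h3 F.d0_pos.le
      _ = F.d0 := mul_one _
  · unfold q0c
    rw [le_div_iff₀ (by positivity)]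
    have hsK : Real.sqrt K ≤ T ^ (k + 1) := by
      calc Real.sqrt K ≤ Real.sqrt (T ^ (k + 1)) := Real.sqrt_le_sqrt hK1
        _ ≤ T ^ (k + 1) := by
            rw [Real.sqrt_le_left (by positivity)]
            nlinarith
    rw [Real.sqrt_mul hK0]
    have hs0 := Real.sqrt_nonneg (Env p T j a)
    calc t * (Real.sqrt K * Real.sqrt (Env p T j a)) * T ^ 3
        ≤ a * (T ^ (k + 1) * Real.sqrt (Env p T j a)) * T ^ 3 := by
          gcongr
      _ = T ^ (k + 4) * (a * Real.sqrt (Env p T j a)) := by rw [hpow]; ring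
      _ ≤ _ := h2

/-- balls of radius comparable with `R` inside the node are quiet. -/
theorem node_quiet (m n Q : ℕ) (hm : 1 ≤ m) (hQ : 2 ≤ Q) (κ Cg : ℝ) (F : Fix m n Q Cg) (p : Prm)
    (hp : p.Ok m) :
    ∃ T0 : ℝ, ∀ T : ℝ, T0 ≤ T → ∀ (S : Sys m n) (A : Fin Q → E n) (grp : Fin Q → Fin Q),
      Root F κ p S T A grp → ∀ i : ℕ, i ≤ n0 p T + 1 → ∀ (xs : E m) (R : ℝ),
      IsNode F S p T A i xs R → ∀ (z : E m) (t : ℝ), R / (2 * F.c) ≤ t → F.c * t ≤ 4 * R →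
      ball z (F.c * t) ⊆ ball xs (4 * R) → Quiet F S (q0c Q T) z t := by
  obtain ⟨T1, H1⟩ := exists_big p Q hQ ((0 + 4 : ℕ) : ℝ)
  refine ⟨max T1 (max ((2 * F.c) ^ m) ((2 * F.c) ^ m / F.d0)), ?_⟩
  intro T hT S A grp hroot i hi xs R hnode z t ht1 ht2 hsub
  have hbig := H1 T ((le_max_left _ _).trans hT)
  have hTa : (2 * F.c) ^ m ≤ T := ((le_max_left _ _).trans (le_max_right _ _)).trans hT
  have hTb : (2 * F.c) ^ m / F.d0 ≤ T := ((le_max_right _ _).trans (le_max_right _ _)).trans hT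
  have hT0 := hbig.pos
  have hT1 := hbig.one_le
  have hc4 := F.c_gt
  have hc0 : 0 < F.c := by linarith
  have hR0 : 0 < R := lt_of_lt_of_le (div_pos (rb_pos Q T) (by positivity)) hnode.R_ge
  have hR1 := hnode.R_le
  have ht0 : 0 < t := lt_of_lt_of_le (by positivity) ht1
  have htR : t ≤ R := by nlinarith
  have hRge : rb Q T / T ^ 4 ≤ R := by
    refine le_trans ?_ hnode.R_ge
    exact div_le_div_of_nonneg_left (rb_pos Q T).le (by positivity)
      (pow_le_pow_right₀ hT1 (by norm_num))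
  have hE0 : 0 < Env p T (2 * i) R := Env_pos hT0 hR0 _
  refine quiet_of_env (k := 0) (K := (2 * F.c) ^ m) (a := R) (j := 2 * i) hbig (by omega) hRge ht0
    (htR.trans hR1) htR (hsub.trans (hnode.sub.trans hroot.hyp.room)) (by positivity)
    (by simpa using hTa) ?_ ?_
  · rw [div_le_iff₀ F.d0_pos] at hTb
    simpa [mul_comm] using hTb
  · refine ((measure_mono hsub).trans hnode.dens).trans (ENNReal.ofReal_le_ofReal ?_)
    have h1 : R ≤ 2 * F.c * t := by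
      rw [div_le_iff₀ (by positivity)] at ht1
      linarith
    have h2 : R ^ m ≤ (2 * F.c) ^ m * t ^ m := by
      rw [← mul_pow]
      exact pow_le_pow_left₀ hR0.le h1 m
    calc R ^ m * Env p T (2 * i) R ≤ (2 * F.c) ^ m * t ^ m * Env p T (2 * i) R :=
          mul_le_mul_of_nonneg_right h2 hE0.le
      _ = _ := by ring

/-- balls near a vertical are quiet. -/
theorem vert_quiet (m n Q : ℕ) (hm : 1 ≤ m) (hQ : 2 ≤ Q) (κ Cg : ℝ) (F : Fix m n Q Cg) (p : Prm)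
    (hp : p.Ok m) :
    ∃ T0 : ℝ, ∀ T : ℝ, T0 ≤ T → ∀ (S : Sys m n) (A : Fin Q → E n) (grp : Fin Q → Fin Q),
      Root F κ p S T A grp → ∀ i : ℕ, i ≤ n0 p T + 1 →
      ∀ (xs : E m) (R : ℝ) (χ : E m → ℝ) (x : E m) (s0 : ℝ), Vert F S p T A i xs R χ x s0 →
      ∀ (z : E m) (t a : ℝ), ‖z - x‖ + F.c * t ≤ a → s0 ≤ a → a ≤ R → a ≤ T ^ 3 * t →
      Quiet F S (q0c Q T) z t := by
  obtain ⟨Cb, hCb, hcell⟩ := vert_cell m
  obtain ⟨T1, H1⟩ := exists_big p Q hQ ((3 * m + 4 : ℕ) : ℝ)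
  refine ⟨max T1 (max Cb (Cb / F.d0)), ?_⟩
  intro T hT S A grp hroot i hi xs R χ x s0 hV z t a hza hs0a haR haT
  have hbig := H1 T ((le_max_left _ _).trans hT)
  have hTa : Cb ≤ T := ((le_max_left _ _).trans (le_max_right _ _)).trans hT
  have hTb : Cb / F.d0 ≤ T := ((le_max_right _ _).trans (le_max_right _ _)).trans hT
  have hT0 := hbig.pos
  have hT1 := hbig.one_le
  have hc4 := F.c_gt
  have hc0 : 0 < F.c := by linarith
  have hs0 : 0 < s0 := (rb_pos Q T).trans_le hV.s0_ge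
  have ha0 : 0 < a := lt_of_lt_of_le hs0 hs0a
  have hR1 := hV.node.R_le
  have ht0 : 0 < t := by
    by_contra hcon
    have h1 : T ^ 3 * t ≤ 0 := mul_nonpos_of_nonneg_of_nonpos (by positivity) (not_lt.1 hcon)
    linarith
  have hta : t ≤ a := by
    have := norm_nonneg (z - x)
    nlinarith
  have hage : rb Q T / T ^ 4 ≤ a := by
    refine le_trans ?_ (hV.s0_ge.trans hs0a)
    exact div_le_self (rb_pos Q T).le (one_le_pow₀ hT1)
  have hE0 : 0 < Env p T (2 * i + 1) a := Env_pos hT0 ha0 _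
  obtain ⟨hsub, hτ⟩ := hcell n Q Cg κ F p S T A grp hT1 hroot i xs R χ x s0 hV z (F.c * t) a hza
    hs0a haR
  have hR0 : 0 < R := lt_of_lt_of_le ha0 haR
  have hsubΩ : ball z (F.c * t) ⊆ S.Ω :=
    hsub.trans ((ball_subset_ball (by linarith)).trans (hV.node.sub.trans hroot.hyp.room))
  have hpk : T ^ (3 * m + 1) = T * T ^ (3 * m) := by ring
  have hTm : 0 < T ^ (3 * m) := by positivity
  refine quiet_of_env (k := 3 * m) (K := Cb * T ^ (3 * m)) (a := a) (j := 2 * i + 1) hbig (by omega)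
    hage ht0 ((hta.trans haR).trans hR1) hta hsubΩ (by positivity) ?_ ?_ ?_
  · rw [hpk]
    exact mul_le_mul_of_nonneg_right hTa hTm.le
  · rw [hpk, ← mul_assoc]
    refine mul_le_mul_of_nonneg_right ?_ hTm.le
    rw [div_le_iff₀ F.d0_pos] at hTb
    linarith
  · refine hτ.trans (ENNReal.ofReal_le_ofReal ?_)
    have h2 : a ^ m ≤ T ^ (3 * m) * t ^ m := by
      rw [pow_mul, ← mul_pow]
      exact pow_le_pow_left₀ ha0.le haT m
    calc Cb * a ^ m * Env p T (2 * i + 1) a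
        ≤ Cb * (T ^ (3 * m) * t ^ m) * Env p T (2 * i + 1) a := by gcongr
      _ = _ := by ring

/-- the five-stage comparison chain (shrink, slide, shrink, slide, shrink). -/
theorem chain5 {m n Q : ℕ} {Cg : ℝ} {F : Fix m n Q Cg} {S : Sys m n} (hS : S.Valid)
    (hCg : S.Cg ≤ Cg) {q0 : ℝ} {xs x y : E m} {ρ0 ρ1 ρ2 ρ3 : ℝ} {A0 A5 : Fin Q → E n}
    (h3 : 0 < ρ3) (h32 : ρ3 ≤ ρ2) (h21 : ρ2 ≤ ρ1) (h10 : ρ1 ≤ ρ0)
    (q1 : ∀ t, ρ1 ≤ t → t ≤ ρ0 → Quiet F S q0 xs t)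
    (q2 : ∀ z ∈ segment ℝ xs x, Quiet F S q0 z ρ1)
    (q3 : ∀ t, ρ2 ≤ t → t ≤ ρ1 → Quiet F S q0 x t)
    (q4 : ∀ z ∈ segment ℝ x y, Quiet F S q0 z ρ2)
    (q5 : ∀ t, ρ3 ≤ t → t ≤ ρ2 → Quiet F S q0 y t)
    (hA0 : QMaj F S q0 xs ρ0 A0) (hA5 : QMaj F S q0 y ρ3 A5) :
    Sys.Matched A0 A5 (2 * F.Cmaj * q0 * (Real.logb 2 (ρ0 / ρ1) + 4 * ‖xs - x‖ / ρ1
      + Real.logb 2 (ρ1 / ρ2) + 4 * ‖x - y‖ / ρ2 + Real.logb 2 (ρ2 / ρ3) + 10)) := by
  have h2 : 0 < ρ2 := h3.trans_le h32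
  have h1 : 0 < ρ1 := h2.trans_le h21
  obtain ⟨A1, hA1⟩ := (q1 ρ1 le_rfl h10).exists_qmaj hS hCg
  obtain ⟨A2, hA2⟩ := (q2 x (right_mem_segment ℝ xs x)).exists_qmaj hS hCg
  obtain ⟨A3, hA3⟩ := (q3 ρ2 le_rfl h21).exists_qmaj hS hCg
  obtain ⟨A4, hA4⟩ := (q4 y (right_mem_segment ℝ x y)).exists_qmaj hS hCg
  have m1 := shrink hS hCg h1 h10 q1 hA0 hA1
  have m2 := slide hS hCg q2 hA1 hA2
  have m3 := shrink hS hCg h2 h21 q3 hA2 hA3
  have m4 := slide hS hCg q4 hA3 hA4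
  have m5 := shrink hS hCg h3 h32 q5 hA4 hA5
  refine matched_mono (matched_trans (matched_trans (matched_trans (matched_trans m1 m2) m3) m4) m5)
    (le_of_eq ?_)
  ring

/-- arithmetic of one Gaussian cell: `U = 1 + ny/s0`, `r = s0/(16 U)`, `a = ny + c U s0`. -/
structure CellAr (T c s0 ny R rbv U r a : ℝ) : Prop where
  U_ge : 1 ≤ U
  U_le : U ≤ T + 1
  Us : U * s0 = s0 + ny
  r_pos : 0 < r
  r_le : r ≤ s0 / 16
  a_le : a ≤ R
  a_ge : s0 ≤ a
  cUs : c * (U * s0) ≤ R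
  r_ge : rbv / T ^ 2 ≤ r
  Us_r : U * s0 = 16 * U ^ 2 * r
  a_T : a ≤ T ^ 3 * (U * s0)
  a_t : ∀ t : ℝ, 4 / c * r ≤ t → a ≤ T ^ 3 * t
  c_T : c ≤ T ^ 3
  ratio5 : U * s0 / (4 / c * r) ≤ 16 * c * T ^ 3

theorem cell_arith {T c s0 ny R ρ rbv : ℝ} (hT : 16 * c * (1 + c) + 32 ≤ T) (hc : 4 < c)
    (hrb : 0 < rbv) (hrbs : rbv ≤ s0) (hs0ρ : s0 ≤ ρ) (hny0 : 0 ≤ ny) (hny : ny ≤ T * s0)
    (hρ : 2 * (1 + c) * T ^ 3 * ρ ≤ R) :
    CellAr T c s0 ny R rbv (1 + ny / s0) (1 / 16 * s0 / (1 + ny / s0))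
      (ny + c * ((1 + ny / s0) * s0)) := by
  have hs0 : 0 < s0 := hrb.trans_le hrbs
  have hc0 : 0 < c := by linarith
  have hT32 : 32 ≤ T := by nlinarith
  have hT1 : 1 ≤ T := by linarith
  have hT0 : 0 < T := by linarith
  set U : ℝ := 1 + ny / s0 with hU
  have hU1 : 1 ≤ U := by
    have : 0 ≤ ny / s0 := by positivity
    linarith
  have hU0 : 0 < U := by linarith
  have hUT : U ≤ T + 1 := by
    have : ny / s0 ≤ T := by rw [div_le_iff₀ hs0]; exact hny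
    linarith
  have hUs : U * s0 = s0 + ny := by
    rw [hU]
    field_simp
  set r : ℝ := 1 / 16 * s0 / U with hr
  have hr0 : 0 < r := by positivity
  have hrs : r ≤ s0 / 16 := by
    rw [hr, div_le_iff₀ hU0]
    nlinarith
  have hT3 : T ≤ T ^ 3 := by
    calc T = T ^ 1 := (pow_one T).symm
      _ ≤ T ^ 3 := pow_le_pow_right₀ hT1 (by norm_num)
  have hUs0 : s0 ≤ U * s0 := by nlinarith
  have hUs00 : 0 < U * s0 := by positivity
  have ha_le : ny + c * (U * s0) ≤ (1 + c) * (U * s0) := by nlinarith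
  have hρ0 : 0 < ρ := hs0.trans_le hs0ρ
  have haR : ny + c * (U * s0) ≤ R := by
    have h2 : U * s0 ≤ (T + 1) * ρ := mul_le_mul hUT hs0ρ hs0.le (by linarith)
    have h3 : T + 1 ≤ 2 * T ^ 3 := by linarith
    calc ny + c * (U * s0) ≤ (1 + c) * (U * s0) := ha_le
      _ ≤ (1 + c) * ((T + 1) * ρ) := mul_le_mul_of_nonneg_left h2 (by linarith)
      _ ≤ (1 + c) * (2 * T ^ 3 * ρ) :=
          mul_le_mul_of_nonneg_left (mul_le_mul_of_nonneg_right h3 hρ0.le) (by linarith)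
      _ = 2 * (1 + c) * T ^ 3 * ρ := by ring
      _ ≤ R := hρ
  have hcT : 1 + c ≤ T := by nlinarith
  have hUsr : U * s0 = 16 * U ^ 2 * r := by
    rw [hr]
    field_simp
  have hU2 : U ^ 2 ≤ 4 * T ^ 2 := by nlinarith
  have hkey : (1 + c) * (4 * c * U ^ 2) ≤ T ^ 3 := by
    have h1 : (1 + c) * (4 * c * U ^ 2) ≤ (1 + c) * (4 * c * (4 * T ^ 2)) := by
      have : 0 ≤ (1 + c) * (4 * c) := by positivity
      nlinarith
    have h2 : (1 + c) * (4 * c * (4 * T ^ 2)) = (16 * c * (1 + c)) * T ^ 2 := by ring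
    have h3 : (16 * c * (1 + c)) * T ^ 2 ≤ T * T ^ 2 :=
      mul_le_mul_of_nonneg_right (by linarith) (by positivity)
    have h4 : T * T ^ 2 = T ^ 3 := by ring
    linarith
  refine ⟨hU1, hUT, hUs, hr0, hrs, haR, by nlinarith, by linarith, ?_, hUsr, ?_, ?_, by linarith, ?_⟩
  · rw [hr, div_le_div_iff₀ (by positivity) hU0]
    have h1 : rbv * U ≤ s0 * (T + 1) := mul_le_mul hrbs hUT hU0.le hs0.le
    have h2 : 16 * (T + 1) ≤ T ^ 2 := by nlinarith
    nlinarith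
  · calc ny + c * (U * s0) ≤ (1 + c) * (U * s0) := ha_le
      _ ≤ T ^ 3 * (U * s0) := mul_le_mul_of_nonneg_right (by linarith) hUs00.le
  · intro t ht
    have h1 : U * s0 = 4 * c * U ^ 2 * (4 / c * r) := by
      rw [hUsr]
      field_simp
      ring
    have h2 : 0 < 4 / c * r := by positivity
    calc ny + c * (U * s0) ≤ (1 + c) * (U * s0) := ha_le
      _ = (1 + c) * (4 * c * U ^ 2) * (4 / c * r) := by rw [h1]; ring
      _ ≤ T ^ 3 * (4 / c * r) := mul_le_mul_of_nonneg_right hkey h2.le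
      _ ≤ T ^ 3 * t := mul_le_mul_of_nonneg_left ht (by positivity)
  · have h2 : 0 < 4 / c * r := by positivity
    rw [div_le_iff₀ h2]
    have h1 : U * s0 = 4 * c * U ^ 2 * (4 / c * r) := by
      rw [hUsr]
      field_simp
      ring
    rw [h1]
    refine mul_le_mul_of_nonneg_right ?_ h2.le
    have h3 : T ^ 2 ≤ T ^ 3 := pow_le_pow_right₀ hT1 (by norm_num)
    nlinarith


theorem child_steps {q0 Cmaj mo T c l1 e2 l3 e4 l5 : ℝ} (hq0 : 0 ≤ q0) (hC : 0 < Cmaj)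
    (h1 : l1 ≤ T) (h2 : e2 ≤ 4 * c) (h3 : l3 ≤ T) (h4 : e4 ≤ 4) (h5 : l5 ≤ T)
    (hT : 4 * c + 14 ≤ T) (htot : 8 * Cmaj * q0 * T ≤ mo) :
    2 * Cmaj * q0 * (l1 + e2 + l3 + e4 + l5 + 10) ≤ mo := by
  have h6 : l1 + e2 + l3 + e4 + l5 + 10 ≤ 4 * T := by linarith
  have h7 : 0 ≤ 2 * Cmaj * q0 := by positivity
  calc 2 * Cmaj * q0 * (l1 + e2 + l3 + e4 + l5 + 10) ≤ 2 * Cmaj * q0 * (4 * T) :=
        mul_le_mul_of_nonneg_left h6 h7
    _ = 8 * Cmaj * q0 * T := by ring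
    _ ≤ mo := htot

theorem child_dens {m n Q : ℕ} {S : Sys m n} {p : Prm} {T c s0 ny R rbv U r a Cb : ℝ} {i : ℕ}
    {y : E m} (hT1 : 1 ≤ T) (hCb : 0 < Cb) (ar : CellAr T c s0 ny R rbv U r a) (hs0 : 0 < s0)
    (hden4 : S.tau Q (ball y (4 * r))
      ≤ ENNReal.ofReal (Cb * (U * s0) ^ m * Env p T (2 * i + 1) (U * s0)))
    (hcd : Cb * (16 * U ^ 2) ^ m ≤ T ^ p.J0) :
    S.tau Q (ball y (4 * r)) ≤ ENNReal.ofReal (r ^ m * Env p T (2 * (i + 1)) r) := by
  have hT0 : 0 < T := by linarith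
  have hidx : 2 * (i + 1) = 2 * i + 1 + 1 := by ring
  have hr0 := ar.r_pos
  have hU0 : 0 < U := lt_of_lt_of_le one_pos ar.U_ge
  refine hden4.trans (ENNReal.ofReal_le_ofReal ?_)
  rw [hidx, Env_succ hT0 (2 * i + 1) r]
  have hle : r ≤ U * s0 := by
    have h1 := ar.r_le
    have h2 : s0 ≤ U * s0 := by nlinarith [ar.U_ge]
    linarith
  have h1 : Env p T (2 * i + 1) (U * s0) ≤ Env p T (2 * i + 1) r := Env_anti hT1 hr0 hle _
  have hE : 0 < Env p T (2 * i + 1) r := Env_pos hT0 hr0 _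
  calc Cb * (U * s0) ^ m * Env p T (2 * i + 1) (U * s0)
      ≤ Cb * (U * s0) ^ m * Env p T (2 * i + 1) r :=
        mul_le_mul_of_nonneg_left h1 (by positivity)
    _ = (Cb * (16 * U ^ 2) ^ m) * (r ^ m * Env p T (2 * i + 1) r) := by
        rw [ar.Us_r, mul_pow]
        ring
    _ ≤ T ^ p.J0 * (r ^ m * Env p T (2 * i + 1) r) :=
        mul_le_mul_of_nonneg_right hcd (by positivity)
    _ = _ := by ring

/-- `rmaj t √(rmaj^{-m} E) = (rmaj √(rmaj^{-m})) (t √E)`. -/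
theorem rmaj_sqrt {rm t Ev : ℝ} {m : ℕ} (hrm : 0 < rm) :
    rm * t * Real.sqrt (rm ^ (-(m : ℝ)) * Ev)
      = rm * Real.sqrt (rm ^ (-(m : ℝ))) * (t * Real.sqrt Ev) := by
  rw [Real.sqrt_mul (Real.rpow_pos_of_pos hrm _).le]
  ring

/-- `rmaj^{-m} E (rmaj r)^m = r^m E`. -/
theorem rmaj_pow {rm r Ev : ℝ} {m : ℕ} (hrm : 0 < rm) :
    rm ^ (-(m : ℝ)) * Ev * (rm * r) ^ m = r ^ m * Ev := by
  rw [Real.rpow_neg hrm.le, Real.rpow_natCast, mul_pow]
  have : rm ^ m ≠ 0 := by positivity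
  field_simp

theorem segment_dist_le {m : ℕ} {a b z : E m} (hz : z ∈ segment ℝ a b) : dist z a ≤ dist b a :=
  mem_closedBall.1 ((convex_closedBall a (dist b a)).segment_subset
    (mem_closedBall_self dist_nonneg) (mem_closedBall.2 le_rfl) hz)

set_option maxHeartbeats 1000000 in
/-- **The Gaussian cells at a contact are nodes of the next generation.** -/
theorem child_node (m n Q : ℕ) (hm : 1 ≤ m) (hQ : 2 ≤ Q) (κ Cg : ℝ) (F : Fix m n Q Cg) (p : Prm)
    (hp : p.Ok m) :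
    ∃ T0 : ℝ, ∀ T : ℝ, T0 ≤ T → ∀ (S : Sys m n) (A : Fin Q → E n) (grp : Fin Q → Fin Q),
      Root F κ p S T A grp → ∀ i : ℕ, i ≤ n0 p T →
      ∀ (xs : E m) (R : ℝ) (χ : E m → ℝ) (x : E m) (s0 : ℝ), Vert F S p T A i xs R χ x s0 →
      ∀ y : E m, ‖y - x‖ ≤ T * s0 → IsNode F S p T A (i + 1) y (cellR (1 / 16) x s0 y) := by
  obtain ⟨Cb, hCb, hcell⟩ := vert_cell m
  obtain ⟨Tnq, hnq⟩ := node_quiet m n Q hm hQ κ Cg F p hp
  obtain ⟨Tvq, hvq⟩ := vert_quiet m n Q hm hQ κ Cg F p hp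
  obtain ⟨Tbig, hbig⟩ := exists_big p Q hQ 1
  obtain ⟨Tρ, hρ⟩ := rho_absorb p (le_trans (by norm_num) hp.N_ge) (2 * (1 + F.c))
  obtain ⟨Tlg, hlg⟩ := logb_le_T Q hQ (16 * F.c)
  obtain ⟨Tct, hct⟩ := chain_total Q (8 * F.Cmaj)
  obtain ⟨Tcm, hcm⟩ := const_motion p Q hQ (F.rmaj * Real.sqrt (F.rmaj ^ (-(m : ℝ))))
  obtain ⟨Tce, hce⟩ := const_env p Q hQ (F.rmaj ^ (-(m : ℝ))) F.d0 F.d0_pos
  obtain ⟨Tcd, hcd⟩ := child_dens_num p m hp Cb
  refine ⟨max (max (max (max Tnq Tvq) (max Tbig Tρ)) (max (max Tlg Tct) (max Tcm Tce)))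
    (max Tcd (16 * F.c * (1 + F.c) + 32)), ?_⟩
  intro T hT S A grp hr i hi xs R χ x s0 hV y hy
  have hTnq : Tnq ≤ T := le_trans (le_trans (le_trans (le_trans (le_max_left _ _)
    (le_max_left _ _)) (le_max_left _ _)) (le_max_left _ _)) hT
  have hTvq : Tvq ≤ T := le_trans (le_trans (le_trans (le_trans (le_max_right _ _)
    (le_max_left _ _)) (le_max_left _ _)) (le_max_left _ _)) hT
  have hTbig : Tbig ≤ T := le_trans (le_trans (le_trans (le_trans (le_max_left _ _)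
    (le_max_right _ _)) (le_max_left _ _)) (le_max_left _ _)) hT
  have hTρ : Tρ ≤ T := le_trans (le_trans (le_trans (le_trans (le_max_right _ _)
    (le_max_right _ _)) (le_max_left _ _)) (le_max_left _ _)) hT
  have hTlg : Tlg ≤ T := le_trans (le_trans (le_trans (le_trans (le_max_left _ _)
    (le_max_left _ _)) (le_max_right _ _)) (le_max_left _ _)) hT
  have hTct : Tct ≤ T := le_trans (le_trans (le_trans (le_trans (le_max_right _ _)
    (le_max_left _ _)) (le_max_right _ _)) (le_max_left _ _)) hT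
  have hTcm : Tcm ≤ T := le_trans (le_trans (le_trans (le_trans (le_max_left _ _)
    (le_max_right _ _)) (le_max_right _ _)) (le_max_left _ _)) hT
  have hTce : Tce ≤ T := le_trans (le_trans (le_trans (le_trans (le_max_right _ _)
    (le_max_right _ _)) (le_max_right _ _)) (le_max_left _ _)) hT
  have hTcd : Tcd ≤ T := le_trans (le_trans (le_max_left _ _) (le_max_right _ _)) hT
  have hTc : 16 * F.c * (1 + F.c) + 32 ≤ T := le_trans (le_trans (le_max_right _ _)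
    (le_max_right _ _)) hT
  have big := hbig T hTbig
  have hT1 : 1 ≤ T := big.one_le
  have hT0 : 0 < T := big.pos
  have hc4 : 4 < F.c := F.c_gt
  have hc0 : 0 < F.c := by linarith
  have hS : S.Valid := hr.hyp.valid
  have hCg : S.Cg ≤ Cg := hr.hyp.Cg_le
  have hrb := rb_pos Q T
  have hs0 : 0 < s0 := hrb.trans_le hV.s0_ge
  have hR : 0 < R := hV.node.R_pos hT0
  have hR1 : R ≤ 1 := hV.node.R_le
  have hrm : F.rmaj = 4 / F.c := rfl
  have hrm0 : 0 < F.rmaj := by rw [hrm]; positivity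
  have hrm1 : F.rmaj ≤ 1 := by rw [hrm, div_le_one hc0]; linarith
  have hny : 0 ≤ ‖y - x‖ := norm_nonneg _
  have ar := cell_arith hTc hc4 hrb hV.s0_ge hV.s0_le hny hy (hρ T hTρ R hR)
  have hrdef : cellR (1 / 16) x s0 y = 1 / 16 * s0 / (1 + ‖y - x‖ / s0) := rfl
  rw [hrdef]
  generalize hU : 1 + ‖y - x‖ / s0 = U at ar ⊢
  generalize hrr : 1 / 16 * s0 / U = r at ar ⊢
  generalize haa : ‖y - x‖ + F.c * (U * s0) = a at ar
  have hr0 := ar.r_pos
  have hU1 := ar.U_ge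
  have hUs0 : s0 ≤ U * s0 := le_mul_of_one_le_left hs0.le hU1
  have hyU : ‖y - x‖ ≤ U * s0 := by rw [ar.Us]; linarith
  have hrs := ar.r_le
  have hrge4 : rb Q T / T ^ 4 ≤ r := by
    refine le_trans ?_ ar.r_ge
    exact div_le_div_of_nonneg_left hrb.le (by positivity) (pow_le_pow_right₀ hT1 (by norm_num))
  have hRge4 : rb Q T / T ^ 4 ≤ R := by
    refine le_trans ?_ hV.node.R_ge
    exact div_le_div_of_nonneg_left hrb.le (by positivity) (pow_le_pow_right₀ hT1 (by norm_num))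
  have hUsR : U * s0 ≤ R := by
    have h1 : U * s0 ≤ F.c * (U * s0) := le_mul_of_one_le_left (by positivity) (by linarith)
    exact h1.trans ar.cUs
  -- the enlarged cell
  obtain ⟨hsub4, hden4⟩ := hcell n Q Cg κ F p S T A grp hT1 hr i xs R χ x s0 hV y (4 * r) (U * s0)
    (by rw [ar.Us]; linarith) hUs0 hUsR
  have hsub44 : ball y (4 * r) ⊆ ball xs (4 * R) := hsub4.trans (ball_subset_ball (by linarith))
  have hdens := child_dens hT1 hCb ar hs0 hden4 (hcd T hTcd U hU1 ar.U_le)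
  -- the configuration of the child
  have hcr : F.c * (F.rmaj * r) = 4 * r := by
    rw [hrm]
    field_simp
  have hE2 : 0 < Env p T (2 * (i + 1)) r := Env_pos hT0 hr0 _
  obtain ⟨A5, hA5⟩ := F.cfg S hS hCg y (F.rmaj * r) (F.rmaj ^ (-(m : ℝ)) * Env p T (2 * (i + 1)) r)
    (by positivity) (by nlinarith [hV.s0_le, rho_le_self (p := p) hT1 hR.le])
    (mul_nonneg (Real.rpow_pos_of_pos hrm0 _).le hE2.le)
    (hce T hTce (2 * (i + 1)) (by omega) r hrge4)
    (by rw [hcr]; exact hsub44.trans (hV.node.sub_Ω hr))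
    (by rw [hcr, rmaj_pow hrm0]; exact hdens)
  have hA5maj : F.IsMaj S y (F.rmaj * r) (F.rmaj ^ (-(m : ℝ)) * Env p T (2 * (i + 1)) r) A5 :=
    hA5.maj
  have hA5q : QMaj F S (q0c Q T) y (F.rmaj * r) A5 := qmaj_of_isMaj hA5maj (by
    rw [rmaj_sqrt hrm0]
    exact hcm T hTcm (2 * (i + 1)) (by omega) r hrge4)
  obtain ⟨AR, hARmaj, hARm⟩ := hV.node.cfg
  have hARq : QMaj F S (q0c Q T) xs (F.rmaj * R) AR := qmaj_of_isMaj hARmaj (by
    rw [rmaj_sqrt hrm0]
    exact hcm T hTcm (2 * i) (by omega) R hRge4)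
  -- the chain
  have hx : dist x xs < R := mem_ball.1 hV.x_mem
  have hRc : 0 < R / F.c := by positivity
  have hRc2 : R / (2 * F.c) ≤ R / F.c :=
    div_le_div_of_nonneg_left hR.le hc0 (by linarith)
  have hcRc : F.c * (R / F.c) = R := by field_simp
  have h10 : R / F.c ≤ F.rmaj * R := by
    rw [hrm, div_mul_eq_mul_div]
    exact div_le_div_of_nonneg_right (by linarith) hc0.le
  have h21 : U * s0 ≤ R / F.c := by
    rw [le_div_iff₀ hc0, mul_comm]
    exact ar.cUs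
  have h32 : F.rmaj * r ≤ U * s0 := by
    have h1 : F.rmaj * r ≤ 1 * r := mul_le_mul_of_nonneg_right hrm1 hr0.le
    linarith
  have q1 : ∀ t, R / F.c ≤ t → t ≤ F.rmaj * R → Quiet F S (q0c Q T) xs t := fun t h1 h2 => by
    have h3 : F.c * t ≤ 4 * R := by
      calc F.c * t ≤ F.c * (F.rmaj * R) := mul_le_mul_of_nonneg_left h2 hc0.le
        _ = 4 * R := by rw [hrm]; field_simp
    exact hnq T hTnq S A grp hr i (by omega) xs R hV.node xs t (hRc2.trans h1) h3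
      (ball_subset_ball h3)
  have q2 : ∀ z ∈ segment ℝ xs x, Quiet F S (q0c Q T) z (R / F.c) := fun z hz => by
    have h1 := segment_dist_le hz
    refine hnq T hTnq S A grp hr i (by omega) xs R hV.node z (R / F.c) hRc2
      (by rw [hcRc]; linarith) ?_
    rw [hcRc]
    exact ball_subset_ball' (by linarith)
  have q3 : ∀ t, U * s0 ≤ t → t ≤ R / F.c → Quiet F S (q0c Q T) x t := fun t h1 h2 => by
    have ht0 : 0 < t := lt_of_lt_of_le (by positivity) h1
    refine hvq T hTvq S A grp hr i (by omega) xs R χ x s0 hV x t (F.c * t) (by simp) ?_ ?_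
      (mul_le_mul_of_nonneg_right ar.c_T ht0.le)
    · have : t ≤ F.c * t := le_mul_of_one_le_left ht0.le (by linarith)
      linarith
    · rw [le_div_iff₀ hc0] at h2
      linarith
  have q4 : ∀ z ∈ segment ℝ x y, Quiet F S (q0c Q T) z (U * s0) := fun z hz => by
    have h1 := segment_dist_le hz
    rw [dist_eq_norm, dist_eq_norm] at h1
    exact hvq T hTvq S A grp hr i (by omega) xs R χ x s0 hV z (U * s0) a (by linarith) ar.a_ge
      ar.a_le ar.a_T
  have q5 : ∀ t, F.rmaj * r ≤ t → t ≤ U * s0 → Quiet F S (q0c Q T) y t := fun t h1 h2 => by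
    have h3 : F.c * t ≤ F.c * (U * s0) := mul_le_mul_of_nonneg_left h2 hc0.le
    exact hvq T hTvq S A grp hr i (by omega) xs R χ x s0 hV y t a (by linarith) ar.a_ge ar.a_le
      (ar.a_t t h1)
  have hchain := chain5 hS hCg (mul_pos hrm0 hr0) h32 h21 h10 q1 q2 q3 q4 q5 hARq hA5q
  -- number of steps
  have hrb1 : rb Q T ≤ 1 := big.rb_le.trans (Real.exp_le_one_iff.2 (by linarith))
  have hT31 : 1 ≤ T ^ 3 := one_le_pow₀ hT1
  have hbigC : 16 * F.c * T ^ 3 ≤ 16 * F.c * T ^ 3 / rb Q T := by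
    rw [le_div_iff₀ hrb]
    have : 0 ≤ 16 * F.c * T ^ 3 := by positivity
    nlinarith
  have hC64 : 64 ≤ 16 * F.c * T ^ 3 := by nlinarith
  have l1 : Real.logb 2 (F.rmaj * R / (R / F.c)) ≤ T := by
    have h1 : F.rmaj * R / (R / F.c) = 4 := by
      rw [hrm]
      field_simp
    rw [h1]
    exact hlg T hTlg 4 (by norm_num) (by linarith)
  have e2 : 4 * ‖xs - x‖ / (R / F.c) ≤ 4 * F.c := by
    rw [div_le_iff₀ hRc, ← dist_eq_norm, dist_comm]
    have : 4 * F.c * (R / F.c) = 4 * R := by field_simp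
    rw [this]
    linarith
  have l3 : Real.logb 2 (R / F.c / (U * s0)) ≤ T := by
    refine hlg T hTlg _ (by positivity) ?_
    rw [div_le_div_iff₀ (by positivity) hrb]
    have h1 : R / F.c ≤ 1 := by
      rw [div_le_one hc0]
      linarith
    have h2 : rb Q T ≤ U * s0 := hV.s0_ge.trans hUs0
    calc R / F.c * rb Q T ≤ 1 * (U * s0) := mul_le_mul h1 h2 hrb.le (by norm_num)
      _ ≤ 16 * F.c * T ^ 3 * (U * s0) :=
          mul_le_mul_of_nonneg_right (by linarith) (by positivity)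
  have e4 : 4 * ‖x - y‖ / (U * s0) ≤ 4 := by
    rw [div_le_iff₀ (by positivity), norm_sub_rev]
    linarith
  have l5 : Real.logb 2 (U * s0 / (F.rmaj * r)) ≤ T :=
    hlg T hTlg _ (by positivity) (ar.ratio5.trans hbigC)
  have hq0 : 0 ≤ q0c Q T := by
    unfold q0c
    have := mot_pos Q T
    positivity
  have hmot := child_steps hq0 F.Cmaj_pos l1 e2 l3 e4 l5 (by nlinarith) (hct T hTct)
  have hAR5 : Sys.Matched AR A5 (mot Q T) := matched_mono hchain hmot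
  refine ⟨ar.r_ge, ?_, hsub44.trans hV.node.sub, hdens, A5, hA5maj, ?_⟩
  · have := hV.s0_le
    have := rho_le_self (p := p) hT1 hR.le
    linarith
  · refine matched_mono (matched_trans (matched_symm hAR5) hARm) (le_of_eq ?_)
    push_cast
    ring


theorem continuous_of_lip {m : ℕ} {f : E m → ℝ} {C : ℝ} (h : ∀ z z', |f z - f z'| ≤ C * ‖z - z'‖) :
    Continuous f := by
  have : LipschitzWith (Real.toNNReal C) f := LipschitzWith.of_dist_le_mul (fun z z' => by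
    rw [Real.dist_eq, dist_eq_norm]
    exact (h z z').trans (mul_le_mul_of_nonneg_right (Real.le_coe_toNNReal C) (norm_nonneg _)))
  exact this.continuous

/-- splitting of an integral along a finite partition. -/
theorem integral_partition {m : ℕ} (μ : Measure (E m)) [IsFiniteMeasure μ] (Y : Finset (E m))
    (φ : E m → E m → ℝ) (G : E m → ℝ) (B : ℝ) (hG : Continuous G) (hGB : ∀ z, |G z| ≤ B)
    (hφc : ∀ y ∈ Y, Continuous (φ y)) (hφ01 : ∀ y ∈ Y, ∀ z, 0 ≤ φ y z ∧ φ y z ≤ 1) :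
    ∫ z, G z ∂μ = ∑ y ∈ Y, ∫ z, φ y z * G z ∂μ + ∫ z, (1 - ∑ y ∈ Y, φ y z) * G z ∂μ := by
  have hB : 0 ≤ B := (abs_nonneg _).trans (hGB 0)
  have hi : ∀ y ∈ Y, Integrable (fun z => φ y z * G z) μ := fun y hy =>
    Integrable.of_bound ((hφc y hy).mul hG).aestronglyMeasurable B
      (Filter.Eventually.of_forall fun z => by
        rw [Real.norm_eq_abs, abs_mul, abs_of_nonneg (hφ01 y hy z).1]
        calc φ y z * |G z| ≤ 1 * B := mul_le_mul (hφ01 y hy z).2 (hGB z) (abs_nonneg _) (by norm_num)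
          _ = B := one_mul _)
  have hGi : Integrable G μ := Integrable.of_bound hG.aestronglyMeasurable B
    (Filter.Eventually.of_forall fun z => by rw [Real.norm_eq_abs]; exact hGB z)
  have hs : Integrable (fun z => ∑ y ∈ Y, φ y z * G z) μ := integrable_finsetSum Y hi
  have h1 : (fun z => (1 - ∑ y ∈ Y, φ y z) * G z) = fun z => G z - ∑ y ∈ Y, φ y z * G z := by
    funext z
    rw [sub_mul, one_mul, Finset.sum_mul]
  rw [h1, integral_sub hGi hs, integral_finsetSum Y hi]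
  ring

/-- AE (4.33): a bound `pn` on the children of radius `≤ s0` gives `L'_{s0}(x) ≤ Cc pn ν_{s0}(x) + (η/4) d`. -/
theorem child_bound (m n Q : ℕ) (hm : 1 ≤ m) (hQ : 2 ≤ Q) (κ Cg : ℝ) (F : Fix m n Q Cg) :
    ∃ Cc : ℝ, 0 < Cc ∧ ∀ p : Prm, p.Ok m →
      ∃ T0 : ℝ, ∀ T : ℝ, T0 ≤ T → ∀ (S : Sys m n) (A : Fin Q → E n) (grp : Fin Q → Fin Q),
      Root F κ p S T A grp → ∀ i : ℕ, i ≤ n0 p T →
      ∀ (xs : E m) (R : ℝ) (χ : E m → ℝ) (x : E m) (s0 : ℝ), Vert F S p T A i xs R χ x s0 →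
      ∀ pn : ℝ, 0 ≤ pn →
      (∀ (y : E m) (r : ℝ), IsNode F S p T A (i + 1) y r → r ≤ s0 → ∀ w : E m → ℝ,
        IsWeight w y r → Lfun S p T A w ≤ pn * NR S Q T y r) →
      LavC S p T A χ s0 x
        ≤ Cc * pn * (gav (tauC S Q χ) s0 x + dT T) + eta p T / 4 * dT T := by
  obtain ⟨Cov, Clip, hClip, hcells⟩ := gauss_cells m hm (1 / 16) (by norm_num) le_rfl
  obtain ⟨Csum, hCsum, hsum⟩ := cell_sum m hm (1 / 16) (by norm_num) le_rfl Cov
  obtain ⟨Cb, hCb, hcell⟩ := vert_cell m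
  refine ⟨Real.exp 1 * (Clip + 1) * Csum, by positivity, fun p hp => ?_⟩
  obtain ⟨Tcn, hcn⟩ := child_node m n Q hm hQ κ Cg F p hp
  obtain ⟨Tbig, hbig⟩ := exists_big p Q hQ 1
  obtain ⟨Tρ, hρ⟩ := rho_absorb p (le_trans (by norm_num) hp.N_ge) 2
  obtain ⟨Tt, htail⟩ := tail_num p Q m hQ (p.CQ + 3)
  refine ⟨max (max Tcn Tbig) (max Tρ Tt), ?_⟩
  intro T hT S A grp hr i hi xs R χ x s0 hV pn hpn hch
  have hTcn : Tcn ≤ T := le_trans (le_trans (le_max_left _ _) (le_max_left _ _)) hT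
  have hTbig : Tbig ≤ T := le_trans (le_trans (le_max_right _ _) (le_max_left _ _)) hT
  have hTρ : Tρ ≤ T := le_trans (le_trans (le_max_left _ _) (le_max_right _ _)) hT
  have hTt : Tt ≤ T := le_trans (le_trans (le_max_right _ _) (le_max_right _ _)) hT
  have big := hbig T hTbig
  have hT1 : 1 ≤ T := big.one_le
  have hT0 : 0 < T := big.pos
  have hCQ : 0 ≤ p.CQ := le_trans (by norm_num) hp.CQ_ge
  have hc0 : 0 ≤ cT T := div_nonneg (sq_nonneg _) hT0.le
  have hc1 : cT T ≤ 1 := big.cT_le.trans (by norm_num)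
  have hd : 0 < dT T := dT_pos T
  have hs0 : 0 < s0 := (rb_pos Q T).trans_le hV.s0_ge
  have hR : 0 < R := hV.node.R_pos hT0
  have tr : Trunc S Q χ xs R := hV.node.trunc hr hT0 hV.cut
  have hfin : IsFiniteMeasure (tauC S Q χ) := tr.finite_tauC
  have hfinp : IsFiniteMeasure (LpC S p T A χ) := tr.finite_LpC p T A
  have hfinm : IsFiniteMeasure (LmC S Q p χ) := tr.finite_LmC p
  -- room
  have hroom : (T + 1) * s0 ≤ R := by
    have h1 := hρ T hTρ R hR
    have h2 : (T + 1) * s0 ≤ (T + 1) * rho p T R :=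
      mul_le_mul_of_nonneg_left hV.s0_le (by linarith)
    have h3 : T + 1 ≤ 2 * T ^ 3 := by nlinarith [sq_nonneg (T - 1), sq_nonneg T]
    have h4 : (T + 1) * rho p T R ≤ 2 * T ^ 3 * rho p T R :=
      mul_le_mul_of_nonneg_right h3 (rho_pos hT0 hR).le
    linarith
  obtain ⟨Y, φ, hYc, hφ01, hφs, hφl, hφ1, hφle, hov⟩ := hcells x s0 T hs0 hT1
  set G : E m → ℝ := fun z => gauss m s0 (z - x) with hG
  have hGc : Continuous G := (gauss_continuous m s0).comp (continuous_id.sub continuous_const)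
  have hG0 : ∀ z, 0 < G z := fun z => gauss_pos m hs0 _
  set B : ℝ := s0 ^ (-(m : ℝ)) with hB
  have hGB : ∀ z, |G z| ≤ B := fun z => by
    rw [abs_of_pos (hG0 z)]
    exact gauss_le' m hs0 _
  have hφc : ∀ y ∈ Y, Continuous (φ y) := fun y hy => continuous_of_lip (hφl y hy)
  have hr0 : ∀ y, 0 < cellR (1 / 16) x s0 y := fun y => cellR_pos (by norm_num) hs0 x y
  have hrle : ∀ y, cellR (1 / 16) x s0 y ≤ 1 / 16 * s0 := fun y => cellR_le (by norm_num) hs0 x y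
  -- decomposition
  have hdec : LavC S p T A χ s0 x
      = ∑ y ∈ Y, ((∫ z, φ y z * G z ∂(LpC S p T A χ)) - ∫ z, φ y z * G z ∂(LmC S Q p χ))
        + ((∫ z, (1 - ∑ y ∈ Y, φ y z) * G z ∂(LpC S p T A χ))
          - ∫ z, (1 - ∑ y ∈ Y, φ y z) * G z ∂(LmC S Q p χ)) := by
    have h1 := integral_partition (LpC S p T A χ) Y φ G B hGc hGB hφc hφ01
    have h2 := integral_partition (LmC S Q p χ) Y φ G B hGc hGB hφc hφ01
    unfold LavC gav
    rw [show (fun y => gauss m s0 (y - x)) = G from rfl, h1, h2, Finset.sum_sub_distrib]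
    ring
  -- one cell
  have hcellb : ∀ y ∈ Y,
      (∫ z, φ y z * G z ∂(LpC S p T A χ)) - ∫ z, φ y z * G z ∂(LmC S Q p χ)
        ≤ Real.exp 1 * (Clip + 1) * pn * (gauss m s0 (y - x)
          * ((tauC S Q χ (ball y (4 * cellR (1 / 16) x s0 y))).toReal
            + dT T * cellR (1 / 16) x s0 y ^ m)) := by
    intro y hy
    have hyx := hYc y hy
    have hnode := hcn T hTcn S A grp hr i hi xs R χ x s0 hV y hyx
    obtain ⟨hsub4, _⟩ := hcell n Q Cg κ F p S T A grp hT1 hr i xs R χ x s0 hV y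
      (4 * cellR (1 / 16) x s0 y) ((T + 1) * s0) (by linarith [hrle y]) (by nlinarith) hroom
    have hsupp : Function.support (fun z => φ y z * G z) ⊆ ball xs (2 * R) := by
      intro z hz
      refine hsub4 (ball_subset_ball (by linarith [hr0 y]) (hφs y hy ?_))
      intro h0
      exact hz (by simp only [h0, zero_mul])
    have hbd : ∀ z, |φ y z * G z| ≤ B := fun z => by
      rw [abs_mul, abs_of_nonneg (hφ01 y hy z).1]
      calc φ y z * |G z| ≤ 1 * B :=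
            mul_le_mul (hφ01 y hy z).2 (hGB z) (abs_nonneg _) (by norm_num)
        _ = B := one_mul _
    have hloc := tr.Lfun_local p T A hc0 hCQ (f := fun z => φ y z * G z)
      ((hφc y hy).mul hGc).measurable B hbd hsupp
    have hw := cell_weight (by norm_num) le_rfl hs0 hClip x y (φ y) (hφ01 y hy) (hφs y hy)
      (hφl y hy)
    have hLw := hch y _ hnode (by linarith [hrle y]) _ hw
    have hGy : 0 < gauss m s0 (y - x) := gauss_pos m hs0 _
    have hfw : (fun z => φ y z * G z) = fun z => (Real.exp 1 * (Clip + 1) * gauss m s0 (y - x))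
        * (φ y z * gauss m s0 (z - x) / (Real.exp 1 * (Clip + 1) * gauss m s0 (y - x))) := by
      funext z
      have : Real.exp 1 * (Clip + 1) * gauss m s0 (y - x) ≠ 0 := by positivity
      rw [mul_div_cancel₀ _ this]
    have hNR : NR S Q T y (cellR (1 / 16) x s0 y)
        = (tauC S Q χ (ball y (4 * cellR (1 / 16) x s0 y))).toReal
          + dT T * cellR (1 / 16) x s0 y ^ m := by
      unfold NR
      rw [tr.tauC_eq measurableSet_ball hsub4]
    rw [hloc, hfw, Lfun_smul]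
    rw [hNR] at hLw
    calc Real.exp 1 * (Clip + 1) * gauss m s0 (y - x) * Lfun S p T A _
        ≤ Real.exp 1 * (Clip + 1) * gauss m s0 (y - x)
          * (pn * ((tauC S Q χ (ball y (4 * cellR (1 / 16) x s0 y))).toReal
            + dT T * cellR (1 / 16) x s0 y ^ m)) :=
          mul_le_mul_of_nonneg_left hLw (by positivity)
      _ = _ := by ring
  have hsumb : ∑ y ∈ Y,
      ((∫ z, φ y z * G z ∂(LpC S p T A χ)) - ∫ z, φ y z * G z ∂(LmC S Q p χ))
        ≤ Real.exp 1 * (Clip + 1) * Csum * pn * (gav (tauC S Q χ) s0 x + dT T) := by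
    have h1 := hsum (tauC S Q χ) x s0 (dT T) Y hs0 hd.le hov
    calc _ ≤ ∑ y ∈ Y, Real.exp 1 * (Clip + 1) * pn * (gauss m s0 (y - x)
          * ((tauC S Q χ (ball y (4 * cellR (1 / 16) x s0 y))).toReal
            + dT T * cellR (1 / 16) x s0 y ^ m)) := Finset.sum_le_sum hcellb
      _ = Real.exp 1 * (Clip + 1) * pn * ∑ y ∈ Y, gauss m s0 (y - x)
          * ((tauC S Q χ (ball y (4 * cellR (1 / 16) x s0 y))).toReal
            + dT T * cellR (1 / 16) x s0 y ^ m) := by rw [Finset.mul_sum]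
      _ ≤ Real.exp 1 * (Clip + 1) * pn * (Csum * (gav (tauC S Q χ) s0 x + dT T)) :=
          mul_le_mul_of_nonneg_left h1 (by positivity)
      _ = _ := by ring
  -- the tail
  have hsum0 : ∀ z, 0 ≤ ∑ y ∈ Y, φ y z := fun z => Finset.sum_nonneg fun y hy => (hφ01 y hy z).1
  have htl : (∫ z, (1 - ∑ y ∈ Y, φ y z) * G z ∂(LpC S p T A χ))
      - ∫ z, (1 - ∑ y ∈ Y, φ y z) * G z ∂(LmC S Q p χ) ≤ eta p T / 4 * dT T := by
    have hfc : Continuous fun z => (1 - ∑ y ∈ Y, φ y z) * G z :=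
      (continuous_const.sub (continuous_finsetSum Y hφc)).mul hGc
    have hf0 : ∀ z, 0 ≤ (1 - ∑ y ∈ Y, φ y z) * G z := fun z =>
      mul_nonneg (by linarith [hφle z]) (hG0 z).le
    have hfG : ∀ z, (1 - ∑ y ∈ Y, φ y z) * G z ≤ G z := fun z => by
      have := hsum0 z
      nlinarith [hG0 z]
    have hfb : ∀ z, |(1 - ∑ y ∈ Y, φ y z) * G z| ≤ B := fun z => by
      rw [abs_of_nonneg (hf0 z)]
      exact (hfG z).trans ((le_abs_self _).trans (hGB z))
    have h1 := tr.abs_source_le p T A hc0 hc1 hCQ hfc.measurable B hfb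
    have hGi : Integrable G (tauC S Q χ) := gauss_integrable (tauC S Q χ) hs0 x
    have h2 : ∫ z, |(1 - ∑ y ∈ Y, φ y z) * G z| ∂(tauC S Q χ)
        ≤ ∫ z in (closedBall x (T * s0))ᶜ, gauss m s0 (z - x) ∂(tauC S Q χ) := by
      rw [← integral_indicator measurableSet_closedBall.compl]
      refine integral_mono_of_nonneg (Filter.Eventually.of_forall fun z => abs_nonneg _)
        (hGi.indicator measurableSet_closedBall.compl) (Filter.Eventually.of_forall fun z => ?_)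
      beta_reduce
      by_cases hz : z ∈ closedBall x (T * s0)
      · have hz' : ‖z - x‖ ≤ T * s0 := by rwa [mem_closedBall, dist_eq_norm] at hz
        simp only [hφ1 z hz', sub_self, zero_mul, abs_zero]
        rw [indicator_of_notMem (by simpa using hz)]
      · rw [indicator_of_mem (by simpa using hz), abs_of_nonneg (hf0 z)]
        exact hfG z
    have h3 := gav_tail_le (tauC S Q χ) hs0 (r := T * s0) (by positivity) x
    have htU : (tauC S Q χ univ).toReal ≤ Real.exp (2 * T) * dT T := by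
      have h4 := node_total hV.node hr hT0 hV.cut
      have h5 : rb Q T / T ^ 4 ≤ R := by
        refine le_trans ?_ hV.node.R_ge
        exact div_le_div_of_nonneg_left (rb_pos Q T).le (by positivity)
          (pow_le_pow_right₀ hT1 (by norm_num))
      have h6 := big.env_total (2 * i) (by omega) R h5
      have h7 : R ^ m ≤ 1 := pow_le_one₀ hR.le hV.node.R_le
      have h8 : 0 < Env p T (2 * i) R := Env_pos hT0 hR _
      nlinarith
    have h9 := htail T hTt s0 _ hV.s0_ge ENNReal.toReal_nonneg htU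
    calc _ ≤ |(∫ z, (1 - ∑ y ∈ Y, φ y z) * G z ∂(LpC S p T A χ))
          - ∫ z, (1 - ∑ y ∈ Y, φ y z) * G z ∂(LmC S Q p χ)| := le_abs_self _
      _ ≤ (p.CQ + 3) * ∫ z, |(1 - ∑ y ∈ Y, φ y z) * G z| ∂(tauC S Q χ) := h1
      _ ≤ (p.CQ + 3) * (s0 ^ (-(m : ℝ)) * Real.exp (-(T * s0) ^ 2 / (2 * s0 ^ 2))
            * (tauC S Q χ univ).toReal) :=
          mul_le_mul_of_nonneg_left (h2.trans h3) (by linarith)
      _ ≤ _ := h9
  rw [hdec]
  linarith


end Claimed.Agent.R322.Sx.Sep
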