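import Claimed.Agent.R322.Pack032
import Claimed.Agent.R322.Pack033
import Claimed.Agent.R322.Pack036

/-!
# R322 / Sx / Sep / Envelope : the contact envelope AE (4.25), top slack, raw densities AE (4.28)
(leaves `L-Sep-EnvA` = `IsNode.*`, `node_total`, `top_slack`, `vert_of_mesh`, `hit_below`;  `L-Sep-EnvB` = `vert_ball`, `vert_cell`, `q_lip`)

Only `GaussK.lean`, `NodeMeas.lean` (Part A), `Num.lean`.  `τ' = tauC S Q χ`, `ρ = T^{-4N} R`, `t_j = 2^j r_b`, `K = Kmesh`.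

* `node_total`: `τ'(univ) ≤ τ(B_{4R}) ≤ R^m E_{2i}(R)`.
* `top_slack`: for `ρ/16 ≤ v ≤ R`: `τ'_v ≤ v^{-m} τ'(univ) ≤ (R/v)^m E_{2i}(R) ≤ (16 T^{4N})^m T^{-J0} E_{2i+1}(v) < E_{2i+1}(v)`.
* `vert_of_mesh`: let `v ∈ [s0, R]` and let `j` be the least index with `v < t_j` (so `t_j ≤ 2 v`).  If `j < K`, the test `j` is not omitted at
  `(x, s0)` (`s0 ≤ v < t_j`), so `τ'_{t_j}(x) ≤ 2 E_{2i+1}(t_j)` and `τ'_v ≤ (t_j/v)^m τ'_{t_j} ≤ 2^{m+1} E_{2i+1}(v)`.
  If `j ≥ K` then `2 v ≥ t_K ≥ ρ`: `top_slack`.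
* `vert_ball`: `τ(B_a(x)) = τ'(B_a(x)) ≤ (2π)^{m/2} e^{1/2} a^m τ'_a(x)`.
* `q_lip`: `gav_space_lip` + the envelope at `2 t_j ≤ R`.
-/

set_option autoImplicit false

namespace Claimed.Agent.R322.Sx.Sep

open MeasureTheory Set Metric
open scoped ENNReal NNReal InnerProductSpace

variable {m n Q : ℕ} {Cg : ℝ}

section basic

variable {F : Fix m n Q Cg} {κ : ℝ} {p : Prm} {S : Sys m n} {T : ℝ} {A : Fin Q → E n}
  {grp : Fin Q → Fin Q} {i : ℕ} {xs : E m} {R : ℝ}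

theorem IsNode.R_pos (h : IsNode F S p T A i xs R) (hT : 0 < T) : 0 < R := by
  exact lt_of_lt_of_le (div_pos (rb_pos Q T) (pow_pos hT 2)) h.R_ge

theorem IsNode.sub_Ω (h : IsNode F S p T A i xs R) (hr : Root F κ p S T A grp) :
    ball xs (4 * R) ⊆ S.Ω := by
  exact h.sub.trans hr.hyp.room

theorem IsNode.trunc (h : IsNode F S p T A i xs R) (hr : Root F κ p S T A grp) (hT : 0 < T)
    {χ : E m → ℝ} (hχ : IsCutoff χ xs (2 * R) R) : Trunc S Q χ xs R := by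
  exact ⟨hr.hyp.valid, h.R_pos hT, hχ, h.sub_Ω hr, lt_of_le_of_lt h.dens ENNReal.ofReal_lt_top⟩

/-- `τ'(univ) ≤ R^m E_{2i}(R)`. -/
theorem node_total (h : IsNode F S p T A i xs R) (hr : Root F κ p S T A grp) (hT : 0 < T)
    {χ : E m → ℝ} (hχ : IsCutoff χ xs (2 * R) R) :
    (tauC S Q χ univ).toReal ≤ R ^ m * Env p T (2 * i) R := by
  have hR := h.R_pos hT
  have hE := Env_pos (p := p) hT hR (2 * i)
  exact ENNReal.toReal_le_of_le_ofReal (by positivity)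
    ((h.trunc hr hT hχ).tauC_univ_le.trans h.dens)

end basic

/-- `ρ = R / T^{4N}` with a natural power. -/
theorem env_rho_eq (p : Prm) {T : ℝ} (hT : 0 < T) (R : ℝ) : rho p T R = R / T ^ (4 * p.N) := by
  unfold rho
  have e : (4 * (p.N : ℝ)) = ((4 * p.N : ℕ) : ℝ) := by push_cast; ring
  rw [e, Real.rpow_neg hT.le, Real.rpow_natCast]
  field_simp

/-- all top tests hold strictly. -/
theorem top_slack (m n Q : ℕ) (hm : 1 ≤ m) (hQ : 2 ≤ Q) (κ Cg : ℝ) (F : Fix m n Q Cg) (p : Prm)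
    (hp : p.Ok m) :
    ∃ T0 : ℝ, ∀ T : ℝ, T0 ≤ T → ∀ (S : Sys m n) (A : Fin Q → E n) (grp : Fin Q → Fin Q),
      Root F κ p S T A grp → ∀ (i : ℕ) (xs : E m) (R : ℝ), IsNode F S p T A i xs R →
      ∀ χ : E m → ℝ, IsCutoff χ xs (2 * R) R → ∀ (x : E m) (v : ℝ), rho p T R / 16 ≤ v → v ≤ R →
        gav (tauC S Q χ) v x < Env p T (2 * i + 1) v := by
  refine ⟨16 ^ m + 1, fun T hT0 S A grp hr i xs R hn χ hχ x v hv1 hv2 => ?_⟩
  have h16 : (1 : ℝ) ≤ 16 ^ m := one_le_pow₀ (by norm_num)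
  have hT1 : 1 ≤ T := by linarith
  have hT : 0 < T := by linarith
  have hR := hn.R_pos hT
  have htr := hn.trunc hr hT hχ
  haveI := htr.finite_tauC
  have hρ : rho p T R = R / T ^ (4 * p.N) := env_rho_eq p hT R
  have hTN : 0 < T ^ (4 * p.N) := pow_pos hT _
  have hv : 0 < v := by
    have : 0 < rho p T R / 16 := by rw [hρ]; positivity
    linarith
  have hEv := Env_pos (p := p) hT hv (2 * i)
  -- `R / v ≤ 16 T^{4N}`
  have hRv : R / v ≤ 16 * T ^ (4 * p.N) := by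
    rw [div_le_iff₀ hv]
    rw [hρ, div_div, div_le_iff₀ (by positivity)] at hv1
    linarith
  have h1 : gav (tauC S Q χ) v x ≤ (R / v) ^ m * Env p T (2 * i) v := by
    calc gav (tauC S Q χ) v x ≤ v ^ (-(m : ℝ)) * (tauC S Q χ univ).toReal := gav_le_total _ hv x
      _ ≤ v ^ (-(m : ℝ)) * (R ^ m * Env p T (2 * i) R) :=
          mul_le_mul_of_nonneg_left (node_total hn hr hT hχ) (Real.rpow_nonneg hv.le _)
      _ ≤ v ^ (-(m : ℝ)) * (R ^ m * Env p T (2 * i) v) := by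
          refine mul_le_mul_of_nonneg_left ?_ (Real.rpow_nonneg hv.le _)
          exact mul_le_mul_of_nonneg_left (Env_anti hT1 hv hv2 _) (by positivity)
      _ = (R / v) ^ m * Env p T (2 * i) v := by
          rw [Real.rpow_neg hv.le, Real.rpow_natCast, div_pow]
          field_simp
  have h2 : (R / v) ^ m ≤ 16 ^ m * T ^ (4 * p.N * m) := by
    calc (R / v) ^ m ≤ (16 * T ^ (4 * p.N)) ^ m := by
          exact pow_le_pow_left₀ (by positivity) hRv m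
      _ = 16 ^ m * T ^ (4 * p.N * m) := by rw [mul_pow, ← pow_mul]
  have h3 : (16 : ℝ) ^ m * T ^ (4 * p.N * m) < T ^ p.J0 := by
    have hJ : 4 * p.N * m + 1 ≤ p.J0 := by
      have := hp.J0_ge
      nlinarith [Nat.zero_le (p.N)]
    calc (16 : ℝ) ^ m * T ^ (4 * p.N * m) < T * T ^ (4 * p.N * m) :=
          mul_lt_mul_of_pos_right (by linarith) (pow_pos hT _)
      _ = T ^ (4 * p.N * m + 1) := by rw [pow_succ]; ring
      _ ≤ T ^ p.J0 := pow_le_pow_right₀ hT1 hJ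
  rw [Env_succ hT]
  calc gav (tauC S Q χ) v x ≤ (R / v) ^ m * Env p T (2 * i) v := h1
    _ < T ^ p.J0 * Env p T (2 * i) v := mul_lt_mul_of_pos_right (lt_of_le_of_lt h2 h3) hEv

/-- AE (4.25): a point of the mesh continuation set with thresholds `≤ 2` has the contact envelope. -/
theorem vert_of_mesh (m n Q : ℕ) (hm : 1 ≤ m) (hQ : 2 ≤ Q) (κ Cg : ℝ) (F : Fix m n Q Cg) (p : Prm)
    (hp : p.Ok m) :
    ∃ T0 : ℝ, ∀ T : ℝ, T0 ≤ T → ∀ (S : Sys m n) (A : Fin Q → E n) (grp : Fin Q → Fin Q),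
      Root F κ p S T A grp → ∀ (i : ℕ) (xs : E m) (R : ℝ), IsNode F S p T A i xs R →
      smallR p Q T < R → ∀ χ : E m → ℝ, IsCutoff χ xs (2 * R) R → ∀ lam : ℕ → ℝ, (∀ j, lam j ≤ 2) →
      ∀ (x : E m) (s0 : ℝ), x ∈ ball xs R → s0 ≤ rho p T R →
      (x, s0) ∈ meshD (rb Q T) (Kmesh p Q T R) (qtest S Q p T χ i) lam →
        Vert F S p T A i xs R χ x s0 := by
  obtain ⟨T0, hT0⟩ := top_slack m n Q hm hQ κ Cg F p hp
  refine ⟨max T0 1, fun T hTT S A grp hr i xs R hn hlarge χ hχ lam hlam x s0 hx hs0 hmesh => ?_⟩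
  have hTa : T0 ≤ T := (le_max_left _ _).trans hTT
  have hT1 : 1 ≤ T := (le_max_right _ _).trans hTT
  have hT : 0 < T := by linarith
  have hR := hn.R_pos hT
  have htr := hn.trunc hr hT hχ
  haveI := htr.finite_tauC
  have hrb := rb_pos Q T
  refine ⟨hn, hlarge, hχ, hx, hmesh.1, hs0, fun v hv1 hv2 => ?_⟩
  have hsb : rb Q T ≤ s0 := hmesh.1
  have hv : 0 < v := by linarith
  have hEv := Env_pos (p := p) hT hv (2 * i + 1)
  have h2m : (1 : ℝ) ≤ 2 ^ (m + 1) := one_le_pow₀ (by norm_num)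
  -- least index with `v < t_j`
  have hex : ∃ j : ℕ, v < 2 ^ j * rb Q T := by
    obtain ⟨j, hj⟩ := pow_unbounded_of_one_lt (v / rb Q T) (one_lt_two : (1 : ℝ) < 2)
    exact ⟨j, (div_lt_iff₀ hrb).1 hj⟩
  classical
  set j := Nat.find hex with hjdef
  have hj1 : v < 2 ^ j * rb Q T := Nat.find_spec hex
  have hj0 : j ≠ 0 := by
    intro h0
    rw [h0, pow_zero, one_mul] at hj1
    linarith
  obtain ⟨k, hk⟩ := Nat.exists_eq_succ_of_ne_zero hj0
  have hk1 : 2 ^ k * rb Q T ≤ v := by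
    have := Nat.find_min hex (m := k) (by rw [← hjdef, hk]; exact Nat.lt_succ_self k)
    exact not_lt.1 this
  have hj2 : 2 ^ j * rb Q T ≤ 2 * v := by
    rw [hk, Nat.succ_eq_add_one, pow_succ]
    linarith
  have htj : 0 < 2 ^ j * rb Q T := by positivity
  by_cases hjK : j < Kmesh p Q T R
  · rcases hmesh.2 j hjK with h | h
    · exfalso
      have h' : 2 ^ j * rb Q T ≤ s0 := h
      linarith
    · have hq : qtest S Q p T χ i j x ≤ 2 := le_trans h (hlam j)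
      have hEt := Env_pos (p := p) hT htj (2 * i + 1)
      unfold qtest tm at hq
      rw [div_le_iff₀ hEt] at hq
      have hratio : (2 ^ j * rb Q T / v) ^ m ≤ 2 ^ m := by
        refine pow_le_pow_left₀ (by positivity) ?_ m
        rw [div_le_iff₀ hv]
        exact hj2
      calc gav (tauC S Q χ) v x
          ≤ (2 ^ j * rb Q T / v) ^ m * gav (tauC S Q χ) (2 ^ j * rb Q T) x :=
            gav_scale_le _ hv hj1.le x
        _ ≤ 2 ^ m * (2 * Env p T (2 * i + 1) (2 ^ j * rb Q T)) :=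
            mul_le_mul hratio hq (gav_nonneg _ htj x) (by positivity)
        _ ≤ 2 ^ m * (2 * Env p T (2 * i + 1) v) := by
            have := Env_anti (p := p) hT1 hv hj1.le (2 * i + 1)
            gcongr
        _ = 2 ^ (m + 1) * Env p T (2 * i + 1) v := by rw [pow_succ]; ring
  · have hKj : Kmesh p Q T R ≤ j := not_lt.1 hjK
    have hρpos : 0 < rho p T R := by
      unfold rho
      exact mul_pos (Real.rpow_pos_of_pos hT _) hR
    have hK : rho p T R ≤ 2 ^ (Kmesh p Q T R) * rb Q T := by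
      rw [← div_le_iff₀ hrb]
      have hpos : 0 < rho p T R / rb Q T := div_pos hρpos hrb
      calc rho p T R / rb Q T = (2 : ℝ) ^ Real.logb 2 (rho p T R / rb Q T) :=
            (Real.rpow_logb (by norm_num) (by norm_num) hpos).symm
        _ ≤ (2 : ℝ) ^ ((Kmesh p Q T R : ℕ) : ℝ) :=
            Real.rpow_le_rpow_of_exponent_le (by norm_num) (Nat.le_ceil _)
        _ = 2 ^ (Kmesh p Q T R) := Real.rpow_natCast _ _
    have hKj' : (2 : ℝ) ^ (Kmesh p Q T R) * rb Q T ≤ 2 ^ j * rb Q T :=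
      mul_le_mul_of_nonneg_right (pow_le_pow_right₀ (by norm_num) hKj) hrb.le
    have hv16 : rho p T R / 16 ≤ v := by linarith
    have := hT0 T hTa S A grp hr i xs R hn χ hχ x v hv16 hv2
    calc gav (tauC S Q χ) v x ≤ 1 * Env p T (2 * i + 1) v := by rw [one_mul]; exact this.le
      _ ≤ 2 ^ (m + 1) * Env p T (2 * i + 1) v := mul_le_mul_of_nonneg_right h2m hEv.le

/-- every scale with `q_v ≥ 1` lies below `ρ/16`. -/
theorem hit_below (m n Q : ℕ) (hm : 1 ≤ m) (hQ : 2 ≤ Q) (κ Cg : ℝ) (F : Fix m n Q Cg) (p : Prm)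
    (hp : p.Ok m) :
    ∃ T0 : ℝ, ∀ T : ℝ, T0 ≤ T → ∀ (S : Sys m n) (A : Fin Q → E n) (grp : Fin Q → Fin Q),
      Root F κ p S T A grp → ∀ (i : ℕ) (xs : E m) (R : ℝ) (χ : E m → ℝ) (x : E m) (s0 : ℝ),
      Vert F S p T A i xs R χ x s0 → ∀ v1 : ℝ, v1 ≤ R →
      Env p T (2 * i + 1) v1 ≤ gav (tauC S Q χ) v1 x → 16 * v1 < rho p T R := by
  obtain ⟨T0, hT0⟩ := top_slack m n Q hm hQ κ Cg F p hp
  refine ⟨T0, fun T hTT S A grp hr i xs R χ x s0 hV v1 hv1 hE => ?_⟩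
  by_contra hcon
  have h16 : rho p T R / 16 ≤ v1 := by
    have := not_lt.1 hcon
    linarith
  exact absurd hE (not_le.2 (hT0 T hTT S A grp hr i xs R hV.node χ hV.cut x v1 h16 hv1))

/-- raw density of concentric balls on a vertical. -/
theorem vert_ball (m : ℕ) : ∃ Cb : ℝ, 0 < Cb ∧ ∀ (n Q : ℕ) (Cg κ : ℝ) (F : Fix m n Q Cg) (p : Prm)
    (S : Sys m n) (T : ℝ) (A : Fin Q → E n) (grp : Fin Q → Fin Q), 1 ≤ T → Root F κ p S T A grp →
    ∀ (i : ℕ) (xs : E m) (R : ℝ) (χ : E m → ℝ) (x : E m) (s0 : ℝ), Vert F S p T A i xs R χ x s0 →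
    ∀ a : ℝ, s0 ≤ a → a ≤ R →
      closedBall x a ⊆ ball xs (2 * R) ∧
      S.tau Q (closedBall x a) ≤ ENNReal.ofReal (Cb * a ^ m * Env p T (2 * i + 1) a) := by
  refine ⟨(2 * Real.pi) ^ ((m : ℝ) / 2) * Real.exp (1 / 2) * 2 ^ (m + 1), by positivity,
    fun n Q Cg κ F p S T A grp hT1 hr i xs R χ x s0 hV a ha1 ha2 => ?_⟩
  have hT : 0 < T := by linarith
  have hR := hV.node.R_pos hT
  have htr := hV.node.trunc hr hT hV.cut
  haveI := htr.finite_tauC
  have ha : 0 < a := by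
    have := rb_pos Q T
    have := hV.s0_ge
    linarith
  have hsub : closedBall x a ⊆ ball xs (2 * R) := by
    intro y hy
    have h1 := mem_closedBall.1 hy
    have h2 := mem_ball.1 hV.x_mem
    rw [mem_ball]
    calc dist y xs ≤ dist y x + dist x xs := dist_triangle _ _ _
      _ < 2 * R := by linarith
  refine ⟨hsub, ?_⟩
  rw [← htr.tauC_eq measurableSet_closedBall hsub]
  have hEa := Env_pos (p := p) hT ha (2 * i + 1)
  rw [ENNReal.le_ofReal_iff_toReal_le (measure_ne_top _ _) (by positivity)]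
  calc (tauC S Q χ (closedBall x a)).toReal
      ≤ (2 * Real.pi) ^ ((m : ℝ) / 2) * Real.exp (1 / 2) * a ^ m * gav (tauC S Q χ) a x :=
        measure_ball_le_gav _ ha x
    _ ≤ (2 * Real.pi) ^ ((m : ℝ) / 2) * Real.exp (1 / 2) * a ^ m
          * (2 ^ (m + 1) * Env p T (2 * i + 1) a) :=
        mul_le_mul_of_nonneg_left (hV.env a ha1 ha2) (by positivity)
    _ = _ := by ring

/-- AE (4.28): raw density of off-centre balls.  `B_r(y) ⊆ closedBall x a` with `a = |y - x| + r`. -/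
theorem vert_cell (m : ℕ) : ∃ Cb : ℝ, 0 < Cb ∧ ∀ (n Q : ℕ) (Cg κ : ℝ) (F : Fix m n Q Cg) (p : Prm)
    (S : Sys m n) (T : ℝ) (A : Fin Q → E n) (grp : Fin Q → Fin Q), 1 ≤ T → Root F κ p S T A grp →
    ∀ (i : ℕ) (xs : E m) (R : ℝ) (χ : E m → ℝ) (x : E m) (s0 : ℝ), Vert F S p T A i xs R χ x s0 →
    ∀ (y : E m) (r a : ℝ), ‖y - x‖ + r ≤ a → s0 ≤ a → a ≤ R →
      ball y r ⊆ ball xs (2 * R) ∧
      S.tau Q (ball y r) ≤ ENNReal.ofReal (Cb * a ^ m * Env p T (2 * i + 1) a) := by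
  obtain ⟨Cb, hCb, hb⟩ := vert_ball m
  refine ⟨Cb, hCb, fun n Q Cg κ F p S T A grp hT1 hr i xs R χ x s0 hV y r a hyr ha1 ha2 => ?_⟩
  obtain ⟨h1, h2⟩ := hb n Q Cg κ F p S T A grp hT1 hr i xs R χ x s0 hV a ha1 ha2
  have hsub : ball y r ⊆ closedBall x a := by
    intro z hz
    have hz' := mem_ball.1 hz
    rw [mem_closedBall]
    calc dist z x ≤ dist z y + dist y x := dist_triangle _ _ _
      _ ≤ a := by rw [dist_eq_norm y x]; linarith
  exact ⟨hsub.trans h1, (measure_mono hsub).trans h2⟩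

/-- AE (4.38): the tests at mesh scales above the contact are Lipschitz at their own scale. -/
theorem q_lip (m : ℕ) : ∃ Cq : ℝ, 0 < Cq ∧ ∀ (n Q : ℕ) (Cg κ : ℝ) (F : Fix m n Q Cg) (p : Prm)
    (S : Sys m n) (T : ℝ) (A : Fin Q → E n) (grp : Fin Q → Fin Q), 1 ≤ T → Root F κ p S T A grp →
    ∀ (i : ℕ) (xs : E m) (R : ℝ) (χ : E m → ℝ) (x : E m) (s0 : ℝ), Vert F S p T A i xs R χ x s0 →
    ∀ (j : ℕ) (y : E m), s0 ≤ tm Q T j → 2 * tm Q T j ≤ R → ‖y - x‖ ≤ tm Q T j →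
      |qtest S Q p T χ i j y - qtest S Q p T χ i j x| ≤ Cq * (‖y - x‖ / tm Q T j) := by
  obtain ⟨C, hC, hl⟩ := gav_space_lip m
  refine ⟨C * 2 ^ (m + 1), by positivity,
    fun n Q Cg κ F p S T A grp hT1 hr i xs R χ x s0 hV j y hj1 hj2 hyx => ?_⟩
  have hT : 0 < T := by linarith
  have htr := hV.node.trunc hr hT hV.cut
  haveI := htr.finite_tauC
  have ht : 0 < tm Q T j := by
    unfold tm
    have := rb_pos Q T
    positivity
  have hEt := Env_pos (p := p) hT ht (2 * i + 1)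
  unfold qtest
  rw [← sub_div, abs_div, abs_of_pos hEt, div_le_iff₀ hEt]
  have h0 : 0 ≤ ‖y - x‖ / tm Q T j := by positivity
  calc |gav (tauC S Q χ) (tm Q T j) y - gav (tauC S Q χ) (tm Q T j) x|
      ≤ C * (‖y - x‖ / tm Q T j) * gav (tauC S Q χ) (2 * tm Q T j) x :=
        hl _ _ ht x y hyx
    _ ≤ C * (‖y - x‖ / tm Q T j) * (2 ^ (m + 1) * Env p T (2 * i + 1) (2 * tm Q T j)) :=
        mul_le_mul_of_nonneg_left (hV.env _ (by linarith) hj2) (by positivity)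
    _ ≤ C * (‖y - x‖ / tm Q T j) * (2 ^ (m + 1) * Env p T (2 * i + 1) (tm Q T j)) := by
        have := Env_anti (p := p) hT1 ht (by linarith : tm Q T j ≤ 2 * tm Q T j) (2 * i + 1)
        gcongr
    _ = _ := by ring

end Claimed.Agent.R322.Sx.Sep
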