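import Claimed.Agent.R322.Sx.Sep.LargeB

/-!
# R322 / Sx / Sep / Large : one step of the recursion at a large node (glue `L-Sep-Large`, helper189; numerics = leaf `L-Sep-LargeNum`)

AE proof of Proposition 4.3, "Stopping tests at a large node" … "Choosing the thresholds".
Order of the construction (all ingredients are leaves of the other files):
1. `χ` (`exists_cutoff`), `τ' = tauC`, `Lp = LpC`, `Lm = LmC`, `d = dT T`, `η = eta p T`, `ρ = rho p T R`, `K = Kmesh`, tests `q j = qtest …`;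
2. `ν₂ = τ' + d · volume|_{B_{2R}(xs)}` (finite); thresholds `lam` from `exists_thresholds ν₂ K q` with `δ = ℓ^{-15}`, `θ = ℓ^{-13}`, `ε0 = T^{-3}`;
3. `D₀ = meshD r_b K q lam` (`meshD_isContinuation`);
4. if `srcMass ≤ 0` there is nothing to prove; otherwise `contact_local` (`C0 = C_Q + 3`, `C1 = 2`) gives `σ`, `𝒮`, `h = srcMass • π_# σ`;
5. every contact `(x, s0) ∈ 𝒮` satisfies `CFacts` (`contact_facts`, `LargeA.lean`);
6. `charge_glue`, `good_in_event` (`LargeB.lean`);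
7. `srcMass = h(univ) ≤ (pn/2 + η) 𝒩_R`.
-/

set_option autoImplicit false

namespace Claimed.Agent.R322.Sx.Sep

open MeasureTheory Set Metric
open scoped ENNReal NNReal InnerProductSpace

/-- the numerical facts used in `node_large`; `cl, Cc, Cbad, Cq, CN` are constants fixed before `T`. -/
structure LNum (p : Prm) (Q m : ℕ) (cl Cc Cbad Cq CN T : ℝ) : Prop where
  rho_le : ∀ R : ℝ, 0 < R → rho p T R ≤ cl * eta p T ^ 2 * R / T ^ 2
  rho_R : ∀ R : ℝ, 0 < R → 2 * (Real.log T * rho p T R) ≤ R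
  rb_lt : ∀ R : ℝ, smallR p Q T < R → rb Q T < rho p T R
  rb_small : rb Q T ≤ smallR p Q T
  bottom : 8 * Cc ≤ T
  bad : Cbad * Cc * (p.CQ + 4) * T * (1 + Real.log T) ^ (2 * m + 1)
    * Real.exp (-Real.log T ^ 2 / 2) ≤ eta p T
  good : CN * (Real.log T ^ (-(13 : ℝ)) + T * T ^ (-(3 : ℝ))) ≤ 1 / 2
  lip : Cq * (Real.log T / Real.log T ^ 20) ≤ Real.log T ^ (-(15 : ℝ))

/-- `2 ℓ ≤ e^ℓ`. -/
theorem ln_two_mul_le_exp (ℓ : ℝ) : 2 * ℓ ≤ Real.exp ℓ := by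
  have h1 := Real.add_one_le_exp (ℓ / 2)
  have h2 : Real.exp ℓ = Real.exp (ℓ / 2) * Real.exp (ℓ / 2) := by
    rw [← Real.exp_add]
    congr 1
    ring
  rcases le_total ℓ 0 with h0 | h0
  · linarith [Real.exp_pos ℓ]
  · have h3 : (ℓ / 2 + 1) * (ℓ / 2 + 1) ≤ Real.exp (ℓ / 2) * Real.exp (ℓ / 2) :=
      mul_le_mul h1 h1 (by linarith) (Real.exp_pos _).le
    nlinarith [sq_nonneg (ℓ / 2 - 1)]

theorem ln_rho_le (N cl ℓ R : ℝ) (hN : 10 ≤ N) (hℓ : 0 ≤ ℓ) (hcl : Real.exp (-ℓ) ≤ cl) (hR : 0 < R) :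
    Real.exp (ℓ * -(4 * N)) * R ≤ cl * Real.exp (ℓ * -N) ^ 2 * R / Real.exp ℓ ^ 2 := by
  rw [le_div_iff₀ (by positivity)]
  have e1 : Real.exp (ℓ * -(4 * N)) * R * Real.exp ℓ ^ 2 = Real.exp (ℓ * -(4 * N) + 2 * ℓ) * R := by
    rw [Real.exp_add, show (2 : ℝ) * ℓ = ((2 : ℕ) : ℝ) * ℓ by norm_num, Real.exp_nat_mul]
    ring
  have e2 : Real.exp (-ℓ) * Real.exp (ℓ * -N) ^ 2 = Real.exp (-ℓ + 2 * (ℓ * -N)) := by
    rw [Real.exp_add, show (2 : ℝ) * (ℓ * -N) = ((2 : ℕ) : ℝ) * (ℓ * -N) by norm_num,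
      Real.exp_nat_mul]
  have h1 : Real.exp (ℓ * -(4 * N) + 2 * ℓ) ≤ Real.exp (-ℓ + 2 * (ℓ * -N)) := by
    refine Real.exp_le_exp.2 ?_
    nlinarith
  rw [e1]
  calc Real.exp (ℓ * -(4 * N) + 2 * ℓ) * R ≤ Real.exp (-ℓ + 2 * (ℓ * -N)) * R :=
        mul_le_mul_of_nonneg_right h1 hR.le
    _ = Real.exp (-ℓ) * Real.exp (ℓ * -N) ^ 2 * R := by rw [e2]
    _ ≤ cl * Real.exp (ℓ * -N) ^ 2 * R :=
        mul_le_mul_of_nonneg_right (mul_le_mul_of_nonneg_right hcl (by positivity)) hR.le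

theorem ln_bad (C N ℓ : ℝ) (k : ℕ) (hℓ0 : 0 ≤ ℓ) (hC : |C| ≤ ℓ)
    (hℓ : 2 * ((k : ℝ) + 2 + N) ≤ ℓ) :
    C * Real.exp ℓ * (1 + ℓ) ^ k * Real.exp (-ℓ ^ 2 / 2) ≤ Real.exp (ℓ * -N) := by
  have h1 : 1 + ℓ ≤ Real.exp ℓ := by linarith [Real.add_one_le_exp ℓ]
  have h2 : (1 + ℓ) ^ k ≤ Real.exp ℓ ^ k := pow_le_pow_left₀ (by linarith) h1 k
  have h3 : C ≤ Real.exp ℓ := by linarith [le_abs_self C]
  have hpos : 0 ≤ Real.exp ℓ * (1 + ℓ) ^ k * Real.exp (-ℓ ^ 2 / 2) := by positivity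
  calc C * Real.exp ℓ * (1 + ℓ) ^ k * Real.exp (-ℓ ^ 2 / 2)
      = C * (Real.exp ℓ * (1 + ℓ) ^ k * Real.exp (-ℓ ^ 2 / 2)) := by ring
    _ ≤ Real.exp ℓ * (Real.exp ℓ * (1 + ℓ) ^ k * Real.exp (-ℓ ^ 2 / 2)) :=
        mul_le_mul_of_nonneg_right h3 hpos
    _ ≤ Real.exp ℓ * (Real.exp ℓ * Real.exp ℓ ^ k * Real.exp (-ℓ ^ 2 / 2)) := by
        refine mul_le_mul_of_nonneg_left ?_ (Real.exp_pos _).le
        exact mul_le_mul_of_nonneg_right (mul_le_mul_of_nonneg_left h2 (Real.exp_pos _).le)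
          (Real.exp_pos _).le
    _ = Real.exp (ℓ + (ℓ + (k : ℝ) * ℓ + -ℓ ^ 2 / 2)) := by
        rw [← Real.exp_nat_mul, ← Real.exp_add, ← Real.exp_add, ← Real.exp_add]
    _ ≤ Real.exp (ℓ * -N) := by
        refine Real.exp_le_exp.2 ?_
        have h4 : 2 * ((k : ℝ) + 2 + N) * ℓ ≤ ℓ * ℓ := mul_le_mul_of_nonneg_right hℓ hℓ0
        nlinarith

theorem ln_good (CN ℓ : ℝ) (hℓ1 : 1 ≤ ℓ) (hCN : 4 * |CN| ≤ ℓ) :
    CN * (ℓ ^ (-(13 : ℝ)) + Real.exp ℓ * Real.exp (ℓ * -(3 : ℝ))) ≤ 1 / 2 := by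
  have h0 : 0 < ℓ := by linarith
  have e13 : ℓ ^ (-(13 : ℝ)) = (ℓ ^ 13)⁻¹ := by
    rw [Real.rpow_neg h0.le]
    norm_cast
  have h1 : (ℓ ^ 13)⁻¹ ≤ ℓ⁻¹ := by
    refine inv_anti₀ h0 ?_
    calc ℓ = ℓ ^ 1 := (pow_one ℓ).symm
      _ ≤ ℓ ^ 13 := pow_le_pow_right₀ hℓ1 (by norm_num)
  have h2 : Real.exp ℓ * Real.exp (ℓ * -(3 : ℝ)) ≤ ℓ⁻¹ := by
    rw [← Real.exp_add]
    have h3 : Real.exp (ℓ + ℓ * -(3 : ℝ)) ≤ Real.exp (-ℓ) := Real.exp_le_exp.2 (by linarith)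
    refine h3.trans ?_
    rw [Real.exp_neg]
    exact inv_anti₀ h0 (by linarith [Real.add_one_le_exp ℓ])
  have h4 : 0 ≤ ℓ ^ (-(13 : ℝ)) + Real.exp ℓ * Real.exp (ℓ * -(3 : ℝ)) := by positivity
  calc CN * (ℓ ^ (-(13 : ℝ)) + Real.exp ℓ * Real.exp (ℓ * -(3 : ℝ)))
      ≤ |CN| * (ℓ ^ (-(13 : ℝ)) + Real.exp ℓ * Real.exp (ℓ * -(3 : ℝ))) :=
        mul_le_mul_of_nonneg_right (le_abs_self _) h4
    _ ≤ |CN| * (ℓ⁻¹ + ℓ⁻¹) := by
        refine mul_le_mul_of_nonneg_left ?_ (abs_nonneg _)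
        rw [e13]
        exact add_le_add h1 h2
    _ = 2 * |CN| / ℓ := by
        field_simp
        ring
    _ ≤ 1 / 2 := by
        rw [div_le_iff₀ h0]
        linarith

theorem ln_lip (Cq ℓ : ℝ) (hℓ1 : 1 ≤ ℓ) (hCq : |Cq| ≤ ℓ) :
    Cq * (ℓ / ℓ ^ 20) ≤ ℓ ^ (-(15 : ℝ)) := by
  have h0 : 0 < ℓ := by linarith
  have e15 : ℓ ^ (-(15 : ℝ)) = (ℓ ^ 15)⁻¹ := by
    rw [Real.rpow_neg h0.le]
    norm_cast
  rw [e15]
  have h1 : Cq ≤ ℓ ^ 4 := by
    calc Cq ≤ |Cq| := le_abs_self _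
      _ ≤ ℓ := hCq
      _ = ℓ ^ 1 := (pow_one ℓ).symm
      _ ≤ ℓ ^ 4 := pow_le_pow_right₀ hℓ1 (by norm_num)
  calc Cq * (ℓ / ℓ ^ 20) ≤ ℓ ^ 4 * (ℓ / ℓ ^ 20) := mul_le_mul_of_nonneg_right h1 (by positivity)
    _ = (ℓ ^ 15)⁻¹ := by
        field_simp

/-- `ρ = T^{-4N} R`, `η = T^{-N}`, `N ≥ 10`, `smallR = T^{10N} r_b`; `e^{-ℓ²/2} = T^{-ℓ/2}` beats every power of `T`
(`Big.log_kill`); `ℓ^{-13} + T^{-2} → 0`; `ℓ/ℓ^20 = ℓ^{-19}`. -/
theorem exists_lnum (p : Prm) (Q m : ℕ) (hp : p.Ok m) (hQ : 2 ≤ Q) (cl Cc Cbad Cq CN : ℝ)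
    (hcl : 0 < cl) :
    ∃ T0 : ℝ, ∀ T : ℝ, T0 ≤ T → LNum p Q m cl Cc Cbad Cq CN T := by
  refine ⟨Real.exp (1 + 2 * (((2 * m + 1 : ℕ) : ℝ) + 2 + (p.N : ℝ)) + 4 * |CN| + |Cq| + 8 * |Cc|
    + |Cbad * Cc * (p.CQ + 4)| + 1 / cl), fun T hT => ?_⟩
  have hT0 : 0 < T := lt_of_lt_of_le (Real.exp_pos _) hT
  have hl := (Real.le_log_iff_exp_le hT0).2 hT
  obtain ⟨ℓ, hℓ⟩ : ∃ ℓ : ℝ, ℓ = Real.log T := ⟨_, rfl⟩
  rw [← hℓ] at hl
  have hTe : T = Real.exp ℓ := by rw [hℓ, Real.exp_log hT0]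
  have hN : (10 : ℝ) ≤ (p.N : ℝ) := by exact_mod_cast hp.N_ge
  have a1 := abs_nonneg CN
  have a2 := abs_nonneg Cq
  have a3 := abs_nonneg Cc
  have a4 := abs_nonneg (Cbad * Cc * (p.CQ + 4))
  have a5 : 0 < 1 / cl := by positivity
  have a6 : (0 : ℝ) ≤ ((2 * m + 1 : ℕ) : ℝ) := Nat.cast_nonneg _
  have hℓ1 : 1 ≤ ℓ := by linarith
  have hℓ0 : 0 ≤ ℓ := by linarith
  have hT1 : 1 ≤ T := by rw [hTe]; exact Real.one_le_exp hℓ0
  have hexp : ℓ + 1 ≤ T := by rw [hTe]; exact Real.add_one_le_exp ℓ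
  have hrp : ∀ y : ℝ, T ^ y = Real.exp (ℓ * y) := fun y => by
    rw [Real.rpow_def_of_pos hT0, hℓ]
  have hcl' : Real.exp (-ℓ) ≤ cl := by
    rw [Real.exp_neg, ← hTe]
    have h1 : T⁻¹ ≤ (1 / cl)⁻¹ := inv_anti₀ a5 (by linarith)
    simpa using h1
  have hpow : (1 : ℝ) ≤ T ^ (10 * (p.N : ℝ)) := Real.one_le_rpow hT1 (by linarith)
  have hrb := rb_pos Q T
  refine
    { rho_le := ?_
      rho_R := ?_
      rb_lt := ?_
      rb_small := ?_
      bottom := ?_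
      bad := ?_
      good := ?_
      lip := ?_ }
  · intro R hR
    unfold rho eta
    rw [hrp, hrp]
    have h := ln_rho_le (p.N : ℝ) cl ℓ R hN hℓ0 hcl' hR
    rwa [← hTe] at h
  · intro R hR
    unfold rho
    rw [← hℓ, hrp]
    have h1 : Real.exp (ℓ * -(4 * (p.N : ℝ))) ≤ Real.exp (-ℓ) := Real.exp_le_exp.2 (by nlinarith)
    have h2 : 2 * ℓ * Real.exp (-ℓ) ≤ 1 := by
      rw [Real.exp_neg, ← div_eq_mul_inv, div_le_one (Real.exp_pos _)]
      exact ln_two_mul_le_exp ℓ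
    have h3 : 2 * ℓ * Real.exp (ℓ * -(4 * (p.N : ℝ))) ≤ 1 :=
      (mul_le_mul_of_nonneg_left h1 (by linarith)).trans h2
    calc 2 * (ℓ * (Real.exp (ℓ * -(4 * (p.N : ℝ))) * R))
        = 2 * ℓ * Real.exp (ℓ * -(4 * (p.N : ℝ))) * R := by ring
      _ ≤ 1 * R := mul_le_mul_of_nonneg_right h3 hR.le
      _ = R := one_mul R
  · intro R hR
    unfold smallR at hR
    unfold rho
    have hp4 : 0 < T ^ (-(4 * (p.N : ℝ))) := Real.rpow_pos_of_pos hT0 _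
    have h1 : T ^ (-(4 * (p.N : ℝ))) * (T ^ (10 * (p.N : ℝ)) * rb Q T) <
        T ^ (-(4 * (p.N : ℝ))) * R := mul_lt_mul_of_pos_left hR hp4
    have h2 : T ^ (-(4 * (p.N : ℝ))) * T ^ (10 * (p.N : ℝ)) = T ^ (6 * (p.N : ℝ)) := by
      rw [← Real.rpow_add hT0]
      congr 1
      ring
    have h3 : (1 : ℝ) ≤ T ^ (6 * (p.N : ℝ)) := Real.one_le_rpow hT1 (by linarith)
    calc rb Q T = 1 * rb Q T := (one_mul _).symm
      _ ≤ T ^ (6 * (p.N : ℝ)) * rb Q T := mul_le_mul_of_nonneg_right h3 hrb.le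
      _ = T ^ (-(4 * (p.N : ℝ))) * (T ^ (10 * (p.N : ℝ)) * rb Q T) := by rw [← h2]; ring
      _ < _ := h1
  · unfold smallR
    calc rb Q T = 1 * rb Q T := (one_mul _).symm
      _ ≤ T ^ (10 * (p.N : ℝ)) * rb Q T := mul_le_mul_of_nonneg_right hpow hrb.le
  · linarith [le_abs_self Cc]
  · unfold eta
    rw [← hℓ, hrp]
    have h := ln_bad (Cbad * Cc * (p.CQ + 4)) (p.N : ℝ) ℓ (2 * m + 1) hℓ0 (by linarith)
      (by linarith)
    rwa [← hTe] at h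
  · rw [← hℓ, hrp]
    have h := ln_good CN ℓ hℓ1 (by linarith)
    rwa [← hTe] at h
  · rw [← hℓ]
    exact ln_lip Cq ℓ hℓ1 (by linarith)

/-! ### arithmetic of the last step -/

theorem bad_arith {Cbad Cc pn CQ T ℓ ρ a η tU dR NRv : ℝ} {k : ℕ} (hCbad : 0 ≤ Cbad) (hCc : 0 ≤ Cc)
    (hpn : 0 ≤ pn) (hpn' : pn ≤ CQ + 4) (_hT : 0 ≤ T) (hℓ : 0 ≤ ℓ) (haρ : a ≤ ρ) (ha : 0 < a)
    (hLg : 1 + Real.logb 2 (ρ / a) ≤ T)
    (hbad : Cbad * Cc * (CQ + 4) * T * (1 + ℓ) ^ k * Real.exp (-ℓ ^ 2 / 2) ≤ η)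
    (htU : 0 ≤ tU) (hdR : 0 ≤ dR) (hNR : tU + dR ≤ NRv) (hη : 0 ≤ η) :
    Cbad * Cc * pn * (1 + Real.logb 2 (ρ / a)) * (1 + ℓ) ^ k * Real.exp (-ℓ ^ 2 / 2) * (tU + dR)
      ≤ η * NRv := by
  have hLg0 : 0 ≤ 1 + Real.logb 2 (ρ / a) := by
    have : 0 ≤ Real.logb 2 (ρ / a) := Real.logb_nonneg (by norm_num) ((one_le_div ha).2 haρ)
    linarith
  have e1 : Cbad * Cc * pn * (1 + Real.logb 2 (ρ / a)) ≤ Cbad * Cc * (CQ + 4) * T := by
    have h0 : 0 ≤ Cbad * Cc := by positivity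
    have h1 : 0 ≤ CQ + 4 := hpn.trans hpn'
    exact mul_le_mul (mul_le_mul_of_nonneg_left hpn' h0) hLg hLg0 (by positivity)
  have e2 : Cbad * Cc * pn * (1 + Real.logb 2 (ρ / a)) * (1 + ℓ) ^ k * Real.exp (-ℓ ^ 2 / 2)
      ≤ η := by
    refine le_trans ?_ hbad
    have : 0 ≤ (1 + ℓ) ^ k := by positivity
    exact mul_le_mul_of_nonneg_right (mul_le_mul_of_nonneg_right e1 this) (Real.exp_pos _).le
  exact mul_le_mul e2 hNR (by positivity) hη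

theorem nu2_univ_le {m : ℕ} (τ' : Measure (E m)) [IsFiniteMeasure τ'] (xs : E m) {R d NRv : ℝ}
    (hR : 0 < R) (hd : 0 ≤ d) (hNR : (τ' univ).toReal + d * R ^ m ≤ NRv) :
    (τ' + ENNReal.ofReal d • (volume : Measure (E m)).restrict (ball xs (2 * R))) univ
      ≤ ENNReal.ofReal ((1 + 2 ^ m * (volume (ball (0 : E m) 1)).toReal) * NRv) := by
  set ωm : ℝ := (volume (ball (0 : E m) 1)).toReal with hωm
  have hω0 : 0 ≤ ωm := ENNReal.toReal_nonneg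
  have htU0 : 0 ≤ (τ' univ).toReal := ENNReal.toReal_nonneg
  have h1 : (volume : Measure (E m)) (ball xs (2 * R)) = ENNReal.ofReal ((2 * R) ^ m * ωm) := by
    have h2 := Measure.addHaar_ball_mul_of_pos (volume : Measure (E m)) xs
      (show 0 < 2 * R by linarith) 1
    rw [mul_one, finrank_euclideanSpace_fin] at h2
    rw [h2, ENNReal.ofReal_mul (by positivity), hωm,
      ENNReal.ofReal_toReal measure_ball_lt_top.ne]
  have h3 : (τ' + ENNReal.ofReal d • (volume : Measure (E m)).restrict (ball xs (2 * R))) univ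
      = ENNReal.ofReal ((τ' univ).toReal + d * ((2 * R) ^ m * ωm)) := by
    rw [Measure.add_apply, Measure.smul_apply, Measure.restrict_apply_univ, h1,
      smul_eq_mul, ← ENNReal.ofReal_mul hd, ENNReal.ofReal_add htU0 (by positivity),
      ENNReal.ofReal_toReal (measure_ne_top _ _)]
  rw [h3]
  apply ENNReal.ofReal_le_ofReal
  rw [mul_pow]
  have h4 : 0 ≤ 2 ^ m * ωm := by positivity
  have h5 : (τ' univ).toReal + d * (2 ^ m * R ^ m * ωm)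
      ≤ (1 + 2 ^ m * ωm) * ((τ' univ).toReal + d * R ^ m) := by
    have h6 : 0 ≤ d * R ^ m := by positivity
    nlinarith [mul_nonneg h4 htU0, h6]
  exact h5.trans (mul_le_mul_of_nonneg_left hNR (by positivity))

theorem good_arith {Nm K : ℕ} {Cc pn NRv ω θ ε0 T c2 : ℝ} {x u : ℝ≥0∞} (hCc : 0 ≤ Cc) (hpn : 0 ≤ pn)
    (hNR : 0 ≤ NRv) (hω : 0 ≤ ω) (hθ : 0 ≤ θ) (hε0 : 0 ≤ ε0) (hKT : (K : ℝ) ≤ T)
    (hgood : (Nm : ℝ) * (2 * Cc) * (1 + c2 * ω) * (θ + T * ε0) ≤ 1 / 2)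
    (hx : x ≤ ENNReal.ofReal (θ + K * ε0) * u) (hu : u ≤ ENNReal.ofReal ((1 + c2 * ω) * NRv))
    (hc2 : 0 ≤ c2 := by positivity) :
    (Nm : ℝ≥0∞) * ENNReal.ofReal (2 * Cc * pn) * x ≤ ENNReal.ofReal (pn / 2 * NRv) := by
  have h1 : x ≤ ENNReal.ofReal ((θ + (K : ℝ) * ε0) * ((1 + c2 * ω) * NRv)) := by
    rw [ENNReal.ofReal_mul (by positivity)]
    exact hx.trans (mul_le_mul_right hu _)
  have h2 : (Nm : ℝ≥0∞) * ENNReal.ofReal (2 * Cc * pn)
      = ENNReal.ofReal ((Nm : ℝ) * (2 * Cc * pn)) := by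
    rw [ENNReal.ofReal_mul (Nat.cast_nonneg _), ENNReal.ofReal_natCast]
  rw [h2]
  refine (mul_le_mul_right h1 _).trans ?_
  rw [← ENNReal.ofReal_mul (by positivity)]
  apply ENNReal.ofReal_le_ofReal
  have h3 : θ + (K : ℝ) * ε0 ≤ θ + T * ε0 := by
    have := mul_le_mul_of_nonneg_right hKT hε0
    linarith
  have h4 : 0 ≤ (Nm : ℝ) * (2 * Cc) * (1 + c2 * ω) := by positivity
  have h5 : (Nm : ℝ) * (2 * Cc) * (1 + c2 * ω) * (θ + (K : ℝ) * ε0) ≤ 1 / 2 :=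
    (mul_le_mul_of_nonneg_left h3 h4).trans hgood
  have h6 : 0 ≤ pn * NRv := by positivity
  calc (Nm : ℝ) * (2 * Cc * pn) * ((θ + (K : ℝ) * ε0) * ((1 + c2 * ω) * NRv))
      = ((Nm : ℝ) * (2 * Cc) * (1 + c2 * ω) * (θ + (K : ℝ) * ε0)) * (pn * NRv) := by ring
    _ ≤ 1 / 2 * (pn * NRv) := mul_le_mul_of_nonneg_right h5 h6
    _ = _ := by ring

theorem final_arith {src η NRv pn X c16 : ℝ} (h1 : src ≤ η * NRv + pn / 2 * NRv)
    (h2 : X ≤ c16 * η * NRv) (h3 : 0 ≤ η * NRv) :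
    src + X ≤ (pn / 2 + (2 + c16) * η) * NRv := by
  nlinarith

/-- **Large nodes**: a large generation pays a small margin and half of the next-generation bound. -/
theorem node_large (m n Q : ℕ) (hm : 1 ≤ m) (hQ : 2 ≤ Q) (κ Cg : ℝ) (hκ : 0 < κ)
    (F : Fix m n Q Cg) (p : Prm) (hp : p.Ok m) :
    ∃ T0 : ℝ, ∀ T : ℝ, T0 ≤ T → ∀ (S : Sys m n) (A : Fin Q → E n) (grp : Fin Q → Fin Q),
      Root F κ p S T A grp → ∀ i : ℕ, i ≤ n0 p T → ∀ pn : ℝ, 0 < pn → pn ≤ p.CQ + 4 →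
      NodeBound F S p T A (i + 1) pn →
      (∀ (y : E m) (r : ℝ), IsNode F S p T A (i + 1) y r → r ≤ smallR p Q T → ∀ w : E m → ℝ,
        IsWeight w y r → Lfun S p T A w ≤ eta p T / T * NR S Q T y r) →
      ∀ (xs : E m) (R : ℝ), IsNode F S p T A i xs R → smallR p Q T < R →
      ∀ w : E m → ℝ, IsWeight w xs R →
        Lfun S p T A w ≤ (pn / 2 + (2 + 16 ^ m) * eta p T) * NR S Q T xs R := by
  obtain ⟨Cc, hCc, hcb⟩ := child_bound m n Q hm hQ κ Cg F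
  obtain ⟨Tcb, hcb⟩ := hcb p hp
  obtain ⟨cl, Tcl, hcl, hcontact⟩ := contact_local m hm (p.CQ + 3) 2
  obtain ⟨Cbad, Nm, hCbad, hcharge⟩ := charge_glue m hm
  obtain ⟨Cq, hCq, hqlip⟩ := q_lip m
  obtain ⟨Tvm, hvm⟩ := vert_of_mesh m n Q hm hQ κ Cg F p hp
  obtain ⟨Tnh, hnh⟩ := near_hit m n Q hm hQ κ Cg hκ F p hp
  obtain ⟨Tbig, hbig⟩ := exists_big p Q hQ 1
  set ωm : ℝ := (volume (ball (0 : E m) 1)).toReal with hωm
  obtain ⟨Tln, hln⟩ := exists_lnum p Q m hp hQ cl Cc Cbad Cq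
    ((Nm : ℝ) * (2 * Cc) * (1 + 2 ^ m * ωm)) hcl
  refine ⟨max (max (max Tcb Tcl) (max Tvm Tnh)) (max Tbig Tln), ?_⟩
  intro T hT S A grp hr i hi pn hpn hpn' hnb hsm xs R hn hlarge w hw
  have hTcb : Tcb ≤ T := le_trans (le_trans (le_trans (le_max_left _ _) (le_max_left _ _))
    (le_max_left _ _)) hT
  have hTcl : Tcl ≤ T := le_trans (le_trans (le_trans (le_max_right _ _) (le_max_left _ _))
    (le_max_left _ _)) hT
  have hTvm : Tvm ≤ T := le_trans (le_trans (le_trans (le_max_left _ _) (le_max_right _ _))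
    (le_max_left _ _)) hT
  have hTnh : Tnh ≤ T := le_trans (le_trans (le_trans (le_max_right _ _) (le_max_right _ _))
    (le_max_left _ _)) hT
  have hTbig : Tbig ≤ T := le_trans (le_trans (le_max_left _ _) (le_max_right _ _)) hT
  have hTln : Tln ≤ T := le_trans (le_trans (le_max_right _ _) (le_max_right _ _)) hT
  have big := hbig T hTbig
  have ln := hln T hTln
  have hT1 : 1 ≤ T := big.one_le
  have hT0 : 0 < T := big.pos
  have hlog : 1 ≤ Real.log T := le_trans (by norm_num) big.log_ge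
  have hl0 : 0 < Real.log T := by linarith
  have hR : 0 < R := hn.R_pos hT0
  have hCQ : 0 ≤ p.CQ := le_trans (by norm_num) hp.CQ_ge
  have hc0 : 0 ≤ cT T := div_nonneg (sq_nonneg _) hT0.le
  have hc1 : cT T ≤ 1 := big.cT_le.trans (by norm_num)
  have hη : 0 < eta p T := eta_pos hT0
  have hη1 : eta p T < 1 := big.eta_lt_one (le_trans (by norm_num) hp.N_ge)
  have hd : 0 < dT T := dT_pos T
  have hrb := rb_pos Q T
  obtain ⟨χ, hχ⟩ := exists_cutoff xs (show 0 < 2 * R by linarith) hR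
  have tr : Trunc S Q χ xs R := hn.trunc hr hT0 hχ
  have hfin : IsFiniteMeasure (tauC S Q χ) := tr.finite_tauC
  have hρa : rb Q T < rho p T R := ln.rb_lt R hlarge
  have hρ0 : 0 < rho p T R := hrb.trans hρa
  have hρR := ln.rho_R R hR
  have hℓρ : Real.log T * rho p T R ≤ R := by
    have : 0 ≤ Real.log T * rho p T R := by positivity
    linarith
  have hρR1 : rho p T R ≤ R := by nlinarith
  have hρR2 : 2 * rho p T R ≤ R := by nlinarith
  -- the weight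
  have hwm : Measurable w := (IsWeight.continuous hw).measurable
  have hwb : ∀ y, |w y| ≤ 1 := fun y => by
    rw [abs_of_nonneg (hw.nonneg y)]
    exact hw.le_one y
  have hws : Function.support w ⊆ ball xs (2 * R) :=
    hw.supp.trans (ball_subset_ball (by linarith))
  have hLfun := tr.Lfun_local p T A hc0 hCQ hwm 1 hwb hws
  -- masses
  set tU : ℝ := (tauC S Q χ univ).toReal with htU
  have htU0 : 0 ≤ tU := ENNReal.toReal_nonneg
  have htUB : tU ≤ (S.tau Q (ball xs (4 * R))).toReal :=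
    ENNReal.toReal_mono tr.fin.ne tr.tauC_univ_le
  have hNRdef : NR S Q T xs R = (S.tau Q (ball xs (4 * R))).toReal + dT T * R ^ m := rfl
  have hdR : 0 < dT T * R ^ m := by positivity
  have hNR0 : 0 < NR S Q T xs R := by
    rw [hNRdef]
    have : 0 ≤ (S.tau Q (ball xs (4 * R))).toReal := ENNReal.toReal_nonneg
    linarith
  have htUNR : tU + dT T * R ^ m ≤ NR S Q T xs R := by rw [hNRdef]; linarith
  have h16 : (1 : ℝ) ≤ 16 ^ m := one_le_pow₀ (by norm_num)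
  have hmargin : eta p T * (tU + dT T * (16 * R) ^ m) ≤ 16 ^ m * eta p T * NR S Q T xs R := by
    rw [mul_pow]
    have h1 : tU + dT T * (16 ^ m * R ^ m) ≤ 16 ^ m * (tU + dT T * R ^ m) := by nlinarith
    have h2 : 16 ^ m * (tU + dT T * R ^ m) ≤ 16 ^ m * NR S Q T xs R :=
      mul_le_mul_of_nonneg_left htUNR (by positivity)
    calc eta p T * (tU + dT T * (16 ^ m * R ^ m)) ≤ eta p T * (16 ^ m * NR S Q T xs R) :=
          mul_le_mul_of_nonneg_left (h1.trans h2) hη.le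
      _ = _ := by ring
  by_cases hsrc : 0 < srcMass (tauC S Q χ) (LpC S p T A χ) (LmC S Q p χ) w R (dT T) (eta p T)
  swap
  · -- nothing to prove
    have h1 := not_lt.1 hsrc
    unfold srcMass at h1
    rw [hLfun] at h1
    have h2 : 0 ≤ (pn / 2 + 2 * eta p T) * NR S Q T xs R := by positivity
    nlinarith
  -- thresholds, chosen before the contact measure
  set ν₂ : Measure (E m) := tauC S Q χ
    + ENNReal.ofReal (dT T) • (volume : Measure (E m)).restrict (ball xs (2 * R)) with hν₂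
  have hfinr : IsFiniteMeasure ((volume : Measure (E m)).restrict (ball xs (2 * R))) :=
    ⟨by rw [Measure.restrict_apply_univ]; exact measure_ball_lt_top⟩
  have hfins : IsFiniteMeasure
      (ENNReal.ofReal (dT T) • (volume : Measure (E m)).restrict (ball xs (2 * R))) :=
    Measure.smul_finite _ ENNReal.ofReal_ne_top
  have hfinν : IsFiniteMeasure ν₂ := by rw [hν₂]; infer_instance
  have hqc := qtest_continuous hfin p T i
  obtain ⟨lam, hlam, hthr⟩ := exists_thresholds ν₂ (Kmesh p Q T R) (qtest S Q p T χ i)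
    (fun j => (hqc j).measurable) (Real.log T ^ (-(15 : ℝ))) (Real.log T ^ (-(13 : ℝ)))
    (T ^ (-(3 : ℝ))) (Real.rpow_pos_of_pos hl0 _) (Real.rpow_pos_of_pos hl0 _)
    (Real.rpow_pos_of_pos hT0 _) big.thr
  have hD := meshD_isContinuation (q := qtest S Q p T χ i) (K := Kmesh p Q T R) lam hrb hρa
    (fun j hj => tm_le_rho hρ0 hj) hqc
  -- growth condition
  have hgrow : tU ≤ Real.exp (2 * T) * (dT T * R ^ m) := by
    have h1 := node_total hn hr hT0 hχ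
    have h2 : rb Q T / T ^ 4 ≤ R := by
      refine le_trans ?_ hn.R_ge
      exact div_le_div_of_nonneg_left hrb.le (by positivity)
        (pow_le_pow_right₀ hT1 (by norm_num))
    have h3 := big.env_total (2 * i) (by omega) R h2
    calc tU ≤ R ^ m * Env p T (2 * i) R := h1
      _ ≤ R ^ m * (Real.exp (2 * T) * dT T) := mul_le_mul_of_nonneg_left h3 (by positivity)
      _ = _ := by ring
  obtain ⟨σ, 𝒮, hσ, h𝒮c, hσ𝒮, h𝒮ent, h𝒮w, h𝒮⟩ := hcontact (tauC S Q χ) (LpC S p T A χ)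
    (LmC S Q p χ) w xs R (dT T) (eta p T) T (rho p T R) (rb Q T) _ hfin
    (tr.source_le p T A hc0 hc1 hCQ) tr.tauC_compl hw hR hd hη hη1 hTcl hgrow (ln.rho_le R hR) hD
    hsrc
  set src : ℝ := srcMass (tauC S Q χ) (LpC S p T A χ) (LmC S Q p χ) w R (dT T) (eta p T)
    with hsrcdef
  set h : Measure (E m) := ENNReal.ofReal src • σ.map Prod.fst with hh
  have hfinh : IsFiniteMeasure h := Measure.smul_finite _ ENNReal.ofReal_ne_top
  have hhuniv : h univ = ENNReal.ofReal src := by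
    rw [hh, Measure.smul_apply, Measure.map_apply measurable_fst MeasurableSet.univ,
      preimage_univ, measure_univ, smul_eq_mul, mul_one]
  have hnull : h (Prod.fst '' 𝒮)ᶜ = 0 := by
    have hC : MeasurableSet (Prod.fst '' 𝒮) :=
      (h𝒮c.image continuous_fst).isClosed.measurableSet
    rw [hh, Measure.smul_apply, Measure.map_apply measurable_fst hC.compl, smul_eq_mul]
    have : σ (Prod.fst ⁻¹' (Prod.fst '' 𝒮)ᶜ) = 0 :=
      measure_mono_null (fun z hz hzS => hz ⟨z, hzS, rfl⟩) hσ𝒮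
    rw [this, mul_zero]
  -- facts at the contacts
  have hfacts : ∀ z ∈ 𝒮, CFacts F S p T A i xs R χ lam h (Cc * pn) z.1 z.2 := by
    intro z hz
    obtain ⟨hc1, hc2⟩ := h𝒮 z hz
    have hx : z.1 ∈ ball xs R := hw.supp (Function.mem_support.2 (h𝒮w z hz).ne')
    exact contact_facts hr hT1 hn hχ hlam hCc hpn ln.bottom ln.rb_small hlog hρa
      (fun x s0 hx hs hmem => hvm T hTvm S A grp hr i xs R hn hlarge χ hχ lam
        (fun j => (hlam j).2) x s0 hx hs hmem)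
      (fun x s0 hV => hnh T hTnh S A grp hr i (by omega) xs R χ x s0 hV)
      (fun x s0 hV => hcb T hTcb S A grp hr i hi xs R χ x s0 hV)
      hnb hsm h hx (h𝒮ent hz) hc1 hc2
  -- the two charging steps
  have hch := hcharge h (tauC S Q χ) 𝒮
    (thrEvent (Kmesh p Q T R) (qtest S Q p T χ i) lam (Real.log T ^ (-(15 : ℝ)))) xs R (rb Q T)
    (rho p T R) (Real.log T) pn Cc (dT T) hrb hρa.le hρR1 hℓρ hlog hpn hCc hd.le hnull
    (fun z hz => by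
      have hf := hfacts z hz
      refine ⟨hf.vert.x_mem, hf.vert.s0_ge, hf.vert.s0_le, hf.bound, fun y hy => ?_⟩
      exact good_in_event hf hCq hlog hρ0 hρR2 ln.lip
        (fun j y => hqlip n Q Cg κ F p S T A grp hT1 hr i xs R χ z.1 z.2 hf.vert j y) hy)
  -- arithmetic
  obtain ⟨hKT, hLgT⟩ := big.mesh R hR hn.R_le
  have hB1 := bad_arith hCbad.le hCc.le hpn.le hpn' hT0.le hl0.le hρa.le hrb hLgT ln.bad htU0 hdR.le
    htUNR hη.le
  have hν₂univ := nu2_univ_le (tauC S Q χ) xs hR hd.le htUNR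
  have hG := good_arith (Nm := Nm) hCc.le hpn.le hNR0.le (ENNReal.toReal_nonneg (a := volume (ball (0 : E m) 1)))
    (Real.rpow_pos_of_pos hl0 (-(13 : ℝ))).le (Real.rpow_pos_of_pos hT0 (-(3 : ℝ))).le hKT ln.good
    hthr hν₂univ
  have hfinal : src ≤ eta p T * NR S Q T xs R + pn / 2 * NR S Q T xs R := by
    have h1 : ENNReal.ofReal src
        ≤ ENNReal.ofReal (eta p T * NR S Q T xs R + pn / 2 * NR S Q T xs R) := by
      rw [ENNReal.ofReal_add (by positivity) (by positivity), ← hhuniv]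
      exact hch.trans (add_le_add (ENNReal.ofReal_le_ofReal hB1) hG)
    exact (ENNReal.ofReal_le_ofReal_iff (by positivity)).1 h1
  have hsrc' : Lfun S p T A w = src + eta p T * (tU + dT T * (16 * R) ^ m) := by
    rw [hsrcdef, ← hLfun]
    unfold srcMass
    ring
  rw [hsrc']
  exact final_arith hfinal hmargin (mul_pos hη hNR0).le

end Claimed.Agent.R322.Sx.Sep
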