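import Claimed.Agent.R322.Sx.Sep.Envelope
import Claimed.Agent.R322.Pack036

/-!
# R322 / Sx / Sep / NearHit : exclusion of a nearby hit or side equality, AE (4.26)-(4.30)
(leaves `L-Sep-NH-ode` = `nearhit_ode` [pure real analysis], `L-Sep-NH-mass` = `vert_chart`, `vert_Mdot`, `L-Sep-NH-scalar` = `vert_scalar`,
`L-Sep-NH-lip` = `vert_Llip`, `vert_top`, `L-Sep-NH-glue` = `near_hit`)

Everything happens on one outward vertical `{x} × [s0, ρ]` (`Vert`).  Notation: `E(v) = E_{2i+1}(v) = K v^{-2-ε}`,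
`M_v = S.Mav Q χ v x`, `Ṁ_v = S.intM Q (kerDot χ v x)` (`dM_v/dv = v⁻¹ Ṁ_v`), `D_v`, `R_v ≥ 0`, `L'_v = LavC …`, `I₁ = v₁² E(v₁) = K v₁^{-ε}`.

## Proof of `nearhit_ode` (no integral of `R_v` is needed)
`𝓘 = ∫_{s0}^{ρ} u E(u) du = K (s0^{-ε} - ρ^{-ε})/ε ≤ 2 I₁/ε` (because `(v₁/s0)^ε ≤ exp (20 ε log ℓ) ≤ 2`).
`B(v) = v² M(v) - ∫_{s0}^v u (2 M - D) du`;  `B' = v (Ṁ + D) = v (R + err)`, `|err| ≤ δe E`;  so `B(v) ≥ B(v') - δe 𝓘` for `v' ≤ v`;  `B(s0) = s0² M(s0) ≥ 0`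
(by `0 ≤ L'(s0) ≤ 2 M(s0)`).   `Z(s) = ∫_{s0}^s u L'(u) du ≥ 0`.
* bank: `s² M(s) = B(s) + ∫ u (2M - D) ≥ B(s) + Z(s) - c Ce 𝓘`.
* lower bound `v₁² M(v₁) ≥ c₁ I₁`, `β = a0/2`, `θ = min (log 2) (β/(2 K1))`, `γ = β θ/2`, `c₁ = min (a0/4) (γ/4)`: otherwise `L'(v₁) ≤ - β E₁`,
  `L' ≤ - β E₁/2` on `[v₁, e^θ v₁]`, `Z(e^θ v₁) - Z(v₁) ≤ - γ I₁`, so `Z(v₁) ≥ γ I₁`, and the bank at `v₁` gives `v₁² M(v₁) ≥ γ I₁/2`.
* upper ODE: `Ψ(v) = M(v) - s0^{-2} (B(v) + 2 δe ∫_{s0}^v u E)` is nonincreasing (`Ṁ ≤ R + err ≤ X := R + err + 2 δe E`, `X ≥ 0`, `v⁻¹ ≤ s0^{-2} v`), `Ψ(s0) = 0`;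
  so `B(v₁) ≥ s0² M(v₁) - 2 δe 𝓘 ≥ ℓ^{-40} c₁ I₁ - 2 δe 𝓘`.
* the bank at `ρ`: `ρ² M(ρ) ≥ B(v₁) - (δe + c Ce) 𝓘 ≥ (ℓ^{-40} c₁ - 2 (3 + Ce) ℓ^{-58}) I₁ > ℓ^{-41} I₁`.
Monotonicity: `antitoneOn_of_deriv_nonpos` / `monotoneOn_of_deriv_nonneg` on `Icc`; derivative of the integrals:
`intervalIntegral.integral_hasDerivAt_right` (integrands continuous on `Ioi 0`).
-/

set_option autoImplicit false

namespace Claimed.Agent.R322.Sx.Sep

open MeasureTheory Set Metric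
open scoped ENNReal NNReal InnerProductSpace

/-- **The ODE argument of AE (4.26)-(4.30)**, abstract form. -/
theorem nearhit_ode (a0 K1 Ce : ℝ) (ha0 : 0 < a0) (hK1 : 0 < K1) (hCe : 0 < Ce) :
    ∃ ℓ0 : ℝ, ∀ ℓ : ℝ, ℓ0 ≤ ℓ → ∀ (ε c δe K s0 v1 ρ : ℝ) (M Md D Rr Lp g : ℝ → ℝ),
      0 < K → 0 < ε → ε ≤ 1 → 0 ≤ c → c ≤ 1 / 2 → 0 ≤ δe → c ≤ ε / ℓ ^ 58 → δe ≤ ε / ℓ ^ 58 →
      ε * (20 * Real.log ℓ) ≤ Real.log 2 →
      0 < s0 → s0 ≤ v1 → v1 ≤ ℓ ^ 20 * s0 → 16 * v1 ≤ ρ →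
      (∀ v ∈ Icc s0 ρ, HasDerivAt M (v⁻¹ * Md v) v) →
      (∀ v ∈ Icc s0 ρ, |Md v + D v - Rr v| ≤ δe * (K * v ^ (-(2 + ε)))) →
      (∀ v ∈ Icc s0 ρ, 0 ≤ D v ∧ D v ≤ Ce * (K * v ^ (-(2 + ε))) ∧ 0 ≤ Rr v) →
      (∀ v ∈ Icc s0 ρ, Lp v ≤ 2 * M v - (1 - c) * D v) →
      Lp v1 ≤ 2 * M v1 - a0 * (K * v1 ^ (-(2 + ε))) →
      (∀ v ∈ Icc v1 (2 * v1), Lp v ≤ Lp v1 + K1 * (K * v1 ^ (-(2 + ε))) * Real.log (v / v1)) →
      ContinuousOn D (Ioi 0) → ContinuousOn Lp (Ioi 0) → ContinuousOn g (Ioi 0) →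
      (∀ v ∈ Icc s0 ρ, 0 ≤ g v) →
      (∀ s ∈ Icc s0 ρ, 0 ≤ ∫ v in s0..s, v * (Lp v - g v)) →
      0 ≤ Lp s0 →
      ρ ^ 2 * M ρ ≤ K * v1 ^ (-ε) / ℓ ^ 41 →
      False :=
  nearhit_ode_core a0 K1 Ce ha0 hK1 hCe

variable {m n Q : ℕ} {Cg : ℝ}

/-- mass bound of the charts of all nodes. -/
noncomputable def K0c (m Q : ℕ) : ℝ := 1 + (2 * Q + 1) * (volume (ball (0 : E m) 4)).toReal

/-- `vol_S ≤ 2 vol`. -/
theorem nh_volS_le {S : Sys m n} (h : S.Valid) (B : Set (E m)) : S.volS B ≤ 2 * volume B := by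
  unfold Sys.volS
  have h1 : (volume.restrict S.Ω).withDensity (fun y => ENNReal.ofReal (S.a y))
      ≤ (volume.restrict S.Ω).withDensity (fun _ => (2 : ℝ≥0∞)) := by
    refine withDensity_mono (Filter.Eventually.of_forall fun y => ?_)
    have := h.a_upper y
    calc ENNReal.ofReal (S.a y) ≤ ENNReal.ofReal 2 := ENNReal.ofReal_le_ofReal this
      _ = 2 := by simp
  rw [withDensity_const] at h1
  calc _ ≤ ((2 : ℝ≥0∞) • volume.restrict S.Ω) B := h1 B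
    _ = 2 * (volume.restrict S.Ω) B := by rw [Measure.smul_apply, smul_eq_mul]
    _ ≤ 2 * volume B := by gcongr; exact Measure.restrict_le_self

/-- `ρ ≤ R`. -/
theorem nh_rho_le (p : Prm) {T R : ℝ} (hT : 1 ≤ T) (hR : 0 ≤ R) : rho p T R ≤ R := by
  unfold rho
  have : T ^ (-(4 * (p.N : ℝ))) ≤ 1 :=
    Real.rpow_le_one_of_one_le_of_nonpos hT (by
      have : (0 : ℝ) ≤ p.N := Nat.cast_nonneg _
      linarith)
  nlinarith

/-- the chart of a vertical: cutoff `χ` (`= 1` on `B_{2R}(xs)`, transition width `R`), centre `x ∈ B_R(xs)`, room `h1 = R`. -/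
theorem vert_chart {F : Fix m n Q Cg} {κ : ℝ} {p : Prm} {S : Sys m n} {T : ℝ} {A : Fin Q → E n}
    {grp : Fin Q → Fin Q} (hT : 1 ≤ T) (hr : Root F κ p S T A grp) {i : ℕ} {xs : E m} {R : ℝ}
    {χ : E m → ℝ} {x : E m} {s0 : ℝ} (hv : Vert F S p T A i xs R χ x s0) :
    Chart S χ xs (2 * R) R x R (K0c m Q) := by
  have hT0 : 0 < T := by linarith
  have hR := hv.node.R_pos hT0
  have hR1 := hv.node.R_le
  have hsub4 : closedBall xs (2 * R + R) ⊆ ball xs (4 * R) :=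
    closedBall_subset_ball (by linarith)
  have hsub0 : closedBall xs (2 * R + R) ⊆ ball (0 : E m) 4 := hsub4.trans hv.node.sub
  refine ⟨hv.cut, hR, by positivity, by linarith, hsub4.trans (hv.node.sub_Ω hr), hR, ?_, ?_⟩
  · intro y hy
    have h1 := mem_ball.1 hy
    have h2 := mem_ball.1 hv.x_mem
    rw [mem_ball]
    calc dist y xs ≤ dist y x + dist x xs := dist_triangle _ _ _
      _ < 2 * R := by linarith
  · set B := closedBall xs (2 * R + R) with hB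
    set V := volume (ball (0 : E m) 4) with hV
    have hVfin : V ≠ ∞ := measure_ball_lt_top.ne
    have h1 : S.nu B ≤ S.absM Q B + (Q : ℝ≥0∞) * S.volS B := by
      have := hr.hyp.valid.nu_le Q B
      rwa [Measure.add_apply, Measure.smul_apply, smul_eq_mul] at this
    have h2 : S.absM Q B ≤ 1 := by
      calc S.absM Q B ≤ S.tau Q B := nm_absM_le S Q B
        _ ≤ S.tau Q (ball (0 : E m) 4) := measure_mono hsub0
        _ ≤ ENNReal.ofReal (Real.exp (-T)) := hr.hyp.small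
        _ ≤ 1 := ENNReal.ofReal_le_one.2 (Real.exp_le_one_iff.2 (by linarith))
    have h3 : volume B ≤ V := measure_mono hsub0
    have h4 : S.volS B ≤ 2 * V := (nh_volS_le hr.hyp.valid B).trans (by gcongr)
    have e : ENNReal.ofReal (K0c m Q) = 1 + (2 * Q + 1) * V := by
      unfold K0c
      rw [ENNReal.ofReal_add zero_le_one (by positivity), ENNReal.ofReal_one,
        ENNReal.ofReal_mul (by positivity), ENNReal.ofReal_toReal hVfin,
        ENNReal.ofReal_add (by positivity) zero_le_one, ENNReal.ofReal_one,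
        ENNReal.ofReal_mul (by norm_num), ENNReal.ofReal_natCast]
      simp
    rw [e]
    calc S.nu B + volume B ≤ (1 + (Q : ℝ≥0∞) * (2 * V)) + V := by gcongr; exact h1.trans (by gcongr)
      _ = 1 + (2 * Q + 1) * V := by ring

/-- polynomial factors against `τ` cost a doubling of the scale of `τ'`. -/
theorem Trunc.nh_poly {S : Sys m n} {χ : E m → ℝ} {xs : E m} {R : ℝ} (h : Trunc S Q χ xs R) {v : ℝ}
    (hv : 0 < v) (x : E m) :
    ∫ y, Sys.ker χ v x y * (1 + ‖uu x v y‖ ^ 2) ∂(S.tau Q)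
      ≤ (2 ^ m * (8 / 3)) * gav (tauC S Q χ) (2 * v) x := by
  have := h.finite_tauC
  refine le_trans (le_of_eq ?_) (gk_gav_poly_le (tauC S Q χ) hv x)
  unfold tauC
  rw [nm_integral_withDensity _ h.nm_meas h.cut.nonneg]
  refine integral_congr_ae (Filter.Eventually.of_forall fun y => ?_)
  simp only [Sys.ker, uu]
  rw [norm_smul, mul_pow, Real.norm_eq_abs, sq_abs, inv_pow]
  ring

/-- the chart tail on a vertical is negligible (numerics). -/
theorem nh_tail_num {T Cpow κ C K0 R v rbv : ℝ} {m N : ℕ} (hT : 2 ≤ T) (hN : 1 ≤ N)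
    (hkill : Real.exp (Cpow * T) * Real.exp (-T ^ 2 / 2) ≤ T ^ (-Cpow)) (hC0 : 0 ≤ C) (hK0 : 0 ≤ K0)
    (hCK : 4 * C * K0 ≤ T) (hCp : (m : ℝ) / 2 + κ / 2 + 5 ≤ Cpow) (hκ : 0 ≤ κ)
    (hrb : Real.exp (-T / 2) ≤ rbv) (hR : rbv / T ^ 2 ≤ R) (hv : rbv ≤ v)
    (hvR : v ≤ R / T ^ (4 * N)) :
    C * tailG m K0 v R R ≤ 1 / 2 * (Real.exp (-κ * T / 2) * Real.exp (-T)) := by
  have hT0 : 0 < T := by linarith
  have hT1 : 1 ≤ T := by linarith
  have hrb0 : 0 < rbv := lt_of_lt_of_le (Real.exp_pos _) hrb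
  have hv0 : 0 < v := lt_of_lt_of_le hrb0 hv
  have hR0 : 0 < R := lt_of_lt_of_le (by positivity) hR
  have hm0 : (0 : ℝ) ≤ m := Nat.cast_nonneg m
  have hCpow0 : 0 ≤ Cpow := by linarith
  have hTe : T ≤ Real.exp T := by have := Real.add_one_le_exp T; linarith
  -- (a)
  have ha : 1 + R⁻¹ ≤ 2 * Real.exp (5 * T / 2) := by
    have h1 : R⁻¹ ≤ T ^ 2 / rbv := by
      rw [inv_le_comm₀ hR0 (by positivity), inv_div]
      exact hR
    have h2 : T ^ 2 / rbv ≤ Real.exp (2 * T) * Real.exp (T / 2) := by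
      rw [div_eq_mul_inv]
      have h3 : rbv⁻¹ ≤ Real.exp (T / 2) := by
        rw [inv_le_comm₀ hrb0 (Real.exp_pos _), ← Real.exp_neg]
        have : -(T / 2) = -T / 2 := by ring
        rwa [this]
      have h4 : T ^ 2 ≤ Real.exp (2 * T) := by
        have : Real.exp (2 * T) = Real.exp T ^ 2 := by rw [← Real.exp_nat_mul]; norm_num
        rw [this]
        gcongr
      exact mul_le_mul h4 h3 (by positivity) (Real.exp_pos _).le
    rw [← Real.exp_add] at h2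
    have e : 2 * T + T / 2 = 5 * T / 2 := by ring
    rw [e] at h2
    have h5 : 1 ≤ Real.exp (5 * T / 2) := Real.one_le_exp (by positivity)
    linarith
  -- (b)
  have hb : v ^ (-(m : ℝ)) ≤ Real.exp (m * T / 2) := by
    calc v ^ (-(m : ℝ)) ≤ (Real.exp (-T / 2)) ^ (-(m : ℝ)) :=
          Real.rpow_le_rpow_of_nonpos (Real.exp_pos _) (hrb.trans hv) (by linarith)
      _ = Real.exp (m * T / 2) := by
          rw [← Real.exp_mul]
          congr 1
          ring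
  -- (c)
  have hc : Real.exp (-R ^ 2 / (4 * v ^ 2)) ≤ Real.exp (-T ^ 2 / 2) := by
    rw [Real.exp_le_exp, neg_div, neg_div, neg_le_neg_iff, le_div_iff₀ (by positivity)]
    have h1 : T ^ 2 ≤ T ^ (4 * N) := pow_le_pow_right₀ hT1 (by omega)
    have h2 : v * T ^ (4 * N) ≤ R := (le_div_iff₀ (by positivity)).1 hvR
    have h3 : v * T ^ 2 ≤ R := le_trans (mul_le_mul_of_nonneg_left h1 hv0.le) h2
    have h4 : (v * T ^ 2) ^ 2 ≤ R ^ 2 := by gcongr
    have h5 : 2 * T ^ 2 ≤ T ^ 4 := by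
      have e4 : T ^ 4 = T ^ 2 * T ^ 2 := by ring
      have h22 : 2 ≤ T ^ 2 := by nlinarith
      rw [e4]
      exact mul_le_mul_of_nonneg_right h22 (by positivity)
    have h6 : 0 < v ^ 2 := by positivity
    nlinarith
  -- (d)
  have hd : Real.exp (-T ^ 2 / 2) ≤ Real.exp (-(Cpow * T)) := by
    have h1 : T ^ (-Cpow) ≤ 1 := Real.rpow_le_one_of_one_le_of_nonpos hT1 (by linarith)
    rw [Real.exp_neg, le_inv_comm₀ (Real.exp_pos _) (Real.exp_pos _)]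
    rw [← le_div_iff₀ (Real.exp_pos _)] at hkill
    refine hkill.trans ?_
    rw [div_eq_mul_inv]
    have := inv_pos.2 (Real.exp_pos (-T ^ 2 / 2))
    nlinarith
  have he : C * K0 ≤ Real.exp T / 4 := by linarith
  unfold tailG
  have hCK0 : 0 ≤ C * K0 := mul_nonneg hC0 hK0
  calc C * (K0 * (1 + R⁻¹) * v ^ (-(m : ℝ)) * Real.exp (-R ^ 2 / (4 * v ^ 2)))
      = (C * K0) * (1 + R⁻¹) * v ^ (-(m : ℝ)) * Real.exp (-R ^ 2 / (4 * v ^ 2)) := by ring
    _ ≤ (Real.exp T / 4) * (2 * Real.exp (5 * T / 2)) * Real.exp (m * T / 2)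
          * Real.exp (-(Cpow * T)) := by
        have := hc.trans hd
        have h0 : 0 ≤ 1 + R⁻¹ := by positivity
        have h1 : 0 ≤ v ^ (-(m : ℝ)) := Real.rpow_nonneg hv0.le _
        gcongr
    _ = 1 / 2 * Real.exp (T + 5 * T / 2 + m * T / 2 + -(Cpow * T)) := by
        rw [Real.exp_add, Real.exp_add, Real.exp_add]
        ring
    _ ≤ 1 / 2 * Real.exp (-κ * T / 2 + -T) := by
        refine mul_le_mul_of_nonneg_left (Real.exp_le_exp.2 ?_) (by norm_num)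
        nlinarith
    _ = _ := by rw [Real.exp_add]

/-- `d ≤ E_j(v)` for `v ≤ 1`. -/
theorem nh_dT_le_Env (p : Prm) {T v : ℝ} (hT : 1 ≤ T) (hv : 0 < v) (hv1 : v ≤ 1) (j : ℕ) :
    dT T ≤ Env p T j v := by
  unfold Env
  have h1 : 1 ≤ T ^ ((p.J0 : ℝ) * ((j : ℝ) + 1)) := Real.one_le_rpow hT (by positivity)
  have h2 : 1 ≤ v ^ (-(2 + eps T)) :=
    Real.one_le_rpow_of_pos_of_le_one_of_nonpos hv hv1 (by linarith [eps_nonneg hT])
  have h3 := dT_pos T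
  calc dT T = 1 * dT T * 1 := by ring
    _ ≤ _ := by gcongr

/-- AE Lemma 2.8 on a vertical: `Ṁ_v = - D_v + R_v + err`, `|err| ≤ e^{-κT/2} E(v)`.
(`gauss_mass`; `γ ≤ e^{-κT}`; `∫ ker (1 + |u|²) dτ ≤ C τ'_{2v}(x) ≤ C 2^{m+1} E(v)` by `gav_poly_le` and the envelope at `2v ≤ R`;
`tailG m K0 v R R ≤ K0 (1 + R⁻¹) v^{-m} exp (- T^{8N}/4)` because `v ≤ ρ = T^{-4N} R`; `v, R ≥ r_b/T² ≥ e^{-T}`, `E(v) ≥ d`.) -/
theorem vert_Mdot (m n Q : ℕ) (hm : 1 ≤ m) (hQ : 2 ≤ Q) (κ Cg : ℝ) (hκ : 0 < κ) (F : Fix m n Q Cg)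
    (p : Prm) (hp : p.Ok m) :
    ∃ T0 : ℝ, ∀ T : ℝ, T0 ≤ T → ∀ (S : Sys m n) (A : Fin Q → E n) (grp : Fin Q → Fin Q),
      Root F κ p S T A grp → ∀ (i : ℕ) (xs : E m) (R : ℝ) (χ : E m → ℝ) (x : E m) (s0 : ℝ),
      Vert F S p T A i xs R χ x s0 → ∀ v : ℝ, s0 ≤ v → v ≤ rho p T R →
      |S.intM Q (kerDot χ v x) + S.Dav χ v x - S.Rav χ v x|
        ≤ Real.exp (-κ * T / 2) * Env p T (2 * i + 1) v := by
  obtain ⟨C, hC, hgm⟩ := gauss_mass m n Q Cg
  have hK0 : 0 ≤ K0c m Q := by unfold K0c; positivity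
  set C2 : ℝ := C * ((2 ^ m * (8 / 3)) * 2 ^ (m + 1)) with hC2
  have hC2pos : 0 < C2 := by positivity
  set Cpow : ℝ := 4 * C * K0c m Q + 2 * C2 + ((m : ℝ) / 2 + κ / 2 + 5) with hCpow
  obtain ⟨Tbig, hbig⟩ := exists_big p Q hQ Cpow
  obtain ⟨Tk, hk⟩ := kappa_kill (κ / 2) (by positivity) 1
  refine ⟨max Tbig Tk, fun T hTT S A grp hr i xs R χ x s0 hV v hs0v hvρ => ?_⟩
  have big := hbig T ((le_max_left _ _).trans hTT)
  have hkT := hk T ((le_max_right _ _).trans hTT)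
  have hT1 : 1 ≤ T := big.one_le
  have hT : 0 < T := big.pos
  have hT2 : 2 ≤ T := by
    have h1 := big.T_ge
    have h2 := Real.add_one_le_exp (100 : ℝ)
    linarith
  have hm0 : (0 : ℝ) ≤ m := Nat.cast_nonneg m
  have hCK : 0 ≤ 4 * C * K0c m Q := by positivity
  have hR := hV.node.R_pos hT
  have hR1 := hV.node.R_le
  have tr := hV.node.trunc hr hT hV.cut
  have := tr.finite_tauC
  have hs0 : 0 < s0 := (rb_pos Q T).trans_le hV.s0_ge
  have hv : 0 < v := hs0.trans_le hs0v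
  have hρR : rho p T R ≤ R := nh_rho_le p hT1 hR.le
  have hρe : rho p T R = R / T ^ (4 * p.N) := env_rho_eq p hT R
  have hN : 1 ≤ p.N := le_trans (by norm_num) hp.N_ge
  have hv1 : v ≤ 1 := (hvρ.trans hρR).trans hR1
  have h2v : 2 * v ≤ R := by
    have h1 : T ≤ T ^ (4 * p.N) := by
      calc T = T ^ 1 := (pow_one T).symm
        _ ≤ T ^ (4 * p.N) := pow_le_pow_right₀ hT1 (by omega)
    have h2 : v * T ^ (4 * p.N) ≤ R := by
      rw [hρe] at hvρ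
      exact (le_div_iff₀ (by positivity)).1 hvρ
    nlinarith
  have hEv := Env_pos (p := p) hT hv (2 * i + 1)
  have main := hgm S hr.hyp.valid hr.hyp.Cg_le χ xs x (2 * R) R R (K0c m Q) v (vert_chart hT1 hr hV)
    hv hv1
  -- first term
  have t1 : C * S.γ * (∫ y, Sys.ker χ v x y * (1 + ‖uu x v y‖ ^ 2) ∂(S.tau Q))
      ≤ 1 / 2 * (Real.exp (-κ * T / 2) * Env p T (2 * i + 1) v) := by
    have a1 : ∫ y, Sys.ker χ v x y * (1 + ‖uu x v y‖ ^ 2) ∂(S.tau Q)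
        ≤ (2 ^ m * (8 / 3)) * (2 ^ (m + 1) * Env p T (2 * i + 1) v) := by
      refine (tr.nh_poly hv x).trans (mul_le_mul_of_nonneg_left ?_ (by positivity))
      refine (hV.env (2 * v) (by linarith) h2v).trans ?_
      exact mul_le_mul_of_nonneg_left (Env_anti hT1 hv (by linarith) _) (by positivity)
    have a2 : S.γ ≤ Real.exp (-κ * T) := hr.hyp.geom
    have a3 : 0 ≤ S.γ := hr.hyp.valid.γ_nonneg
    have a4 : 2 * C2 * Real.exp (-κ * T / 2) ≤ 1 := by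
      rw [Real.rpow_one] at hkT
      have e : -(κ / 2) * T = -κ * T / 2 := by ring
      rw [e] at hkT
      have : 2 * C2 ≤ T := big.const_le (by rw [hCpow]; linarith)
      exact (mul_le_mul_of_nonneg_right this (Real.exp_pos _).le).trans hkT
    have e2 : Real.exp (-κ * T) = Real.exp (-κ * T / 2) * Real.exp (-κ * T / 2) := by
      rw [← Real.exp_add]
      congr 1
      ring
    calc C * S.γ * (∫ y, Sys.ker χ v x y * (1 + ‖uu x v y‖ ^ 2) ∂(S.tau Q))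
        ≤ C * S.γ * ((2 ^ m * (8 / 3)) * (2 ^ (m + 1) * Env p T (2 * i + 1) v)) :=
          mul_le_mul_of_nonneg_left a1 (by positivity)
      _ ≤ C * Real.exp (-κ * T) * ((2 ^ m * (8 / 3)) * (2 ^ (m + 1) * Env p T (2 * i + 1) v)) := by
          gcongr
      _ = 1 / 2 * ((2 * C2 * Real.exp (-κ * T / 2))
            * (Real.exp (-κ * T / 2) * Env p T (2 * i + 1) v)) := by
          rw [e2, hC2]; ring
      _ ≤ 1 / 2 * (1 * (Real.exp (-κ * T / 2) * Env p T (2 * i + 1) v)) := by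
          have := Real.exp_pos (-κ * T / 2)
          gcongr
      _ = _ := by ring
  -- second term
  have t2 : C * tailG m (K0c m Q) v R R
      ≤ 1 / 2 * (Real.exp (-κ * T / 2) * Env p T (2 * i + 1) v) := by
    have b1 := nh_tail_num (m := m) (N := p.N) (κ := κ) (C := C) (K0 := K0c m Q) (R := R) (v := v)
      (rbv := rb Q T) hT2 hN big.tail_kill hC.le hK0
      (big.const_le (by rw [hCpow]; linarith)) (by rw [hCpow]; linarith) hκ.le big.rb_ge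
      hV.node.R_ge (hV.s0_ge.trans hs0v) (by rw [← hρe]; exact hvρ)
    refine b1.trans ?_
    have b2 : Real.exp (-T) ≤ Env p T (2 * i + 1) v := nh_dT_le_Env p hT1 hv hv1 _
    have := Real.exp_pos (-κ * T / 2)
    gcongr
  linarith

/-- body and tail of `|M|_v`. -/
theorem Trunc.nh_absMav_split {S : Sys m n} {χ : E m → ℝ} {xs : E m} {R : ℝ}
    (h : Trunc S Q χ xs R) {v r : ℝ} (hv : 0 < v) (hr : 0 ≤ r) (x : E m)
    (hK : closedBall x r ⊆ ball xs (2 * R)) :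
    S.absMav Q χ v x ≤ (∫ y in closedBall x r, gauss m v (y - x) ∂(S.absM Q))
      + v ^ (-(m : ℝ)) * Real.exp (-r ^ 2 / (2 * v ^ 2)) * (tauC S Q χ univ).toReal := by
  have := h.finite_tauC
  have hint := h.nm_ker_integrable (Q := Q) hv x
  have hintM := hint.mono_measure (nm_absM_le S Q)
  have hKm : MeasurableSet (closedBall x r) := measurableSet_closedBall
  unfold Sys.absMav
  rw [← integral_add_compl hKm hintM]
  refine add_le_add (le_of_eq ?_) ?_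
  · refine setIntegral_congr_fun hKm fun y hy => ?_
    simp [Sys.ker, h.cut.eq_one y (hK hy)]
  · refine le_trans ?_ (gav_tail_le (tauC S Q χ) hv hr x)
    calc ∫ y in (closedBall x r)ᶜ, Sys.ker χ v x y ∂(S.absM Q)
        ≤ ∫ y in (closedBall x r)ᶜ, Sys.ker χ v x y ∂(S.tau Q) :=
          integral_mono_measure (Measure.restrict_mono le_rfl (nm_absM_le S Q))
            (Filter.Eventually.of_forall fun y => h.nm_ker_nonneg hv x y) hint.integrableOn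
      _ = ∫ y in (closedBall x r)ᶜ, gauss m v (y - x) ∂(tauC S Q χ) := by
          unfold tauC
          rw [restrict_withDensity hKm.compl, nm_integral_withDensity _ h.nm_meas h.cut.nonneg,
            nm_ker_eq]

/-- the body of `(D + Λ)_v`. -/
theorem Trunc.nh_DL_le {S : Sys m n} {χ : E m → ℝ} {xs : E m} {R : ℝ}
    (h : Trunc S Q χ xs R) {v r : ℝ} (hv : 0 < v) (x : E m)
    (hK : closedBall x r ⊆ ball xs (2 * R)) :
    ∫ y in closedBall x r, gauss m v (y - x) ∂(S.Dm + S.Lm) ≤ S.Dav χ v x + S.Lamav χ v x := by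
  have hint := h.nm_ker_integrable (Q := Q) hv x
  have i2 := hint.mono_measure (nm_Dm_le S Q)
  have i3 := hint.mono_measure (nm_Lm_le S Q)
  have hKm : MeasurableSet (closedBall x r) := measurableSet_closedBall
  calc ∫ y in closedBall x r, gauss m v (y - x) ∂(S.Dm + S.Lm)
      = ∫ y in closedBall x r, Sys.ker χ v x y ∂(S.Dm + S.Lm) := by
        refine setIntegral_congr_fun hKm fun y hy => ?_
        simp [Sys.ker, h.cut.eq_one y (hK hy)]
    _ ≤ ∫ y, Sys.ker χ v x y ∂(S.Dm + S.Lm) :=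
        setIntegral_le_integral (i2.add_measure i3)
          (Filter.Eventually.of_forall fun y => h.nm_ker_nonneg hv x y)
    _ = S.Dav χ v x + S.Lamav χ v x := by
        unfold Sys.Dav Sys.Lamav
        rw [integral_add_measure i2 i3, h.valid.intD_eq (h.nm_ker_meas v x),
          h.valid.intLam_eq (h.nm_ker_meas v x)]

/-- the density condition of `weighted_scalar` (numerics). -/
theorem nh_dens_num {T Cpow Cb c1 d1 v Ea : ℝ} {m : ℕ} (hT : 2 ≤ T) (hCb : 0 < Cb) (hc1 : 0 < c1)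
    (hd1 : 0 < d1) (hv : 0 < v) (hEa : 0 ≤ Ea) (hsmall : T ^ Cpow * Ea ≤ 1)
    (hC1 : Cb * 4 ^ m / (c1 ^ m * d1) ≤ T) (hC2 : 2 * (m : ℝ) + 1 ≤ Cpow) :
    Cb * ((T + 2) * v) ^ m * Ea ≤ d1 * (c1 * v / (1 + T)) ^ m := by
  have hT0 : 0 < T := by linarith
  have hT1 : 1 ≤ T := by linarith
  have h1 : (T + 2) * v ≤ (4 * T ^ 2 / c1) * (c1 * v / (1 + T)) := by
    have e : (4 * T ^ 2 / c1) * (c1 * v / (1 + T)) = 4 * T ^ 2 * v / (1 + T) := by field_simp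
    rw [e, le_div_iff₀ (by positivity)]
    have : (T + 2) * (1 + T) ≤ 4 * T ^ 2 := by nlinarith
    nlinarith
  have h2 : ((T + 2) * v) ^ m ≤ (4 * T ^ 2 / c1) ^ m * (c1 * v / (1 + T)) ^ m := by
    rw [← mul_pow]
    exact pow_le_pow_left₀ (by positivity) h1 m
  have h3 : Cb * (4 * T ^ 2 / c1) ^ m * Ea ≤ d1 := by
    have e : Cb * (4 * T ^ 2 / c1) ^ m = d1 * ((Cb * 4 ^ m / (c1 ^ m * d1)) * T ^ (2 * m)) := by
      rw [div_pow, mul_pow, ← pow_mul]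
      field_simp
    have h4 : (Cb * 4 ^ m / (c1 ^ m * d1)) * T ^ (2 * m) ≤ T ^ Cpow := by
      calc (Cb * 4 ^ m / (c1 ^ m * d1)) * T ^ (2 * m) ≤ T * T ^ (2 * m) := by gcongr
        _ = T ^ ((2 * m + 1 : ℕ) : ℝ) := by rw [Real.rpow_natCast, pow_succ]; ring
        _ ≤ T ^ Cpow := Real.rpow_le_rpow_of_exponent_le hT1 (by push_cast; linarith)
    rw [e]
    calc d1 * ((Cb * 4 ^ m / (c1 ^ m * d1)) * T ^ (2 * m)) * Ea
        = d1 * (((Cb * 4 ^ m / (c1 ^ m * d1)) * T ^ (2 * m)) * Ea) := by ring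
      _ ≤ d1 * (T ^ Cpow * Ea) := by gcongr
      _ ≤ d1 * 1 := by gcongr
      _ = d1 := mul_one _
  have hr0 : 0 ≤ (c1 * v / (1 + T)) ^ m := by positivity
  calc Cb * ((T + 2) * v) ^ m * Ea
      ≤ Cb * ((4 * T ^ 2 / c1) ^ m * (c1 * v / (1 + T)) ^ m) * Ea := by gcongr
    _ = (Cb * (4 * T ^ 2 / c1) ^ m * Ea) * (c1 * v / (1 + T)) ^ m := by ring
    _ ≤ d1 * (c1 * v / (1 + T)) ^ m := mul_le_mul_of_nonneg_right h3 hr0

/-- the Gaussian tail beyond the radius `T v` (numerics). -/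
theorem nh_gtail_num {T Cpow v rbv : ℝ} {m : ℕ} (hT : 2 ≤ T)
    (hkill : Real.exp (Cpow * T) * Real.exp (-T ^ 2 / 2) ≤ T ^ (-Cpow))
    (hC1 : (m : ℝ) / 2 ≤ Cpow) (hC2 : 1 ≤ Cpow) (hrb : Real.exp (-T / 2) ≤ rbv) (hv : rbv ≤ v) :
    v ^ (-(m : ℝ)) * Real.exp (-(T * v) ^ 2 / (2 * v ^ 2)) ≤ 1 / 2 := by
  have hT0 : 0 < T := by linarith
  have hT1 : 1 ≤ T := by linarith
  have hrb0 : 0 < rbv := lt_of_lt_of_le (Real.exp_pos _) hrb
  have hv0 : 0 < v := lt_of_lt_of_le hrb0 hv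
  have hm0 : (0 : ℝ) ≤ m := Nat.cast_nonneg m
  have hb : v ^ (-(m : ℝ)) ≤ Real.exp (Cpow * T) := by
    calc v ^ (-(m : ℝ)) ≤ (Real.exp (-T / 2)) ^ (-(m : ℝ)) :=
          Real.rpow_le_rpow_of_nonpos (Real.exp_pos _) (hrb.trans hv) (by linarith)
      _ = Real.exp (m / 2 * T) := by
          rw [← Real.exp_mul]
          congr 1
          ring
      _ ≤ Real.exp (Cpow * T) := Real.exp_le_exp.2 (mul_le_mul_of_nonneg_right hC1 hT0.le)
  have e : -(T * v) ^ 2 / (2 * v ^ 2) = -T ^ 2 / 2 := by field_simp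
  rw [e]
  have h1 : T ^ (-Cpow) ≤ 1 / 2 := by
    calc T ^ (-Cpow) ≤ T ^ (-(1 : ℝ)) := Real.rpow_le_rpow_of_exponent_le hT1 (by linarith)
      _ = T⁻¹ := Real.rpow_neg_one T
      _ ≤ 1 / 2 := by
          rw [inv_le_comm₀ hT0 (by norm_num)]
          norm_num
          exact hT
  exact ((mul_le_mul_of_nonneg_right hb (Real.exp_pos _).le).trans hkill).trans h1

/-- AE (4.27): weighted scalar estimate on a vertical.
(`weighted_scalar` with body radius `T`: uniform cells `r = c1 v/(1 + T)`, densities from `vert_cell` with `a = (T + 2) v ≤ R` and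
`Big.env_small`; `χ = 1` on `closedBall x ((T + 2) v)`; tail `≤ v^{-m} e^{-T²/2} τ'(univ)` by `gav_tail_le`, `node_total`, `Big.tail_kill`.) -/
theorem vert_scalar (m n Q : ℕ) (hm : 1 ≤ m) (hQ : 2 ≤ Q) (κ Cg : ℝ) (F : Fix m n Q Cg) :
    ∃ Cs : ℝ, 0 < Cs ∧ ∀ p : Prm, p.Ok m →
      ∃ T0 : ℝ, ∀ T : ℝ, T0 ≤ T → ∀ (S : Sys m n) (A : Fin Q → E n) (grp : Fin Q → Fin Q),
      Root F κ p S T A grp → ∀ i : ℕ, i ≤ n0 p T + 1 →
      ∀ (xs : E m) (R : ℝ) (χ : E m → ℝ) (x : E m) (s0 : ℝ),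
      Vert F S p T A i xs R χ x s0 → ∀ v : ℝ, s0 ≤ v → v ≤ rho p T R →
      S.absMav Q χ v x ≤ Cs * (S.Dav χ v x + S.Lamav χ v x) + Env p T (2 * i + 1) v / 2 := by
  obtain ⟨C, c1, L, d1, hC, hc1, hL, hLc, hd1, hws⟩ := weighted_scalar m n Q hm Cg
  obtain ⟨Cb, hCb, hcell⟩ := vert_cell m
  refine ⟨C, hC, fun p hp => ?_⟩
  have hm0 : (0 : ℝ) ≤ m := Nat.cast_nonneg m
  have hK3 : 0 < Cb * 4 ^ m / (c1 ^ m * d1) := by positivity
  set Cpow : ℝ := Cb * 4 ^ m / (c1 ^ m * d1) + (2 * (m : ℝ) + 1) with hCpow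
  obtain ⟨Tbig, hbig⟩ := exists_big p Q hQ Cpow
  refine ⟨Tbig, fun T hTT S A grp hr i hi xs R χ x s0 hV v hs0v hvρ => ?_⟩
  have big := hbig T hTT
  have hT1 : 1 ≤ T := big.one_le
  have hT : 0 < T := big.pos
  have hT2 : 2 ≤ T := by
    have h1 := big.T_ge
    have h2 := Real.add_one_le_exp (100 : ℝ)
    linarith
  have hR := hV.node.R_pos hT
  have hR1 := hV.node.R_le
  have tr := hV.node.trunc hr hT hV.cut
  have := tr.finite_tauC
  have hs0 : 0 < s0 := (rb_pos Q T).trans_le hV.s0_ge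
  have hv : 0 < v := hs0.trans_le hs0v
  have hρR : rho p T R ≤ R := nh_rho_le p hT1 hR.le
  have hρe : rho p T R = R / T ^ (4 * p.N) := env_rho_eq p hT R
  have hN : 1 ≤ p.N := le_trans (by norm_num) hp.N_ge
  have hvR : v ≤ R := hvρ.trans hρR
  have hv1 : v ≤ 1 := hvR.trans hR1
  -- `(T + 2) v ≤ R`
  have haR : (T + 2) * v ≤ R := by
    have h1 : T ^ 2 ≤ T ^ (4 * p.N) := pow_le_pow_right₀ hT1 (by omega)
    have h2 : v * T ^ (4 * p.N) ≤ R := by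
      rw [hρe] at hvρ
      exact (le_div_iff₀ (by positivity)).1 hvρ
    have h3 : T + 2 ≤ T ^ 2 := by nlinarith
    calc (T + 2) * v = v * (T + 2) := mul_comm _ _
      _ ≤ v * T ^ (4 * p.N) := mul_le_mul_of_nonneg_left (h3.trans h1) hv.le
      _ ≤ R := h2
  have hsubR : ∀ r : ℝ, r ≤ R → closedBall x r ⊆ ball xs (2 * R) := by
    intro r hr' y hy
    have h1 := mem_closedBall.1 hy
    have h2 := mem_ball.1 hV.x_mem
    rw [mem_ball]
    calc dist y xs ≤ dist y x + dist x xs := dist_triangle _ _ _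
      _ < 2 * R := by linarith
  have hK1 : closedBall x (T * v) ⊆ ball xs (2 * R) := hsubR _ (by nlinarith)
  have hK2 : closedBall x ((T + 2) * v) ⊆ ball xs (2 * R) := hsubR _ haR
  have h2R : ball xs (2 * R) ⊆ S.Ω :=
    (ball_subset_ball (by linarith)).trans (hV.node.sub_Ω hr)
  have hs0a : s0 ≤ (T + 2) * v := by nlinarith
  have ha0 : 0 < (T + 2) * v := by positivity
  -- the weighted scalar estimate
  have hbody := hws S hr.hyp.valid hr.hyp.Cg_le x v T hv hv1 hT.le (hK2.trans h2R) (by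
    intro y hy
    have hLr : L * (c1 * v / (1 + T)) ≤ v := by
      have e : L * (c1 * v / (1 + T)) = (L * c1) * v / (1 + T) := by ring
      rw [e, div_le_iff₀ (by positivity)]
      nlinarith
    obtain ⟨g1, g2⟩ := hcell n Q Cg κ F p S T A grp hT1 hr i xs R χ x s0 hV y
      (L * (c1 * v / (1 + T))) ((T + 2) * v) (by linarith) hs0a haR
    refine ⟨g1.trans h2R, g2.trans (ENNReal.ofReal_le_ofReal ?_)⟩
    have hsm := big.env_small (2 * i + 1) (by omega) ((T + 2) * v) (by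
      have h1 : rb Q T / T ^ 4 ≤ rb Q T := div_le_self (rb_pos Q T).le (one_le_pow₀ hT1)
      linarith [hV.s0_ge])
    have hb0 : Real.exp (-2 * bQ Q T) ≤ 1 := by
      rw [Real.exp_le_one_iff]
      have h1 := big.b_ge
      have h2 : 0 ≤ Real.log T ^ 201 := pow_nonneg (by linarith [big.log_ge]) _
      linarith
    exact nh_dens_num hT2 hCb hc1 hd1 hv (Env_pos hT ha0 _).le (hsm.trans hb0)
      (big.const_le (by rw [hCpow]; linarith)) (by rw [hCpow]; linarith))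
  have hsplit := tr.nh_absMav_split hv (by positivity : 0 ≤ T * v) x hK1
  have hDL := tr.nh_DL_le hv x hK2
  -- the tail
  have htail : v ^ (-(m : ℝ)) * Real.exp (-(T * v) ^ 2 / (2 * v ^ 2)) * (tauC S Q χ univ).toReal
      ≤ Env p T (2 * i + 1) v / 2 := by
    have h1 := nh_gtail_num (m := m) (v := v) hT2 big.tail_kill (by rw [hCpow]; linarith)
      (by rw [hCpow]; linarith) big.rb_ge (hV.s0_ge.trans hs0v)
    have h2 : (tauC S Q χ univ).toReal ≤ Env p T (2 * i + 1) v := by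
      calc (tauC S Q χ univ).toReal ≤ R ^ m * Env p T (2 * i) R := node_total hV.node hr hT hV.cut
        _ ≤ 1 * Env p T (2 * i) R :=
            mul_le_mul_of_nonneg_right (pow_le_one₀ hR.le hR1) (Env_pos hT hR _).le
        _ = Env p T (2 * i) R := one_mul _
        _ ≤ Env p T (2 * i) v := Env_anti hT1 hv hvR _
        _ ≤ Env p T (2 * i + 1) v := Env_mono hT1 hv (by omega)
    calc v ^ (-(m : ℝ)) * Real.exp (-(T * v) ^ 2 / (2 * v ^ 2)) * (tauC S Q χ univ).toReal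
        ≤ 1 / 2 * Env p T (2 * i + 1) v :=
          mul_le_mul h1 h2 ENNReal.toReal_nonneg (by norm_num)
      _ = _ := by ring
  have := mul_le_mul_of_nonneg_left hDL hC.le
  linarith

/-- logarithmic Lipschitz bound from a bound of the logarithmic derivative. -/
theorem nh_log_lip {f f' : ℝ → ℝ} {K v1 v : ℝ} (hv1 : 0 < v1) (hv : v1 ≤ v)
    (hd : ∀ u ∈ Icc v1 v, HasDerivAt f (u⁻¹ * f' u) u) (hb : ∀ u ∈ Icc v1 v, |f' u| ≤ K) :
    |f v - f v1| ≤ K * Real.log (v / v1) := by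
  have hv0 : 0 < v := lt_of_lt_of_le hv1 hv
  have hmem : ∀ t ∈ Icc (Real.log v1) (Real.log v), Real.exp t ∈ Icc v1 v := by
    intro t ht
    constructor
    · rw [← Real.exp_log hv1]; exact Real.exp_le_exp.2 ht.1
    · rw [← Real.exp_log hv0]; exact Real.exp_le_exp.2 ht.2
  have h1 : ∀ t ∈ Icc (Real.log v1) (Real.log v),
      HasDerivWithinAt (fun t => f (Real.exp t)) (f' (Real.exp t)) (Icc (Real.log v1) (Real.log v)) t := by
    intro t ht
    have := (hd _ (hmem t ht)).comp t (Real.hasDerivAt_exp t)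
    have e : (Real.exp t)⁻¹ * f' (Real.exp t) * Real.exp t = f' (Real.exp t) := by
      have := Real.exp_pos t
      field_simp
    rw [e] at this
    exact this.hasDerivWithinAt
  have hlog : Real.log v1 ≤ Real.log v := Real.log_le_log hv1 hv
  have h2 := Convex.norm_image_sub_le_of_norm_hasDerivWithin_le (C := K) h1
    (fun t ht => by rw [Real.norm_eq_abs]; exact hb _ (hmem t ht)) (convex_Icc _ _)
    (left_mem_Icc.2 hlog) (right_mem_Icc.2 hlog)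
  simp only [Real.exp_log hv0, Real.exp_log hv1, Real.norm_eq_abs] at h2
  rwa [abs_of_nonneg (by linarith : 0 ≤ Real.log v - Real.log v1),
    ← Real.log_div hv0.ne' hv1.ne'] at h2

/-- logarithmic Lipschitz bound of the fixed source: `|dL'_v/d log v| ≤ C (C_Q + 3) τ'_{2v} ≤ K1 E(v₁)` for `v ≥ v₁`.
(`hasDerivAt_gav`, `abs_gavDot_le` for `LpC`, `LmC`; `Trunc.source_le`; envelope at `2v ≤ R`; mean value inequality in `log v`.) -/
theorem vert_Llip (m : ℕ) (CQ : ℝ) : ∃ K1 : ℝ, 0 < K1 ∧ ∀ (n Q : ℕ) (Cg κ : ℝ) (F : Fix m n Q Cg)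
    (p : Prm), p.CQ = CQ → 0 ≤ CQ → ∀ (S : Sys m n) (T : ℝ) (A : Fin Q → E n) (grp : Fin Q → Fin Q),
    1 ≤ T → 0 ≤ cT T → cT T ≤ 1 → Root F κ p S T A grp →
    ∀ (i : ℕ) (xs : E m) (R : ℝ) (χ : E m → ℝ) (x : E m) (s0 : ℝ), Vert F S p T A i xs R χ x s0 →
    ∀ v1 v : ℝ, s0 ≤ v1 → v1 ≤ v → 2 * v ≤ R →
      |LavC S p T A χ v x - LavC S p T A χ v1 x|
        ≤ K1 * Env p T (2 * i + 1) v1 * Real.log (v / v1) := by
  obtain ⟨C, hC, hdot⟩ := abs_gavDot_le m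
  refine ⟨C * (|CQ| + 3) * 2 ^ (m + 1), by positivity, ?_⟩
  intro n Q Cg κ F p hpCQ hCQ S T A grp hT1 hc0 hc1 hr i xs R χ x s0 hV v1 v hs0 hv1v hvR
  have hT : 0 < T := by linarith
  have tr := hV.node.trunc hr hT hV.cut
  have := tr.finite_tauC
  have := tr.finite_LpC p T A
  have := tr.finite_LmC p
  have hs0pos : 0 < s0 := (rb_pos Q T).trans_le hV.s0_ge
  have hv1 : 0 < v1 := hs0pos.trans_le hs0
  have hpCQ0 : 0 ≤ p.CQ := by rw [hpCQ]; exact hCQ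
  rw [abs_of_nonneg hCQ, ← hpCQ]
  refine nh_log_lip (f := fun u => LavC S p T A χ u x)
    (f' := fun u => (∫ y, gauss m u (y - x) * (‖y - x‖ ^ 2 / u ^ 2 - m) ∂(LpC S p T A χ))
      - ∫ y, gauss m u (y - x) * (‖y - x‖ ^ 2 / u ^ 2 - m) ∂(LmC S Q p χ)) hv1 hv1v ?_ ?_
  · intro u hu
    have hu0 : 0 < u := hv1.trans_le hu.1
    have := (hasDerivAt_gav (LpC S p T A χ) hu0 x).sub (hasDerivAt_gav (LmC S Q p χ) hu0 x)
    rw [← mul_sub] at this
    exact this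
  · intro u hu
    have hu0 : 0 < u := hv1.trans_le hu.1
    have h2u : 0 < 2 * u := by positivity
    have a1 := hdot (LpC S p T A χ) u hu0 x
    have a2 := hdot (LmC S Q p χ) u hu0 x
    have a3 : gav (LpC S p T A χ) (2 * u) x + gav (LmC S Q p χ) (2 * u) x
        ≤ (p.CQ + 3) * gav (tauC S Q χ) (2 * u) x := by
      rw [← gav_add _ _ h2u, ← gav_smul _ _ (by linarith)]
      have : IsFiniteMeasure (ENNReal.ofReal (p.CQ + 3) • tauC S Q χ) :=
        Measure.smul_finite _ ENNReal.ofReal_ne_top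
      exact gav_mono (tr.source_le p T A hc0 hc1 hpCQ0) h2u x
    have a4 : gav (tauC S Q χ) (2 * u) x ≤ 2 ^ (m + 1) * Env p T (2 * i + 1) v1 := by
      refine (hV.env (2 * u) (by linarith [hu.1]) (by linarith [hu.2])).trans ?_
      refine mul_le_mul_of_nonneg_left ?_ (by positivity)
      exact Env_anti hT1 hv1 (by linarith [hu.1]) _
    calc |(∫ y, gauss m u (y - x) * (‖y - x‖ ^ 2 / u ^ 2 - m) ∂(LpC S p T A χ))
          - ∫ y, gauss m u (y - x) * (‖y - x‖ ^ 2 / u ^ 2 - m) ∂(LmC S Q p χ)|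
        ≤ C * gav (LpC S p T A χ) (2 * u) x + C * gav (LmC S Q p χ) (2 * u) x :=
          (abs_sub _ _).trans (add_le_add a1 a2)
      _ = C * (gav (LpC S p T A χ) (2 * u) x + gav (LmC S Q p χ) (2 * u) x) := by ring
      _ ≤ C * ((p.CQ + 3) * (2 ^ (m + 1) * Env p T (2 * i + 1) v1)) := by
          refine mul_le_mul_of_nonneg_left (a3.trans ?_) hC.le
          exact mul_le_mul_of_nonneg_left a4 (by linarith)
      _ = _ := by ring

/-- the node total at the outer scale: `ρ² M_ρ ≤ ρ^{2-m} R^m E_{2i}(R) ≤ T^{4N(m-2) - J0} I₁ ≤ ℓ^{-41} I₁`. -/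
theorem vert_top (m n Q : ℕ) (hm : 1 ≤ m) (hQ : 2 ≤ Q) (κ Cg : ℝ) (F : Fix m n Q Cg) (p : Prm)
    (hp : p.Ok m) :
    ∃ T0 : ℝ, ∀ T : ℝ, T0 ≤ T → ∀ (S : Sys m n) (A : Fin Q → E n) (grp : Fin Q → Fin Q),
      Root F κ p S T A grp → ∀ (i : ℕ) (xs : E m) (R : ℝ) (χ : E m → ℝ) (x : E m) (s0 : ℝ),
      Vert F S p T A i xs R χ x s0 → ∀ v1 : ℝ, 0 < v1 → v1 ≤ R →
      rho p T R ^ 2 * S.Mav Q χ (rho p T R) x
        ≤ T ^ ((p.J0 : ℝ) * (((2 * i + 1 : ℕ) : ℝ) + 1)) * dT T * v1 ^ (-eps T) / Real.log T ^ 41 := by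
  refine ⟨Real.exp 1, fun T hTT S A grp hr i xs R χ x s0 hV v1 hv1 hv1R => ?_⟩
  have hT1 : 1 ≤ T := le_trans (by have := Real.add_one_le_exp (1 : ℝ); linarith) hTT
  have hT : 0 < T := by linarith
  have hl1 : 1 ≤ Real.log T := (Real.le_log_iff_exp_le hT).2 hTT
  have hlT : Real.log T ≤ T := (Real.log_le_sub_one_of_pos hT).trans (by linarith)
  have hR := hV.node.R_pos hT
  have tr := hV.node.trunc hr hT hV.cut
  have := tr.finite_tauC
  have hρe : rho p T R = R / T ^ (4 * p.N) := env_rho_eq p hT R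
  have hTN : 0 < T ^ (4 * p.N) := pow_pos hT _
  have hρ : 0 < rho p T R := by rw [hρe]; positivity
  have hρR : rho p T R ≤ R := nh_rho_le p hT1 hR.le
  set ρ := rho p T R with hρdef
  -- `M_ρ ≤ τ'_ρ`
  have h1 : S.Mav Q χ ρ x ≤ gav (tauC S Q χ) ρ x := by
    rw [← tr.tauav_eq, tr.tauav_split hρ]
    have a1 := (abs_le.1 (tr.abs_Mav_le (Q := Q) hρ x)).2
    have a2 := tr.Dav_nonneg hρ x
    have a3 := tr.Lamav_nonneg hρ x
    linarith
  have h2 : gav (tauC S Q χ) ρ x ≤ ρ ^ (-(m : ℝ)) * (R ^ m * Env p T (2 * i) R) :=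
    (gav_le_total _ hρ x).trans
      (mul_le_mul_of_nonneg_left (node_total hV.node hr hT hV.cut) (Real.rpow_nonneg hρ.le _))
  have h3 : ρ ^ (-(m : ℝ)) * R ^ m = T ^ (4 * p.N * m) := by
    rw [Real.rpow_neg hρ.le, Real.rpow_natCast, hρe, div_pow, ← pow_mul]
    field_simp
  have hE := Env_pos (p := p) hT hR (2 * i)
  have h4 : ρ ^ 2 * S.Mav Q χ ρ x ≤ T ^ (4 * p.N * m) * (R ^ 2 * Env p T (2 * i) R) := by
    calc ρ ^ 2 * S.Mav Q χ ρ x ≤ ρ ^ 2 * (ρ ^ (-(m : ℝ)) * (R ^ m * Env p T (2 * i) R)) :=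
          mul_le_mul_of_nonneg_left (h1.trans h2) (by positivity)
      _ = ρ ^ 2 * (T ^ (4 * p.N * m) * Env p T (2 * i) R) := by rw [← h3]; ring
      _ ≤ R ^ 2 * (T ^ (4 * p.N * m) * Env p T (2 * i) R) := by
          have : ρ ^ 2 ≤ R ^ 2 := by gcongr
          exact mul_le_mul_of_nonneg_right this (by positivity)
      _ = _ := by ring
  rw [sq_mul_Env hR] at h4
  have h5 : R ^ (-eps T) ≤ v1 ^ (-eps T) :=
    Real.rpow_le_rpow_of_nonpos hv1 hv1R (by linarith [eps_nonneg hT1])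
  have e6 : T ^ ((p.J0 : ℝ) * (((2 * i + 1 : ℕ) : ℝ) + 1))
      = T ^ p.J0 * T ^ ((p.J0 : ℝ) * (((2 * i : ℕ) : ℝ) + 1)) := by
    have e : (p.J0 : ℝ) * (((2 * i + 1 : ℕ) : ℝ) + 1)
        = (p.J0 : ℝ) + (p.J0 : ℝ) * (((2 * i : ℕ) : ℝ) + 1) := by
      push_cast
      ring
    rw [e, Real.rpow_add hT, Real.rpow_natCast]
  have h7 : T ^ (4 * p.N * m) * Real.log T ^ 41 ≤ T ^ p.J0 := by
    have hJ : 4 * p.N * m + 41 ≤ p.J0 := by
      have := hp.J0_ge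
      nlinarith [Nat.zero_le (p.N)]
    calc T ^ (4 * p.N * m) * Real.log T ^ 41 ≤ T ^ (4 * p.N * m) * T ^ 41 := by gcongr
      _ = T ^ (4 * p.N * m + 41) := by rw [pow_add]
      _ ≤ T ^ p.J0 := pow_le_pow_right₀ hT1 hJ
  rw [le_div_iff₀ (by positivity), e6]
  set K := T ^ ((p.J0 : ℝ) * (((2 * i : ℕ) : ℝ) + 1)) * dT T with hK
  have hKpos : 0 < K := mul_pos (Real.rpow_pos_of_pos hT _) (dT_pos T)
  have hv1pos : 0 < v1 ^ (-eps T) := Real.rpow_pos_of_pos hv1 _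
  calc ρ ^ 2 * S.Mav Q χ ρ x * Real.log T ^ 41
      ≤ T ^ (4 * p.N * m) * (K * R ^ (-eps T)) * Real.log T ^ 41 :=
        mul_le_mul_of_nonneg_right h4 (by positivity)
    _ ≤ T ^ (4 * p.N * m) * (K * v1 ^ (-eps T)) * Real.log T ^ 41 := by gcongr
    _ = (T ^ (4 * p.N * m) * Real.log T ^ 41) * (K * v1 ^ (-eps T)) := by ring
    _ ≤ T ^ p.J0 * (K * v1 ^ (-eps T)) := mul_le_mul_of_nonneg_right h7 (by positivity)
    _ = _ := by rw [hK]; ring

/-- arithmetic of the lower bound for `D + Λ` at a hit. -/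
theorem nh_arith_e {L M D Λ aM E1 Cs c CQ τv : ℝ} (hL : L ≤ 2 * M - (1 - c) * D - CQ * Λ)
    (hsc : aM ≤ Cs * (D + Λ) + E1 / 2) (hsplit : τv = aM + D + Λ) (hhit : E1 ≤ τv) (hD : 0 ≤ D)
    (hΛ : 0 ≤ Λ) (hCs : 0 < Cs) (hc : c ≤ 1 / 2) (hCQ : 1 ≤ CQ) :
    L ≤ 2 * M - 1 / (4 * (Cs + 1)) * E1 := by
  have h4 : E1 / 2 ≤ (Cs + 1) * (D + Λ) := by nlinarith
  have h5 : 1 / (4 * (Cs + 1)) * E1 ≤ (D + Λ) / 2 := by
    rw [div_mul_eq_mul_div, one_mul, div_le_div_iff₀ (by positivity) (by norm_num)]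
    nlinarith
  have h6 : (D + Λ) / 2 ≤ (1 - c) * D + CQ * Λ := by nlinarith
  linarith

/-- **No hit or side equality within the factor `(log T)^20`.** -/
theorem near_hit (m n Q : ℕ) (hm : 1 ≤ m) (hQ : 2 ≤ Q) (κ Cg : ℝ) (hκ : 0 < κ) (F : Fix m n Q Cg)
    (p : Prm) (hp : p.Ok m) :
    ∃ T0 : ℝ, ∀ T : ℝ, T0 ≤ T → ∀ (S : Sys m n) (A : Fin Q → E n) (grp : Fin Q → Fin Q),
      Root F κ p S T A grp → ∀ i : ℕ, i ≤ n0 p T + 1 →
      ∀ (xs : E m) (R : ℝ) (χ : E m → ℝ) (x : E m) (s0 : ℝ), Vert F S p T A i xs R χ x s0 →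
      ∀ v1 : ℝ, s0 ≤ v1 → v1 ≤ rho p T R →
      Env p T (2 * i + 1) v1 ≤ gav (tauC S Q χ) v1 x →
      0 ≤ LavC S p T A χ s0 x →
      (∀ s : ℝ, s0 ≤ s → s ≤ rho p T R →
        0 ≤ ∫ v in s0..s, v * (LavC S p T A χ v x
          - eta p T / 2 * (gav (tauC S Q χ) v x + dT T))) →
      Real.log T ^ 20 * s0 < v1 := by
  obtain ⟨Cs, hCs, hsc⟩ := vert_scalar m n Q hm hQ κ Cg F
  obtain ⟨Tsc, hsc⟩ := hsc p hp
  obtain ⟨K1, hK1, hlip⟩ := vert_Llip m p.CQ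
  obtain ⟨ℓ0, hode⟩ := nearhit_ode (1 / (4 * (Cs + 1))) K1 (2 ^ (m + 1)) (by positivity) hK1
    (by positivity)
  obtain ⟨TM, hMd⟩ := vert_Mdot m n Q hm hQ κ Cg hκ F p hp
  obtain ⟨Ttop, htop⟩ := vert_top m n Q hm hQ κ Cg F p hp
  obtain ⟨Thb, hhb⟩ := hit_below m n Q hm hQ κ Cg F p hp
  obtain ⟨Tbig, hbig⟩ := exists_big p Q hQ ℓ0
  obtain ⟨Tk, hk⟩ := kappa_kill (κ / 2) (by positivity) 1
  refine ⟨max (max (max Tsc TM) (max Ttop Thb)) (max Tbig Tk), ?_⟩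
  intro T hT S A grp hr i hi xs R χ x s0 hV v1 hs0v1 hv1ρ hhit hL0 hcum
  have hTsc : Tsc ≤ T := le_trans (le_trans (le_trans (le_max_left _ _) (le_max_left _ _))
    (le_max_left _ _)) hT
  have hTM : TM ≤ T := le_trans (le_trans (le_trans (le_max_right _ _) (le_max_left _ _))
    (le_max_left _ _)) hT
  have hTtop : Ttop ≤ T := le_trans (le_trans (le_trans (le_max_left _ _) (le_max_right _ _))
    (le_max_left _ _)) hT
  have hThb : Thb ≤ T := le_trans (le_trans (le_trans (le_max_right _ _) (le_max_right _ _))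
    (le_max_left _ _)) hT
  have hTbig : Tbig ≤ T := le_trans (le_trans (le_max_left _ _) (le_max_right _ _)) hT
  have hTk : Tk ≤ T := le_trans (le_trans (le_max_right _ _) (le_max_right _ _)) hT
  have big := hbig T hTbig
  have hT1 : 1 ≤ T := big.one_le
  have hT0 : 0 < T := big.pos
  have hl100 : 100 ≤ Real.log T := big.log_ge
  have hl0 : 0 < Real.log T := by linarith
  have hCQ1 : 1 ≤ p.CQ := hp.CQ_ge
  have hCQ : 0 ≤ p.CQ := by linarith
  have hc0 : 0 ≤ cT T := div_nonneg (sq_nonneg _) hT0.le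
  have hc12 : cT T ≤ 1 / 2 := big.cT_le
  have hc1 : cT T ≤ 1 := by linarith
  have hη : 0 < eta p T := eta_pos hT0
  have hd : 0 < dT T := dT_pos T
  have hs0 : 0 < s0 := (rb_pos Q T).trans_le hV.s0_ge
  have hR : 0 < R := hV.node.R_pos hT0
  have tr : Trunc S Q χ xs R := hV.node.trunc hr hT0 hV.cut
  have hfin : IsFiniteMeasure (tauC S Q χ) := tr.finite_tauC
  have hρR : rho p T R ≤ R := by
    unfold rho
    have : T ^ (-(4 * (p.N : ℝ))) ≤ 1 :=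
      Real.rpow_le_one_of_one_le_of_nonpos hT1 (by
        have : (0 : ℝ) ≤ p.N := Nat.cast_nonneg _
        linarith)
    nlinarith
  have hchart := vert_chart hT1 hr hV
  by_contra hcon
  have hv1le : v1 ≤ Real.log T ^ 20 * s0 := not_lt.1 hcon
  have hv10 : 0 < v1 := hs0.trans_le hs0v1
  have h16 : 16 * v1 ≤ rho p T R :=
    (hhb T hThb S A grp hr i xs R χ x s0 hV v1 (hv1ρ.trans hρR) hhit).le
  have hε0 : 0 < eps T := by
    unfold eps
    positivity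
  have hεeq : eps T / Real.log T ^ 58 = cT T := by
    unfold eps cT
    field_simp
  have hδ : Real.exp (-κ * T / 2) ≤ eps T / Real.log T ^ 58 := by
    rw [hεeq]
    have h1 := hk T hTk
    rw [Real.rpow_one] at h1
    have h2 : -(κ / 2) * T = -κ * T / 2 := by ring
    rw [h2] at h1
    unfold cT
    rw [le_div_iff₀ hT0]
    have h3 : (1 : ℝ) ≤ Real.log T ^ 2 := one_le_pow₀ (by linarith)
    nlinarith
  have hεlog : eps T * (20 * Real.log (Real.log T)) ≤ Real.log 2 := by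
    have h1 : Real.log (Real.log T) ≤ Real.log T := (Real.log_le_sub_one_of_pos hl0).trans (by linarith)
    have h2 := big.eps_le
    have h3 : (0.6931471803 : ℝ) < Real.log 2 := Real.log_two_gt_d9
    have h4 : eps T * Real.log (Real.log T) ≤ eps T * Real.log T :=
      mul_le_mul_of_nonneg_left h1 hε0.le
    nlinarith
  have hEnv : ∀ v : ℝ, T ^ ((p.J0 : ℝ) * (((2 * i + 1 : ℕ) : ℝ) + 1)) * dT T * v ^ (-(2 + eps T))
      = Env p T (2 * i + 1) v := fun v => rfl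
  -- pointwise facts
  have hsplit : ∀ v : ℝ, 0 < v → gav (tauC S Q χ) v x
      = S.absMav Q χ v x + S.Dav χ v x + S.Lamav χ v x := fun v hv => by
    rw [← tr.tauav_eq, tr.tauav_split hv]
  have hLup : ∀ v : ℝ, 0 < v → LavC S p T A χ v x
      ≤ 2 * S.Mav Q χ v x - (1 - cT T) * S.Dav χ v x - p.CQ * S.Lamav χ v x := fun v hv => by
    rw [tr.LavC_eq p T A hc0 hCQ hv x]
    have h1 := tr.Dfar_le A (far p Q T) hv x
    have h2 := mul_le_mul_of_nonneg_left h1 hc0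
    linarith
  refine hode (Real.log T) big.log_ge' (eps T) (cT T) (Real.exp (-κ * T / 2))
    (T ^ ((p.J0 : ℝ) * (((2 * i + 1 : ℕ) : ℝ) + 1)) * dT T) s0 v1 (rho p T R)
    (fun v => S.Mav Q χ v x) (fun v => S.intM Q (kerDot χ v x)) (fun v => S.Dav χ v x)
    (fun v => S.Rav χ v x) (fun v => LavC S p T A χ v x)
    (fun v => eta p T / 2 * (gav (tauC S Q χ) v x + dT T))
    (by positivity) hε0 big.eps_le_one hc0 hc12 (Real.exp_pos _).le hεeq.ge hδ hεlog hs0 hs0v1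
    hv1le h16 ?_ ?_ ?_ ?_ ?_ ?_ (tr.Dav_continuousOn x) (tr.LavC_continuousOn p T A x) ?_ ?_ ?_ hL0
    ?_
  · intro v hv
    exact hr.hyp.valid.hasDerivAt_Mav Q hchart (hs0.trans_le hv.1)
  · intro v hv
    rw [hEnv]
    exact hMd T hTM S A grp hr i xs R χ x s0 hV v hv.1 hv.2
  · intro v hv
    have hv0 : 0 < v := hs0.trans_le hv.1
    rw [hEnv]
    refine ⟨tr.Dav_nonneg hv0 x, ?_, tr.Rav_nonneg hv0 x⟩
    have h1 := hV.env v hv.1 (hv.2.trans hρR)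
    have h2 := hsplit v hv0
    have h3 := tr.absMav_nonneg hv0 x
    have h4 := tr.Lamav_nonneg hv0 x
    linarith
  · intro v hv
    have hv0 : 0 < v := hs0.trans_le hv.1
    have h1 := hLup v hv0
    have h2 := mul_nonneg hCQ (tr.Lamav_nonneg hv0 x)
    linarith
  · rw [hEnv]
    have h1 := hLup v1 hv10
    have h2 := hsc T hTsc S A grp hr i hi xs R χ x s0 hV v1 hs0v1 hv1ρ
    have h3 := hsplit v1 hv10
    have hD := tr.Dav_nonneg hv10 x
    have hΛ := tr.Lamav_nonneg hv10 x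
    exact nh_arith_e h1 h2 h3 hhit hD hΛ hCs hc12 hCQ1
  · intro v hv
    rw [hEnv]
    have h1 := hlip n Q Cg κ F p rfl hCQ S T A grp hT1 hc0 hc1 hr i xs R χ x s0 hV v1 v hs0v1 hv.1
      (by linarith [hv.2])
    have h2 := (abs_le.1 h1).2
    linarith
  · exact (continuousOn_const.mul ((gav_continuousOn_scale (tauC S Q χ) x).add continuousOn_const))
  · intro v hv
    have hv0 : 0 < v := hs0.trans_le hv.1
    have := gav_nonneg (tauC S Q χ) hv0 x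
    positivity
  · intro s hs
    exact hcum s hs.1 hs.2
  · exact htop T hTtop S A grp hr i xs R χ x s0 hV v1 hv10 (hv1ρ.trans hρR)

end Claimed.Agent.R322.Sx.Sep
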