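import Claimed.Agent.R322.Sx.Sep.Child
import Claimed.Agent.R322.Sx.Sep.NearHit

/-!
# R322 / Sx / Sep / LargeA : what is known at a contact of a large node (glue, helper189)

`contact_facts`: every contact is a vertical-side contact with a remote equality scale, AE (4.34), and satisfies the
child bound AE (4.33).  The leaves (`vert_of_mesh`, `near_hit`, `child_bound`) enter as hypotheses at the given `T`.
-/

set_option autoImplicit false

namespace Claimed.Agent.R322.Sx.Sep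

open MeasureTheory Set Metric
open scoped ENNReal NNReal InnerProductSpace

variable {m n Q : ℕ} {Cg : ℝ}

theorem tm_pos (Q : ℕ) (T : ℝ) (j : ℕ) : 0 < tm Q T j := by
  unfold tm
  have := rb_pos Q T
  positivity

theorem tm_mono (Q : ℕ) (T : ℝ) {j j' : ℕ} (h : j ≤ j') : tm Q T j ≤ tm Q T j' := by
  unfold tm
  have := rb_pos Q T
  exact mul_le_mul_of_nonneg_right (pow_le_pow_right₀ (by norm_num) h) this.le

/-- mesh scales lie below `ρ`. -/
theorem tm_le_rho {p : Prm} {T R : ℝ} (hρ : 0 < rho p T R) {j : ℕ} (hj : j < Kmesh p Q T R) :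
    tm Q T j ≤ rho p T R := by
  have hrb := rb_pos Q T
  unfold Kmesh at hj
  have h1 : (j : ℝ) < Real.logb 2 (rho p T R / rb Q T) := Nat.lt_ceil.1 hj
  have h2 : (2 : ℝ) ^ (j : ℝ) < rho p T R / rb Q T :=
    (Real.lt_logb_iff_rpow_lt (by norm_num) (div_pos hρ hrb)).1 h1
  rw [Real.rpow_natCast, lt_div_iff₀ hrb] at h2
  exact h2.le

theorem qtest_continuous {S : Sys m n} {χ : E m → ℝ} (hfin : IsFiniteMeasure (tauC S Q χ))
    (p : Prm) (T : ℝ) (i j : ℕ) : Continuous (qtest S Q p T χ i j) := by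
  unfold qtest
  exact (gav_continuous (tauC S Q χ) (tm_pos Q T j)).div_const _

/-- the facts at a contact `(x, s0)`. -/
structure CFacts (F : Fix m n Q Cg) (S : Sys m n) (p : Prm) (T : ℝ) (A : Fin Q → E n) (i : ℕ)
    (xs : E m) (R : ℝ) (χ : E m → ℝ) (lam : ℕ → ℝ) (h : Measure (E m)) (c : ℝ) (x : E m)
    (s0 : ℝ) : Prop where
  vert : Vert F S p T A i xs R χ x s0
  bound : gav h s0 x ≤ c * (gav (tauC S Q χ) s0 x + dT T)
  side : ∃ j, j < Kmesh p Q T R ∧ Real.log T ^ 20 * s0 < tm Q T j ∧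
    qtest S Q p T χ i j x = lam j ∧
    ∀ j', j < j' → j' < Kmesh p Q T R → qtest S Q p T χ i j' x ≤ lam j'

theorem contact_facts {F : Fix m n Q Cg} {κ : ℝ} {p : Prm} {S : Sys m n} {T : ℝ} {A : Fin Q → E n}
    {grp : Fin Q → Fin Q} (hr : Root F κ p S T A grp) (hT : 1 ≤ T) {i : ℕ} {xs : E m} {R : ℝ}
    (hn : IsNode F S p T A i xs R) {χ : E m → ℝ} (hχ : IsCutoff χ xs (2 * R) R)
    {lam : ℕ → ℝ} (hlam : ∀ j, 1 ≤ lam j ∧ lam j ≤ 2) {Cc pn : ℝ} (hCc : 0 < Cc) (hpn : 0 < pn)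
    (hbot : 8 * Cc ≤ T) (hrbs : rb Q T ≤ smallR p Q T) (hlog : 1 ≤ Real.log T)
    (hρ : rb Q T < rho p T R)
    (hvm : ∀ (x : E m) (s0 : ℝ), x ∈ ball xs R → s0 ≤ rho p T R →
      (x, s0) ∈ meshD (rb Q T) (Kmesh p Q T R) (qtest S Q p T χ i) lam →
      Vert F S p T A i xs R χ x s0)
    (hnh : ∀ (x : E m) (s0 : ℝ), Vert F S p T A i xs R χ x s0 →
      ∀ v1 : ℝ, s0 ≤ v1 → v1 ≤ rho p T R →
      Env p T (2 * i + 1) v1 ≤ gav (tauC S Q χ) v1 x →
      0 ≤ LavC S p T A χ s0 x →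
      (∀ s : ℝ, s0 ≤ s → s ≤ rho p T R →
        0 ≤ ∫ v in s0..s, v * (LavC S p T A χ v x
          - eta p T / 2 * (gav (tauC S Q χ) v x + dT T))) →
      Real.log T ^ 20 * s0 < v1)
    (hcb : ∀ (x : E m) (s0 : ℝ), Vert F S p T A i xs R χ x s0 → ∀ pn' : ℝ, 0 ≤ pn' →
      (∀ (y : E m) (r : ℝ), IsNode F S p T A (i + 1) y r → r ≤ s0 → ∀ w : E m → ℝ,
        IsWeight w y r → Lfun S p T A w ≤ pn' * NR S Q T y r) →
      LavC S p T A χ s0 x
        ≤ Cc * pn' * (gav (tauC S Q χ) s0 x + dT T) + eta p T / 4 * dT T)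
    (hnb : NodeBound F S p T A (i + 1) pn)
    (hsm : ∀ (y : E m) (r : ℝ), IsNode F S p T A (i + 1) y r → r ≤ smallR p Q T → ∀ w : E m → ℝ,
      IsWeight w y r → Lfun S p T A w ≤ eta p T / T * NR S Q T y r)
    (h : Measure (E m)) {x : E m} {s0 : ℝ} (hx : x ∈ ball xs R)
    (hent : (x, s0) ∈ entrance (meshD (rb Q T) (Kmesh p Q T R) (qtest S Q p T χ i) lam))
    (hc1 : gav h s0 x + eta p T / 2 * (gav (tauC S Q χ) s0 x + dT T) ≤ LavC S p T A χ s0 x)
    (hc2 : ∀ s : ℝ, s0 ≤ s → s ≤ rho p T R →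
      0 ≤ ∫ v in s0..s, v * (LavC S p T A χ v x
        - eta p T / 2 * (gav (tauC S Q χ) v x + dT T))) :
    CFacts F S p T A i xs R χ lam h (Cc * pn) x s0 := by
  have hT0 : 0 < T := by linarith
  have tr : Trunc S Q χ xs R := hn.trunc hr hT0 hχ
  have hfin := tr.finite_tauC
  have hrb := rb_pos Q T
  have hρ0 : 0 < rho p T R := hrb.trans hρ
  have hqc : ∀ j, Continuous (qtest S Q p T χ i j) := qtest_continuous hfin p T i
  have hD := meshD_isContinuation (q := qtest S Q p T χ i) (K := Kmesh p Q T R) lam hrb hρ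
    (fun j hj => tm_le_rho hρ0 hj) hqc
  obtain ⟨hs0a, hs0ρ⟩ := entrance_le_stop hD hent
  simp only at hs0a hs0ρ
  have hmem : (x, s0) ∈ meshD (rb Q T) (Kmesh p Q T R) (qtest S Q p T χ i) lam := hent.1
  have hV := hvm x s0 hx hs0ρ hmem
  have hs0 : 0 < s0 := hrb.trans_le hs0a
  have hη : 0 < eta p T := eta_pos hT0
  have hd := dT_pos T
  have hg0 : 0 ≤ gav h s0 x := gav_nonneg h hs0 x
  have hτ0 : 0 ≤ gav (tauC S Q χ) s0 x := gav_nonneg _ hs0 x
  set X := gav (tauC S Q χ) s0 x + dT T with hX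
  have hXd : dT T ≤ X := by linarith
  have hX0 : 0 < X := by linarith
  have hL0 : 0 ≤ LavC S p T A χ s0 x := by
    have : 0 ≤ eta p T / 2 * X := by positivity
    linarith
  -- no bottom contact
  have hlt : rb Q T < s0 := by
    by_contra hcon
    have hs0eq : s0 ≤ rb Q T := not_lt.1 hcon
    have h1 := hcb x s0 hV (eta p T / T) (by positivity)
      (fun y r hy hr' w hw => hsm y r hy (hr'.trans (hs0eq.trans hrbs)) w hw)
    have h2 : Cc * (eta p T / T) ≤ eta p T / 8 := by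
      rw [mul_div_assoc', div_le_div_iff₀ hT0 (by norm_num)]
      nlinarith
    have h3 : Cc * (eta p T / T) * X ≤ eta p T / 8 * X := mul_le_mul_of_nonneg_right h2 hX0.le
    have h4 : eta p T / 4 * dT T ≤ eta p T / 4 * X := mul_le_mul_of_nonneg_left hXd (by positivity)
    have h5 : 0 < eta p T * X := mul_pos hη hX0
    nlinarith
  obtain ⟨j, hjK, hs0j, hlamj⟩ := meshD_entrance hrb hqc hent hlt
  simp only at hs0j hlamj
  have htm : tm Q T j = 2 ^ j * rb Q T := rfl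
  have hE : 0 < Env p T (2 * i + 1) (tm Q T j) := Env_pos hT0 (tm_pos Q T j) _
  have hhit : Env p T (2 * i + 1) (tm Q T j) ≤ gav (tauC S Q χ) (tm Q T j) x := by
    have h1 : 1 ≤ qtest S Q p T χ i j x := (hlam j).1.trans hlamj
    unfold qtest at h1
    rwa [le_div_iff₀ hE, one_mul] at h1
  have hfar := hnh x s0 hV (tm Q T j) hs0j (tm_le_rho hρ0 hjK) hhit hL0 hc2
  have hl20 : 1 ≤ Real.log T ^ 20 := one_le_pow₀ hlog
  have hs0lt : s0 < tm Q T j := by nlinarith
  refine ⟨hV, ?_, j, hjK, hfar, ?_, ?_⟩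
  · have h1 := hcb x s0 hV pn hpn.le (fun y r hy _ w hw => hnb y r hy w hw)
    have h4 : eta p T / 4 * dT T ≤ eta p T / 4 * X := mul_le_mul_of_nonneg_left hXd (by positivity)
    have h5 : 0 < eta p T * X := mul_pos hη hX0
    nlinarith
  · rcases hmem.2 j hjK with h1 | h1
    · simp only at h1
      rw [← htm] at h1
      linarith
    · exact le_antisymm h1 hlamj
  · intro j' hjj' hj'K
    rcases hmem.2 j' hj'K with h1 | h1
    · simp only at h1
      have h2 : tm Q T j ≤ tm Q T j' := tm_mono Q T hjj'.le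
      have h3 : tm Q T j' = 2 ^ j' * rb Q T := rfl
      rw [← h3] at h1
      linarith
    · exact h1

end Claimed.Agent.R322.Sx.Sep
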