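import Claimed.Agent.R322.Sx.Sep.LargeA
import Claimed.Agent.R322.Pack036
import Claimed.Agent.R322.Pack037

/-!
# R322 / Sx / Sep / LargeB : the two charging steps combined (glue, helper189)

`good_in_event`: AE (4.38)-(4.39), every good ball lies in the threshold event.
`charge_glue`: `h(univ) ≤ (bad total) + N_m A0 p ν₂(event)`, AE (4.37) + (4.41).
-/

set_option autoImplicit false

namespace Claimed.Agent.R322.Sx.Sep

open MeasureTheory Set Metric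
open scoped ENNReal NNReal InnerProductSpace

variable {m n Q : ℕ} {Cg : ℝ}

/-- AE (4.39): all points within `(log T) s0` of a contact lie in the threshold event. -/
theorem good_in_event {F : Fix m n Q Cg} {S : Sys m n} {p : Prm} {T : ℝ} {A : Fin Q → E n} {i : ℕ}
    {xs : E m} {R : ℝ} {χ : E m → ℝ} {lam : ℕ → ℝ} {h : Measure (E m)} {c : ℝ} {x : E m} {s0 : ℝ}
    (hf : CFacts F S p T A i xs R χ lam h c x s0) {Cq δ : ℝ} (hCq : 0 < Cq)
    (hlog : 1 ≤ Real.log T) (hρ0 : 0 < rho p T R) (hρR : 2 * rho p T R ≤ R)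
    (hlip : Cq * (Real.log T / Real.log T ^ 20) ≤ δ)
    (hq : ∀ (j : ℕ) (y : E m), s0 ≤ tm Q T j → 2 * tm Q T j ≤ R → ‖y - x‖ ≤ tm Q T j →
      |qtest S Q p T χ i j y - qtest S Q p T χ i j x| ≤ Cq * (‖y - x‖ / tm Q T j))
    {y : E m} (hy : ‖y - x‖ ≤ Real.log T * s0) :
    y ∈ thrEvent (Kmesh p Q T R) (qtest S Q p T χ i) lam δ := by
  obtain ⟨j, hjK, hfar, heq, hup⟩ := hf.side
  have hs0 : 0 < s0 := (rb_pos Q T).trans_le hf.vert.s0_ge
  have hl0 : 0 < Real.log T := by linarith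
  have hl20 : Real.log T ≤ Real.log T ^ 20 := by
    calc Real.log T = Real.log T ^ 1 := (pow_one _).symm
      _ ≤ Real.log T ^ 20 := pow_le_pow_right₀ hlog (by norm_num)
  have key : ∀ j', j ≤ j' → j' < Kmesh p Q T R →
      |qtest S Q p T χ i j' y - qtest S Q p T χ i j' x| ≤ δ := by
    intro j' hjj' hj'K
    have h1 : tm Q T j ≤ tm Q T j' := tm_mono Q T hjj'
    have h2 : Real.log T ^ 20 * s0 < tm Q T j' := hfar.trans_le h1
    have h3 : s0 ≤ tm Q T j' := by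
      have : 1 ≤ Real.log T ^ 20 := one_le_pow₀ hlog
      nlinarith
    have h4 : ‖y - x‖ ≤ tm Q T j' := by
      have : Real.log T * s0 ≤ Real.log T ^ 20 * s0 := mul_le_mul_of_nonneg_right hl20 hs0.le
      linarith
    have h5 : 2 * tm Q T j' ≤ R := by
      have := tm_le_rho (Q := Q) hρ0 hj'K
      linarith
    have h6 := hq j' y h3 h5 h4
    have h7 : ‖y - x‖ / tm Q T j' ≤ Real.log T / Real.log T ^ 20 := by
      rw [div_le_div_iff₀ (tm_pos Q T j') (by positivity)]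
      calc ‖y - x‖ * Real.log T ^ 20 ≤ Real.log T * s0 * Real.log T ^ 20 :=
            mul_le_mul_of_nonneg_right hy (by positivity)
        _ = Real.log T * (Real.log T ^ 20 * s0) := by ring
        _ ≤ Real.log T * tm Q T j' := mul_le_mul_of_nonneg_left h2.le hl0.le
    exact h6.trans ((mul_le_mul_of_nonneg_left h7 hCq.le).trans hlip)
  refine ⟨j, hjK, ?_, fun j' hjj' hj'K => ?_⟩
  · rw [← heq]
    exact key j le_rfl hjK
  · have h1 := key j' hjj'.le hj'K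
    have h2 := hup j' hjj' hj'K
    have h3 := (abs_le.1 h1).2
    linarith

/-- the two charging steps. -/
theorem charge_glue (m : ℕ) (hm : 1 ≤ m) :
    ∃ (Cbad : ℝ) (Nm : ℕ), 0 < Cbad ∧ ∀ (h τ' : Measure (E m)) [IsFiniteMeasure h]
      [IsFiniteMeasure τ'] (𝒮 : Set (E m × ℝ)) (Ev : Set (E m)) (xs : E m)
      (R a ρ ℓ pn Cc d : ℝ),
      0 < a → a ≤ ρ → ρ ≤ R → ℓ * ρ ≤ R → 1 ≤ ℓ → 0 < pn → 0 < Cc → 0 ≤ d →
      h (Prod.fst '' 𝒮)ᶜ = 0 →
      (∀ z ∈ 𝒮, z.1 ∈ ball xs R ∧ a ≤ z.2 ∧ z.2 ≤ ρ ∧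
        gav h z.2 z.1 ≤ Cc * pn * (gav τ' z.2 z.1 + d) ∧
        ∀ y, ‖y - z.1‖ ≤ ℓ * z.2 → y ∈ Ev) →
      h univ ≤ ENNReal.ofReal (Cbad * Cc * pn * (1 + Real.logb 2 (ρ / a)) * (1 + ℓ) ^ (2 * m + 1)
            * Real.exp (-ℓ ^ 2 / 2) * ((τ' univ).toReal + d * R ^ m))
        + (Nm : ℝ≥0∞) * ENNReal.ofReal (2 * Cc * pn)
          * (τ' + ENNReal.ofReal d • (volume : Measure (E m)).restrict (ball xs (2 * R))) Ev := by
  obtain ⟨Cbad, hCbad, hbad⟩ := bad_total m hm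
  obtain ⟨Nm, hgood⟩ := good_total m
  refine ⟨Cbad, Nm, hCbad, ?_⟩
  intro h τ' _ _ 𝒮 Ev xs R a ρ ℓ pn Cc d ha haρ hρR hℓρ hℓ hpn hCc hd hnull hS
  set ν : Measure (E m) := τ' + ENNReal.ofReal d • (volume : Measure (E m)) with hν
  set ν₂ : Measure (E m) :=
    τ' + ENNReal.ofReal d • (volume : Measure (E m)).restrict (ball xs (2 * R)) with hν₂
  set 𝒮b : Set (E m × ℝ) := {z | z ∈ 𝒮 ∧ ∀ r, 0 < r → r ≤ ℓ * z.2 →
    ENNReal.ofReal (2 * Cc * pn) * ν (closedBall z.1 r) ≤ h (closedBall z.1 r)} with h𝒮b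
  set 𝒢 : Set (E m × ℝ) := {z | ∃ s0, (z.1, s0) ∈ 𝒮 ∧ 0 < z.2 ∧ z.2 ≤ ℓ * s0 ∧
    h (closedBall z.1 z.2) ≤ ENNReal.ofReal (2 * Cc * pn) * ν (closedBall z.1 z.2)} with h𝒢
  have hcover : Prod.fst '' 𝒮 ⊆ Prod.fst '' 𝒮b ∪ Prod.fst '' 𝒢 := by
    rintro _ ⟨z, hz, rfl⟩
    by_cases hzb : z ∈ 𝒮b
    · exact Or.inl ⟨z, hzb, rfl⟩
    · right
      have : ¬ ∀ r, 0 < r → r ≤ ℓ * z.2 →
          ENNReal.ofReal (2 * Cc * pn) * ν (closedBall z.1 r) ≤ h (closedBall z.1 r) :=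
        fun hall => hzb ⟨hz, hall⟩
      push Not at this
      obtain ⟨r, hr0, hr1, hr2⟩ := this
      exact ⟨(z.1, r), ⟨z.2, hz, hr0, hr1, hr2.le⟩, rfl⟩
  have h1 : h univ ≤ h (Prod.fst '' 𝒮b) + h (Prod.fst '' 𝒢) := by
    calc h univ = h (Prod.fst '' 𝒮 ∪ (Prod.fst '' 𝒮)ᶜ) := by rw [union_compl_self]
      _ ≤ h (Prod.fst '' 𝒮) + h (Prod.fst '' 𝒮)ᶜ := measure_union_le _ _
      _ = h (Prod.fst '' 𝒮) := by rw [hnull, add_zero]
      _ ≤ h (Prod.fst '' 𝒮b ∪ Prod.fst '' 𝒢) := measure_mono hcover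
      _ ≤ _ := measure_union_le _ _
  have h2 := hbad h τ' 𝒮b xs R a ρ ℓ pn Cc (2 * Cc) d ha haρ hρR hℓ hpn hCc le_rfl hd
    (fun z hz => by
      obtain ⟨hz1, hz2, hz3, hz4, _⟩ := hS z hz.1
      exact ⟨hz1, hz2, hz3, hz4, hz.2⟩)
  have h3 := hgood h ν₂ 𝒢 Ev (2 * Cc * pn) (ℓ * ρ) (fun z hz => by
    obtain ⟨s0, hzS, hz0, hz1, hz2⟩ := hz
    obtain ⟨hx, _, hs0ρ, _, hEv⟩ := hS _ hzS
    simp only at hx hs0ρ hEv
    have hzρ : z.2 ≤ ℓ * ρ := hz1.trans (mul_le_mul_of_nonneg_left hs0ρ (by linarith))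
    have hsub : closedBall z.1 z.2 ⊆ ball xs (2 * R) := by
      intro y hy
      rw [mem_closedBall] at hy
      rw [mem_ball] at hx ⊢
      calc dist y xs ≤ dist y z.1 + dist z.1 xs := dist_triangle _ _ _
        _ < z.2 + R := by linarith
        _ ≤ 2 * R := by linarith
    refine ⟨hz0, hzρ, fun y hy => hEv y ?_, ?_⟩
    · rw [mem_closedBall, dist_eq_norm] at hy
      exact hy.trans hz1
    · have : ν₂ (closedBall z.1 z.2) = ν (closedBall z.1 z.2) := by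
        simp only [hν₂, hν, Measure.add_apply, Measure.smul_apply, smul_eq_mul]
        rw [Measure.restrict_apply measurableSet_closedBall, inter_eq_left.2 hsub]
      rw [this]
      exact hz2)
  exact h1.trans (add_le_add h2 h3)

end Claimed.Agent.R322.Sx.Sep
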