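import Claimed.Agent.R322.Sx.Sep.Large
import Claimed.Agent.R322.Pack038

/-!
# R322 / Sx / Sep / Main : the finite recursion of AE Proposition 4.3 (glue `L-Sep-Main`)

`node_last` (last generation, `|L'| ≤ (C_Q + 3) τ`), `node_step` (small or large node), `node_rec` (downward induction AE (4.18)),
`root_node` (initialisation), `final_num` (solution of the recurrence), `separated_main`.
-/

set_option autoImplicit false

namespace Claimed.Agent.R322.Sx.Sep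

open MeasureTheory Set Metric
open scoped ENNReal NNReal InnerProductSpace

variable {m n Q : ℕ} {Cg : ℝ}

theorem NR_nonneg (S : Sys m n) (Q : ℕ) (T : ℝ) (x : E m) {R : ℝ} (hR : 0 ≤ R) :
    0 ≤ NR S Q T x R := by
  unfold NR
  have := dT_pos T
  positivity

/-- the trivial bound, valid at every generation. -/
theorem node_last {F : Fix m n Q Cg} {κ : ℝ} {p : Prm} {S : Sys m n} {T : ℝ} {A : Fin Q → E n}
    {grp : Fin Q → Fin Q} (hr : Root F κ p S T A grp) (hT : 0 < T) (hc0 : 0 ≤ cT T)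
    (hc : cT T ≤ 1) (hCQ : 0 ≤ p.CQ) (i : ℕ) : NodeBound F S p T A i (p.CQ + 3) := by
  intro xs R hn w hw
  have hR : 0 < R := hn.R_pos hT
  obtain ⟨χ, hχ⟩ := exists_cutoff xs (show 0 < 2 * R by linarith) hR
  have tr : Trunc S Q χ xs R := hn.trunc hr hT hχ
  have := tr.finite_tauC
  have hwm : Measurable w := (IsWeight.continuous hw).measurable
  have hb : ∀ y, |w y| ≤ 1 := fun y => by
    rw [abs_of_nonneg (hw.nonneg y)]
    exact hw.le_one y
  have hs : Function.support w ⊆ ball xs (2 * R) :=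
    hw.supp.trans (ball_subset_ball (by linarith))
  have h1 := tr.Lfun_local p T A hc0 hCQ hwm 1 hb hs
  have h2 := tr.abs_source_le p T A hc0 hc hCQ hwm 1 hb
  have h3 : ∫ y, |w y| ∂(tauC S Q χ) ≤ (tauC S Q χ univ).toReal := by
    calc ∫ y, |w y| ∂(tauC S Q χ) ≤ ∫ _y, (1 : ℝ) ∂(tauC S Q χ) := by
          apply integral_mono_of_nonneg (Filter.Eventually.of_forall fun y => abs_nonneg _)
            (integrable_const _) (Filter.Eventually.of_forall hb)
      _ = (tauC S Q χ univ).toReal := by simp [Measure.real]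
  have h4 : (tauC S Q χ univ).toReal ≤ (S.tau Q (ball xs (4 * R))).toReal :=
    ENNReal.toReal_mono tr.fin.ne tr.tauC_univ_le
  have h5 : (S.tau Q (ball xs (4 * R))).toReal ≤ NR S Q T xs R := by
    unfold NR
    have := dT_pos T
    have : 0 ≤ dT T * R ^ m := by positivity
    linarith
  have h6 : 0 ≤ p.CQ + 3 := by linarith
  calc Lfun S p T A w ≤ |Lfun S p T A w| := le_abs_self _
    _ ≤ (p.CQ + 3) * ∫ y, |w y| ∂(tauC S Q χ) := by rw [← h1]; exact h2
    _ ≤ (p.CQ + 3) * NR S Q T xs R :=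
        mul_le_mul_of_nonneg_left (h3.trans (h4.trans h5)) h6

/-- the sequence `p_{n0 - k}` of AE (4.18). -/
noncomputable def pk (a c : ℝ) : ℕ → ℝ
  | 0 => a
  | k + 1 => pk a c k / 2 + c

theorem pk_pos {a c : ℝ} (ha : 0 < a) (hc : 0 ≤ c) (k : ℕ) : 0 < pk a c k := by
  induction k with
  | zero => exact ha
  | succ k ih => simp only [pk]; linarith

theorem pk_le {a c : ℝ} (hc : 0 ≤ c) (k : ℕ) : pk a c k ≤ 2 * c + (1 / 2) ^ k * a := by
  induction k with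
  | zero => simp only [pk, pow_zero, one_mul]; linarith
  | succ k ih => simp only [pk]; rw [pow_succ]; linarith

/-- one step of the recursion: small or large node. -/
theorem node_step (m n Q : ℕ) (hm : 1 ≤ m) (hQ : 2 ≤ Q)
    (ih : ∀ q : ℕ, 1 ≤ q → q < Q → SignedAt m n q) (κ Cg : ℝ) (hκ : 0 < κ) (F : Fix m n Q Cg) :
    ∃ CQ0 : ℝ, 0 < CQ0 ∧ ∀ p : Prm, p.Ok m → CQ0 ≤ p.CQ →
      ∃ T0 : ℝ, ∀ T : ℝ, T0 ≤ T → ∀ (S : Sys m n) (A : Fin Q → E n) (grp : Fin Q → Fin Q),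
      Root F κ p S T A grp → ∀ i : ℕ, i ≤ n0 p T → ∀ pn : ℝ, 0 < pn → pn ≤ p.CQ + 4 →
      NodeBound F S p T A (i + 1) pn →
      NodeBound F S p T A i (pn / 2 + (2 + 16 ^ m) * eta p T) := by
  obtain ⟨CQ0, hCQ0, hsm⟩ := node_small m n Q hm hQ ih κ Cg hκ F
  refine ⟨CQ0, hCQ0, fun p hp hCQ => ?_⟩
  obtain ⟨T1, h1⟩ := hsm p hp hCQ
  obtain ⟨T2, h2⟩ := node_large m n Q hm hQ κ Cg hκ F p hp
  refine ⟨max (max T1 T2) 1, fun T hT S A grp hr i hi pn hpn hpn' hnb xs R hn w hw => ?_⟩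
  have hT1 : T1 ≤ T := le_trans (le_trans (le_max_left _ _) (le_max_left _ _)) hT
  have hT2 : T2 ≤ T := le_trans (le_trans (le_max_right _ _) (le_max_left _ _)) hT
  have hT3 : 1 ≤ T := le_trans (le_max_right _ _) hT
  have hT0 : 0 < T := by linarith
  have hη : 0 < eta p T := eta_pos hT0
  have hNR : 0 ≤ NR S Q T xs R := NR_nonneg S Q T xs (hn.R_pos hT0).le
  rcases le_or_gt R (smallR p Q T) with hR | hR
  · have h := h1 T hT1 S A grp hr i (by omega) xs R hn hR w hw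
    refine h.trans (mul_le_mul_of_nonneg_right ?_ hNR)
    have h3 : eta p T / T ≤ eta p T := div_le_self hη.le hT3
    have h4 : (0 : ℝ) ≤ 16 ^ m := by positivity
    nlinarith
  · exact h2 T hT2 S A grp hr i hi pn hpn hpn' hnb
      (fun y r hy hr' w' hw' => h1 T hT1 S A grp hr (i + 1) (by omega) y r hy hr' w' hw') xs R hn hR
      w hw

/-- the downward induction AE (4.18). -/
theorem node_rec {F : Fix m n Q Cg} {p : Prm} {S : Sys m n} {T : ℝ} {A : Fin Q → E n} {c : ℝ}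
    (hc : 0 ≤ c) (hc' : 2 * c ≤ 1) (hCQ : 0 ≤ p.CQ)
    (hlast : NodeBound F S p T A (n0 p T) (p.CQ + 3))
    (hstep : ∀ i : ℕ, i ≤ n0 p T → ∀ pn : ℝ, 0 < pn → pn ≤ p.CQ + 4 →
      NodeBound F S p T A (i + 1) pn → NodeBound F S p T A i (pn / 2 + c)) (k : ℕ)
    (hk : k ≤ n0 p T) : NodeBound F S p T A (n0 p T - k) (pk (p.CQ + 3) c k) := by
  induction k with
  | zero => simpa [pk] using hlast
  | succ k ih =>
    have h1 := ih (by omega)
    have h2 : n0 p T - (k + 1) + 1 = n0 p T - k := by omega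
    have h3 : pk (p.CQ + 3) c k ≤ p.CQ + 4 := by
      have h4 := pk_le (a := p.CQ + 3) hc k
      have h5 : ((1 : ℝ) / 2) ^ k ≤ 1 := pow_le_one₀ (by norm_num) (by norm_num)
      nlinarith
    have := hstep (n0 p T - (k + 1)) (by omega) (pk (p.CQ + 3) c k)
      (pk_pos (by linarith) hc k) h3 (by rw [h2]; exact h1)
    simpa [pk] using this

theorem exp_le_Env0 (p : Prm) {T : ℝ} (hT : 1 ≤ T) : Real.exp (-T) ≤ Env p T (2 * 0) 1 := by
  unfold Env dT
  simp only [Nat.mul_zero, Nat.cast_zero, zero_add, mul_one, Real.one_rpow]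
  have h1 : (1 : ℝ) ≤ T ^ (p.J0 : ℝ) := Real.one_le_rpow hT (Nat.cast_nonneg _)
  have h2 := Real.exp_pos (-T)
  nlinarith

/-- initialisation: the unit ball is a node of generation `0`. -/
theorem root_node {F : Fix m n Q Cg} {κ : ℝ} {p : Prm} {S : Sys m n} {T : ℝ} {A : Fin Q → E n}
    {grp : Fin Q → Fin Q} (hr : Root F κ p S T A grp) (hT : 1 ≤ T) (hrb : rb Q T ≤ 1) :
    IsNode F S p T A 0 0 1 := by
  have hE := exp_le_Env0 p hT
  have hrm : 0 < F.rmaj := by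
    unfold Fix.rmaj
    have := F.c_gt
    positivity
  refine ⟨?_, le_rfl, by rw [mul_one], ?_, A, ?_, ?_⟩
  · have h1 : (1 : ℝ) ≤ T ^ 2 := one_le_pow₀ hT
    rw [div_le_one (by linarith)]
    linarith
  · rw [mul_one, one_pow, one_mul]
    exact hr.hyp.small.trans (ENNReal.ofReal_le_ofReal hE)
  · have h := hr.maj
    unfold Fix.IsMaj at h ⊢
    rw [mul_one]
    refine isMajority_mono h ?_
    have h2 : 0 ≤ F.rmaj ^ (-(m : ℝ)) := (Real.rpow_pos_of_pos hrm _).le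
    have h3 : 0 ≤ F.Cmaj * F.rmaj := (mul_pos F.Cmaj_pos hrm).le
    exact mul_le_mul_of_nonneg_left
      (Real.sqrt_le_sqrt (mul_le_mul_of_nonneg_left hE h2)) h3
  · refine matched_mono (matched_refl A) ?_
    have := mot_pos Q T
    simp only [Nat.cast_zero, zero_add, one_mul]
    exact this.le

/-- solution of the recurrence. -/
theorem final_num (p : Prm) (P C : ℝ) (hP0 : 0 ≤ P) (hN : P + 10 ≤ p.N) (hC : 0 ≤ C) :
    ∃ T0 : ℝ, ∀ T : ℝ, T0 ≤ T →
      (2 * (C * eta p T) + (1 / 2) ^ (n0 p T) * (p.CQ + 3)) * 2 ≤ T ^ (-P) ∧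
        2 * (C * eta p T) ≤ 1 := by
  refine ⟨max 1 (4 * C + 2 * |p.CQ| + 6), fun T hT => ?_⟩
  have hT1 : 1 ≤ T := le_trans (le_max_left _ _) hT
  have hT2 : 4 * C + 2 * |p.CQ| + 6 ≤ T := le_trans (le_max_right _ _) hT
  have hT0 : 0 < T := by linarith
  have hl : 0 ≤ Real.log T := Real.log_nonneg hT1
  have hη0 : 0 < eta p T := eta_pos hT0
  -- `η ≤ T^{-P} T^{-1}`
  have hη : eta p T ≤ T ^ (-P) * T⁻¹ := by
    unfold eta
    rw [← Real.rpow_neg_one, ← Real.rpow_add hT0]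
    exact Real.rpow_le_rpow_of_exponent_le hT1 (by linarith)
  -- `2^{-n0} ≤ η`
  have h2 : ((1 : ℝ) / 2) ^ (n0 p T) ≤ eta p T := by
    unfold eta
    rw [← Real.rpow_natCast, Real.rpow_def_of_pos (by norm_num : (0 : ℝ) < 1 / 2),
      Real.rpow_def_of_pos hT0]
    apply Real.exp_le_exp.2
    have h3 : Real.log (1 / 2) = -Real.log 2 := by
      rw [one_div, Real.log_inv]
    rw [h3]
    have h4 : 10 * (p.N : ℝ) * Real.log T ≤ (n0 p T : ℝ) := Nat.le_ceil _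
    have h5 : (0.6931471803 : ℝ) < Real.log 2 := Real.log_two_gt_d9
    have h6 : 0 ≤ (p.N : ℝ) * Real.log T := mul_nonneg (Nat.cast_nonneg _) hl
    nlinarith
  have hP : 0 < T ^ (-P) := Real.rpow_pos_of_pos hT0 _
  have hCQ : p.CQ + 3 ≤ |p.CQ| + 3 := by
    have := le_abs_self p.CQ
    linarith
  have hCQ0 : 0 ≤ |p.CQ| + 3 := by positivity
  have h7 : (2 * (C * eta p T) + (1 / 2) ^ (n0 p T) * (p.CQ + 3)) * 2
      ≤ (4 * C + 2 * |p.CQ| + 6) * eta p T := by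
    have h8 : ((1 : ℝ) / 2) ^ (n0 p T) * (p.CQ + 3) ≤ eta p T * (|p.CQ| + 3) :=
      (mul_le_mul_of_nonneg_left hCQ (by positivity)).trans
        (mul_le_mul_of_nonneg_right h2 hCQ0)
    nlinarith
  have h9 : (4 * C + 2 * |p.CQ| + 6) * eta p T ≤ T * (T ^ (-P) * T⁻¹) :=
    mul_le_mul hT2 hη hη0.le hT0.le
  have h10 : T * (T ^ (-P) * T⁻¹) = T ^ (-P) := by
    field_simp
  refine ⟨by linarith, ?_⟩
  have h11 : eta p T ≤ T⁻¹ := by
    unfold eta
    rw [← Real.rpow_neg_one]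
    exact Real.rpow_le_rpow_of_exponent_le hT1 (by linarith)
  have h12 : 2 * C ≤ T := by
    have := abs_nonneg p.CQ
    linarith
  have h13 : 2 * C * eta p T ≤ T * T⁻¹ := mul_le_mul h12 h11 hη0.le hT0.le
  rw [mul_inv_cancel₀ hT0.ne'] at h13
  linarith

/-- **AE Proposition 4.3.** -/
theorem separated_main (m n Q : ℕ) (hm : 1 ≤ m) (hQ : 2 ≤ Q)
    (ih : ∀ q : ℕ, 1 ≤ q → q < Q → SignedAt m n q) (κ Cg : ℝ) (hκ : 0 < κ)
    (F : Fix m n Q Cg) (P : ℝ) (hP : 0 < P) :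
    ∃ CQ CS T0 : ℝ, 0 < CQ ∧ 0 < CS ∧ ∀ (S : Sys m n) (T : ℝ), T0 ≤ T → SignedHyp S Q κ Cg T →
      ∀ A : Fin Q → E n, F.IsMaj S 0 F.rmaj (F.rmaj ^ (-(m : ℝ)) * Real.exp (-T)) A →
      ∀ grp : Fin Q → Fin Q, (∃ i j, grp i ≠ grp j) →
      Sys.Separated A grp (10 * Real.exp (CS * bQ Q T) * Real.sqrt (Real.exp (-T))) →
      ∀ w : E m → ℝ, IsWeight w 0 1 →
        S.intL Q w - CQ * S.intLam w
            + Real.log T ^ 2 / T
              * S.intDfar A (Real.exp (CS * bQ Q T) * Real.sqrt (Real.exp (-T))) w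
          ≤ T ^ (-P) * Real.exp (-T) := by
  obtain ⟨CQ0, hCQ0, hstep⟩ := node_step m n Q hm hQ ih κ Cg hκ F
  set p : Prm := ⟨⌈P⌉₊ + 10, 4 * (⌈P⌉₊ + 10) * (m + 2) + 100, max 1 CQ0, 15⟩ with hpdef
  have hp : p.Ok m := ⟨by simp [hpdef], le_rfl, le_max_left _ _, le_rfl⟩
  have hCQ1 : (1 : ℝ) ≤ p.CQ := hp.CQ_ge
  have hN : P + 10 ≤ (p.N : ℝ) := by
    have := Nat.le_ceil P
    simp only [hpdef, Nat.cast_add, Nat.cast_ofNat]
    linarith
  obtain ⟨T1, h1⟩ := hstep p hp (le_max_right _ _)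
  obtain ⟨T2, h2⟩ := exists_big p Q hQ 1
  have hC : (0 : ℝ) ≤ 2 + 16 ^ m := by positivity
  obtain ⟨T3, h3⟩ := final_num p P (2 + 16 ^ m) hP.le hN hC
  refine ⟨p.CQ, p.CS, max (max T1 T2) T3, by linarith, by norm_num [hpdef], ?_⟩
  intro S T hT hyp A hmaj grp htwo hsep w hw
  have hT1 : T1 ≤ T := le_trans (le_trans (le_max_left _ _) (le_max_left _ _)) hT
  have hT2 : T2 ≤ T := le_trans (le_trans (le_max_right _ _) (le_max_left _ _)) hT
  have hT3 : T3 ≤ T := le_trans (le_max_right _ _) hT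
  have big := h2 T hT2
  have hTone : 1 ≤ T := big.one_le
  have hT0 : 0 < T := big.pos
  obtain ⟨hfin, hc'⟩ := h3 T hT3
  have hr : Root F κ p S T A grp :=
    ⟨hyp, hmaj, htwo, by unfold far; rw [← mul_assoc]; exact hsep⟩
  have hc0 : 0 ≤ cT T := div_nonneg (sq_nonneg _) hT0.le
  have hc1 : cT T ≤ 1 := big.cT_le.trans (by norm_num)
  have hη : 0 < eta p T := eta_pos hT0
  have hlast := node_last hr hT0 hc0 hc1 (by linarith) (n0 p T)
  have hrec := node_rec (c := (2 + 16 ^ m) * eta p T) (mul_nonneg hC hη.le) hc' (by linarith)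
    hlast (fun i hi pn hpn hpn' hnb => h1 T hT1 S A grp hr i hi pn hpn hpn' hnb) (n0 p T) le_rfl
  rw [Nat.sub_self] at hrec
  have hrb : rb Q T ≤ 1 := big.rb_le.trans (Real.exp_le_one_iff.2 (by linarith))
  have hroot := root_node hr hTone hrb
  have hmain := hrec 0 1 hroot w hw
  have hNR : NR S Q T 0 1 ≤ 2 * Real.exp (-T) := by
    unfold NR dT
    rw [mul_one, one_pow, mul_one]
    have : (S.tau Q (ball 0 4)).toReal ≤ Real.exp (-T) :=
      ENNReal.toReal_le_of_le_ofReal (Real.exp_pos _).le hyp.small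
    linarith
  have hpk := pk_le (a := p.CQ + 3) (mul_nonneg hC hη.le) (n0 p T)
  have hpk0 := pk_pos (a := p.CQ + 3) (by linarith) (mul_nonneg hC hη.le) (n0 p T)
  have hexp := Real.exp_pos (-T)
  have hL : Lfun S p T A w = S.intL Q w - p.CQ * S.intLam w
      + Real.log T ^ 2 / T
        * S.intDfar A (Real.exp (p.CS * bQ Q T) * Real.sqrt (Real.exp (-T))) w := rfl
  rw [← hL]
  calc Lfun S p T A w ≤ pk (p.CQ + 3) ((2 + 16 ^ m) * eta p T) (n0 p T) * NR S Q T 0 1 := hmain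
    _ ≤ pk (p.CQ + 3) ((2 + 16 ^ m) * eta p T) (n0 p T) * (2 * Real.exp (-T)) :=
        mul_le_mul_of_nonneg_left hNR hpk0.le
    _ ≤ (2 * ((2 + 16 ^ m) * eta p T) + (1 / 2) ^ (n0 p T) * (p.CQ + 3)) * (2 * Real.exp (-T)) :=
        mul_le_mul_of_nonneg_right hpk (by positivity)
    _ = ((2 * ((2 + 16 ^ m) * eta p T) + (1 / 2) ^ (n0 p T) * (p.CQ + 3)) * 2)
          * Real.exp (-T) := by ring
    _ ≤ T ^ (-P) * Real.exp (-T) := mul_le_mul_of_nonneg_right hfin hexp.le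

end Claimed.Agent.R322.Sx.Sep
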